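import Vale.Agent.RM.Gd

/-! P160 (singularity of symmetric sign matrices): definitions shared by all blocks. -/

open Finset Filter
open scoped RealInnerProductSpace

namespace Vale.Agent.P160

/-- Sample space: one bit for every unordered pair `{i, j}` (loops allowed). -/
abbrev Om (m : ℕ) : Type := Sym2 (Fin m) → Bool

/-- The bit as an integer in `{0, 1}`. -/
def bz (b : Bool) : ℤ := if b then 1 else 0

/-- The symmetric `0/1` matrix of a sample. -/
def mat {m : ℕ} (ω : Om m) : Matrix (Fin m) (Fin m) ℤ := fun i j => bz (ω s(i, j))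

/-- The `0/1` vector of a bit vector. -/
def bv {ι : Type} (b : ι → Bool) : ι → ℤ := fun i => bz (b i)

/-- Euclidean space. -/
abbrev Eu (m : ℕ) : Type := EuclideanSpace ℝ (Fin m)

/-- An integer vector as a point of Euclidean space. -/
def rv {m : ℕ} (z : Fin m → ℤ) : Eu m := WithLp.toLp 2 fun i => (z i : ℝ)

open Classical in
/-- Number of points of a finite type satisfying a predicate. -/
noncomputable def cnt {α : Type} [Fintype α] (p : α → Prop) : ℕ := (univ.filter p).card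

/-- Probability of an event under the uniform law on a finite type. -/
noncomputable def pr {α : Type} [Fintype α] (p : α → Prop) : ℝ := (cnt p : ℝ) / Fintype.card α

/-- A lattice of large index containing the columns of `C` and many `0/1` vectors. -/
def RichE {m : ℕ} (κ η : ℝ) (C : Matrix (Fin m) (Fin m) ℤ) : Prop :=
  ∃ Λ : AddSubgroup (Fin m → ℤ), (∀ z, C.mulVec z ∈ Λ) ∧ (m : ℝ) ^ (η * m) ≤ Λ.index ∧
    (2 : ℝ) ^ (κ * m) ≤ cnt fun b : Fin m → Bool => bv b ∈ Λ

/-- Small determinant, and many `0/1` vectors in the image of the cube `[-1, 1]^m`. -/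
def RichG {m : ℕ} (κ : ℝ) (C : Matrix (Fin m) (Fin m) ℤ) : Prop :=
  |(C.det : ℝ)| ≤ (m : ℝ) ^ ((m : ℝ) / 4) ∧
    (2 : ℝ) ^ (κ * m) ≤ cnt fun b : Fin m → Bool => ∃ y : Fin m → ℝ,
      (∀ i, |y i| ≤ 1) ∧ ∀ i, ∑ j, (C i j : ℝ) * y j = (bv b i : ℝ)

/-- The key proposition (block K). -/
def KP : Prop := ∀ κ η : ℝ, 0 < κ → 0 < η → ∀ᶠ m : ℕ in atTop,
  pr (fun ω : Om m => (mat ω).det ≠ 0 ∧ (RichE κ η (mat ω) ∨ RichG κ (mat ω)))
    ≤ (2 : ℝ) ^ (-(m : ℝ))

@[simp] theorem rv_apply {m : ℕ} (z : Fin m → ℤ) (i : Fin m) : rv z i = (z i : ℝ) := rfl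

theorem mat_apply {m : ℕ} (ω : Om m) (i j : Fin m) : mat ω i j = bz (ω s(i, j)) := rfl

theorem mat_symm {m : ℕ} (ω : Om m) (i j : Fin m) : mat ω i j = mat ω j i := by
  simp [mat, Sym2.eq_swap]

theorem rv_add {m : ℕ} (x y : Fin m → ℤ) : rv (x + y) = rv x + rv y := by
  ext i; simp

theorem rv_sub {m : ℕ} (x y : Fin m → ℤ) : rv (x - y) = rv x - rv y := by
  ext i; simp

theorem rv_neg {m : ℕ} (x : Fin m → ℤ) : rv (-x) = -rv x := by
  ext i; simp

theorem rv_zero {m : ℕ} : rv (0 : Fin m → ℤ) = 0 := by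
  ext i; simp

theorem rv_smul {m : ℕ} (c : ℤ) (x : Fin m → ℤ) : rv (c • x) = (c : ℝ) • rv x := by
  ext i; simp

theorem rv_sum {m : ℕ} {ι : Type} (s : Finset ι) (f : ι → Fin m → ℤ) :
    rv (∑ i ∈ s, f i) = ∑ i ∈ s, rv (f i) := by
  ext j; simp [Finset.sum_apply]

theorem rv_inj {m : ℕ} {x y : Fin m → ℤ} (h : rv x = rv y) : x = y := by
  funext i
  have := congrArg (fun v : Eu m => v i) h
  simpa using this

theorem inner_rv {m : ℕ} (x y : Fin m → ℤ) : ⟪rv x, rv y⟫ = ((x ⬝ᵥ y : ℤ) : ℝ) := by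
  simp [PiLp.inner_apply, dotProduct, mul_comm]

theorem norm_rv_sq {m : ℕ} (x : Fin m → ℤ) : ‖rv x‖ ^ 2 = ∑ i, (x i : ℝ) ^ 2 := by
  simp [EuclideanSpace.norm_sq_eq]

theorem cnt_eq {α : Type} [Fintype α] (p : α → Prop) [DecidablePred p] :
    cnt p = (univ.filter p).card := by
  unfold cnt; congr

theorem cnt_mono {α : Type} [Fintype α] {p q : α → Prop} (h : ∀ a, p a → q a) :
    cnt p ≤ cnt q := by
  classical
  rw [cnt_eq, cnt_eq]
  exact card_le_card fun a ha => by
    simp only [mem_filter, mem_univ, true_and] at ha ⊢; exact h a ha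

theorem pr_nonneg {α : Type} [Fintype α] (p : α → Prop) : 0 ≤ pr p := by
  unfold pr; positivity

theorem pr_mono {α : Type} [Fintype α] {p q : α → Prop} (h : ∀ a, p a → q a) : pr p ≤ pr q := by
  unfold pr
  exact div_le_div_of_nonneg_right (by exact_mod_cast cnt_mono h) (by positivity)

theorem pr_or_le {α : Type} [Fintype α] (p q : α → Prop) :
    pr (fun a => p a ∨ q a) ≤ pr p + pr q := by
  classical
  unfold pr
  rw [← add_div]
  refine div_le_div_of_nonneg_right ?_ (by positivity)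
  rw [cnt_eq, cnt_eq, cnt_eq, filter_or]
  exact_mod_cast card_union_le _ _

theorem pr_exists_le {α ι : Type} [Fintype α] (s : Finset ι) (p : ι → α → Prop) :
    pr (fun a => ∃ i ∈ s, p i a) ≤ ∑ i ∈ s, pr (p i) := by
  classical
  induction s using Finset.induction_on with
  | empty => simp [pr, cnt_eq]
  | insert i s hi ih =>
    rw [sum_insert hi]
    refine le_trans (pr_mono (q := fun a => p i a ∨ ∃ j ∈ s, p j a) fun a h => ?_)
      ((pr_or_le _ _).trans (by linarith))
    simpa using h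

end Vale.Agent.P160
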