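import Vale.Agent.P160.KBas0

open Finset Filter
open scoped RealInnerProductSpace

namespace Vale.Agent.P160

open Vale.Agent.RM

/-- A set of coordinates determining the elements of a subspace on `A`. Induction on the dimension:
if some `x ∈ W` and `l ∈ A` have `x l ≠ 0`, pass to `W ⊓ ker (proj l)` and add `l`. -/
theorem coord_set {K : Type} [Field K] {m : ℕ} (W : Submodule K (Fin m → K)) (A : Finset (Fin m)) :
    ∃ J ⊆ A, J.card ≤ Module.finrank K W ∧ ∀ x ∈ W, (∀ j ∈ J, x j = 0) → ∀ l ∈ A, x l = 0 := by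
  induction hn : Module.finrank K W using Nat.strong_induction_on generalizing W with
  | _ n ih =>
    by_cases h : ∀ x ∈ W, ∀ l ∈ A, x l = 0
    · exact ⟨∅, empty_subset _, by simp, fun x hx _ => h x hx⟩
    push Not at h
    obtain ⟨x, hx, l, hl, hxl⟩ := h
    set W' : Submodule K (Fin m → K) := W ⊓ LinearMap.ker (LinearMap.proj l) with hW'
    have hlt : Module.finrank K W' < n := by
      rw [← hn]
      refine Submodule.finrank_lt_finrank_of_lt (lt_of_le_of_ne inf_le_left fun e => hxl ?_)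
      have : x ∈ W' := e ▸ hx
      exact this.2
    obtain ⟨J, hJ, hc, hz⟩ := ih _ hlt W' rfl
    refine ⟨insert l J, insert_subset hl hJ, (card_insert_le _ _).trans (by omega),
      fun y hy h0 => hz y ⟨hy, h0 l (mem_insert_self _ _)⟩ fun j hj => h0 j (mem_insert_of_mem hj)⟩

theorem KOdl_ind {m r p : ℕ} [Fact p.Prime] (a : Fin r → Fin m → ℤ) (ha : Ind a)
    (hsat : ∀ z, rv z ∈ sp a → z ∈ zsp a) :
    LinearIndependent (ZMod p) fun i l => ((a i l : ℤ) : ZMod p) := by
  have hp : p.Prime := Fact.out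
  rw [Fintype.linearIndependent_iff]
  intro c hc
  choose n hn using fun i => ZMod.intCast_surjective (c i)
  have h1 : ∀ l, (p : ℤ) ∣ (∑ i, n i • a i) l := fun l => by
    rw [← ZMod.intCast_zmod_eq_zero_iff_dvd]
    have := congrFun hc l
    simpa [Finset.sum_apply, hn] using this
  choose z hz using h1
  have hp0 : (p : ℝ) ≠ 0 := by exact_mod_cast hp.ne_zero
  have e : (∑ i, n i • a i) = (p : ℤ) • z := funext hz
  have h2 : rv z ∈ sp a := by
    have e2 : rv z = (p : ℝ)⁻¹ • lc (rf a) n := by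
      rw [← rv_lc, e, rv_smul, smul_smul]
      simp [hp0]
    rw [e2]
    exact Submodule.smul_mem _ _ (Submodule.sum_mem _ fun i _ =>
      Submodule.smul_mem _ _ (Submodule.subset_span ⟨i, rfl⟩))
  obtain ⟨d, hd⟩ := (Submodule.mem_span_range_iff_exists_fun ℤ).1 (hsat z h2)
  have h3 := Fintype.linearIndependent_iff.1 ((ind_iff a).1 ha) (fun i => n i - p * d i) (by
    simp only [sub_smul, sum_sub_distrib, e, ← hd, smul_sum, mul_smul, sub_self])
  intro i
  rw [← hn, sub_eq_zero.1 (h3 i)]
  simp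

theorem KOdl_dual {K : Type} [Field K] {m : ℕ} (W : Submodule K (Fin m → K)) :
    ∃ S : Finset (Fin m), S.card = Module.finrank K W ∧
      ∀ j ∈ S, ∃ w ∈ W, w j = 1 ∧ ∀ l ∈ S, l ≠ j → w l = 0 := by
  classical
  obtain ⟨S, -, hc, hz⟩ := coord_set W univ
  set φ : W →ₗ[K] (S → K) := (LinearMap.funLeft K K Subtype.val).comp W.subtype with hφ
  have hinj : Function.Injective φ := by
    rw [← LinearMap.ker_eq_bot, LinearMap.ker_eq_bot']
    intro x hx
    exact Subtype.ext (funext fun l => hz x x.2 (fun j hj => congrFun hx ⟨j, hj⟩) l (mem_univ _))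
  have h1 := LinearMap.finrank_le_finrank_of_injective hinj
  rw [Module.finrank_fintype_fun_eq_card, Fintype.card_coe] at h1
  have h2 : Module.finrank K W = Module.finrank K (S → K) := by
    rw [Module.finrank_fintype_fun_eq_card, Fintype.card_coe]; omega
  refine ⟨S, by omega, fun j hj => ?_⟩
  obtain ⟨w, hw⟩ := (LinearMap.injective_iff_surjective_of_finrank_eq_finrank h2).1 hinj
    (Pi.single ⟨j, hj⟩ 1)
  refine ⟨w, w.2, ?_, fun l hl hne => ?_⟩
  · simpa [hφ] using congrFun hw ⟨j, hj⟩
  · have := congrFun hw ⟨l, hl⟩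
    rw [Pi.single_eq_of_ne (fun e => hne (congrArg Subtype.val e))] at this
    exact this

/-- Odlyzko modulo `p`. The reductions of the `a i` modulo `p` are independent over `ZMod p`
(if `∑ c i • a i = p • z` then `z ∈ zsp a` by saturation, so `c ≡ 0`). `coord_set` with `A = univ` gives `S`; the
restriction `W → (S → ZMod p)` is injective, so `#S = r` and it is onto: for `j ∈ S` there is `w ∈ W` with `w j = 1`,
`w j' = 0` on `S \ {j}`. If `h = hv I b b'` is orthogonal to `W` then `h j` is determined by the coordinates outside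
`S`; since `bz true ≠ bz false` in `ZMod p`, the map `b ↦ b` restricted to the complement of `S ∩ I` is injective
on the event. -/
theorem odl_mod {m r p : ℕ} (hp : p.Prime) (a : Fin r → Fin m → ℤ) (ha : Ind a)
    (hsat : ∀ z, rv z ∈ sp a → z ∈ zsp a) :
    ∃ S : Finset (Fin m), S.card = r ∧ ∀ (I : Finset (Fin m)) (b' : Fin m → Bool),
      pr (fun b : Fin m → Bool => ∀ i, (p : ℤ) ∣ hv I b b' ⬝ᵥ a i) ≤
        (2 : ℝ) ^ (-((S ∩ I).card : ℝ)) := by
  classical
  have : Fact p.Prime := ⟨hp⟩
  set ab : Fin r → Fin m → ZMod p := fun i l => ((a i l : ℤ) : ZMod p) with hab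
  obtain ⟨S, hS, hw⟩ := KOdl_dual (Submodule.span (ZMod p) (Set.range ab))
  rw [finrank_span_eq_card (KOdl_ind a ha hsat), Fintype.card_fin] at hS
  refine ⟨S, hS, fun I b' => ?_⟩
  have orth : ∀ b : Fin m → Bool, (∀ i, (p : ℤ) ∣ hv I b b' ⬝ᵥ a i) →
      ∀ w ∈ Submodule.span (ZMod p) (Set.range ab),
        ∑ l, ((hv I b b' l : ℤ) : ZMod p) * w l = 0 := fun b hb w hw => by
    induction hw using Submodule.span_induction with
    | mem x hx =>
      obtain ⟨i, rfl⟩ := hx
      have := (ZMod.intCast_zmod_eq_zero_iff_dvd _ _).2 (hb i)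
      simpa [dotProduct, hab] using this
    | zero => simp
    | add x y _ _ hx hy => simp [mul_add, sum_add_distrib, hx, hy]
    | smul c x _ hx => simp [mul_left_comm _ c, ← mul_sum, hx]
  have hc : cnt (fun b : Fin m → Bool => ∀ i, (p : ℤ) ∣ hv I b b' ⬝ᵥ a i) ≤
      (univ : Finset (((S ∩ I)ᶜ : Finset (Fin m)) → Bool)).card := by
    unfold cnt
    refine card_le_card_of_injOn (fun b l => b l) (fun _ _ => mem_univ _) fun b hb c hc e => ?_
    have hb := orth b (by simpa using hb)
    have hc := orth c (by simpa using hc)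
    have e' : ∀ l, l ∉ S ∩ I → b l = c l := fun l hl => congrFun e ⟨l, mem_compl.2 hl⟩
    funext j
    by_cases hj : j ∈ S ∩ I
    swap
    · exact e' j hj
    obtain ⟨w, hw0, hw1, hw2⟩ := hw j (mem_inter.1 hj).1
    have h1 : ∑ l, (((hv I b b' l : ℤ) : ZMod p) - ((hv I c b' l : ℤ) : ZMod p)) * w l = 0 := by
      simp only [sub_mul, sum_sub_distrib, hb w hw0, hc w hw0, sub_self]
    rw [sum_eq_single j (fun l _ hl => ?_) (by simp), hw1, mul_one] at h1
    · simp only [hv, (mem_inter.1 hj).2, if_true, Int.cast_sub, sub_sub_sub_cancel_right] at h1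
      revert h1
      cases b j <;> cases c j <;> simp [bz]
    · by_cases hlS : l ∈ S
      · rw [hw2 l hlS hl, mul_zero]
      · simp only [hv, e' l fun h => hlS (mem_inter.1 h).1, sub_self, zero_mul]
  rw [card_univ, Fintype.card_fun, Fintype.card_bool, Fintype.card_coe, card_compl,
    Fintype.card_fin] at hc
  have hle : (S ∩ I).card ≤ m := by simpa using card_le_univ (S ∩ I)
  unfold pr
  rw [Fintype.card_fun, Fintype.card_bool, Fintype.card_fin, div_le_iff₀ (by positivity),
    Real.rpow_neg two_pos.le, Real.rpow_natCast, inv_mul_eq_div, le_div_iff₀ (by positivity)]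
  have h2 : 2 ^ m = 2 ^ (m - (S ∩ I).card) * 2 ^ (S ∩ I).card := by
    rw [← pow_add, Nat.sub_add_cancel hle]
  rw [h2]
  exact_mod_cast Nat.mul_le_mul_right _ hc

end Vale.Agent.P160
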