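import Vale.Agent.P160.KPb

open Finset Filter
open scoped RealInnerProductSpace

namespace Vale.Agent.P160

open Vale.Agent.RM

theorem KRoB_var {α : Type} {J : ℕ} (T : Finset α) (X : α → ℝ) (h0 : ∑ t ∈ T, X t = 0)
    (h1 : ∑ t ∈ T, X t ^ 2 ≤ T.card / 4) :
    ∑ b ∈ Fintype.piFinset (fun _ : Fin J => T), (∑ i, X (b i)) ^ 2 ≤
      J / 4 * (T.card : ℝ) ^ J := by
  have key : ∀ i j : Fin J, ∑ b ∈ Fintype.piFinset (fun _ : Fin J => T), X (b i) * X (b j) ≤
      if i = j then (T.card : ℝ) ^ J / 4 else 0 := by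
    intro i j
    have e : ∑ b ∈ Fintype.piFinset (fun _ : Fin J => T), X (b i) * X (b j) =
        ∏ k, ∑ t ∈ T, (if k = i then X t else 1) * (if k = j then X t else 1) := by
      rw [prod_univ_sum]
      refine sum_congr rfl fun b _ => ?_
      rw [prod_mul_distrib]
      simp
    rw [e]
    split_ifs with h
    · subst h
      calc _ ≤ ∏ k : Fin J, (T.card : ℝ) * (if k = i then 1 / 4 else 1) := by
            refine prod_le_prod (fun k _ => sum_nonneg fun t _ => mul_self_nonneg _) fun k _ => ?_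
            split_ifs
            · simp only [← pow_two]; linarith
            · simp
        _ = _ := by rw [prod_mul_distrib]; simp [div_eq_mul_inv]
    · exact le_of_eq (prod_eq_zero (mem_univ i) (by simp [h, h0]))
  simp only [pow_two, sum_mul_sum]
  rw [sum_comm]
  calc _ ≤ ∑ _i : Fin J, (T.card : ℝ) ^ J / 4 := by
        refine sum_le_sum fun i _ => ?_
        rw [sum_comm]
        exact (sum_le_sum fun j _ => key i j).trans (by simp)
    _ = _ := by simp; ring

theorem ro_cheb {m J : ℕ} (T : Finset (Fin m → Bool)) (hT : T.Nonempty) :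
    ∃ μ : Fin m → ℝ, 3 / 4 * (T.card : ℝ) ^ J ≤
      ((Fintype.piFinset fun _ : Fin J => T).filter fun b =>
        ∑ l, (((∑ i, bz (b i l) : ℤ) : ℝ) - μ l) ^ 2 ≤ J * m).card := by
  have t0 : (0 : ℝ) < T.card := Nat.cast_pos.2 hT.card_pos
  obtain ⟨p, hp⟩ : ∃ p : Fin m → ℝ, ∀ l, ∑ t ∈ T, (bz (t l) : ℝ) = p l * T.card :=
    ⟨fun l => (∑ t ∈ T, (bz (t l) : ℝ)) / T.card, fun l => (div_mul_cancel₀ _ t0.ne').symm⟩
  refine ⟨fun l => J * p l, ?_⟩
  obtain ⟨F, hF⟩ : ∃ F : (Fin J → Fin m → Bool) → ℝ,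
    ∀ b, ∑ l, (((∑ i, bz (b i l) : ℤ) : ℝ) - J * p l) ^ 2 = F b := ⟨_, fun _ => rfl⟩
  have F0 : ∀ b, 0 ≤ F b := fun b => hF b ▸ sum_nonneg fun _ _ => sq_nonneg _
  have h1 : ∑ b ∈ Fintype.piFinset (fun _ : Fin J => T), F b ≤ J * m / 4 * (T.card : ℝ) ^ J := by
    simp only [← hF]
    rw [sum_comm]
    calc _ ≤ ∑ _l : Fin m, J / 4 * (T.card : ℝ) ^ J := by
          refine sum_le_sum fun l _ => ?_
          have := KRoB_var (J := J) T (fun t => (bz (t l) : ℝ) - p l)
            (by rw [sum_sub_distrib, hp]; simp [mul_comm]) (by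
              have e : ∀ t : Fin m → Bool, ((bz (t l) : ℝ) - p l) ^ 2 =
                  (1 - 2 * p l) * (bz (t l) : ℝ) + p l ^ 2 := fun t => by
                unfold bz; split_ifs <;> push_cast <;> ring
              simp only [e, sum_add_distrib, ← mul_sum, hp, sum_const, nsmul_eq_mul]
              nlinarith [mul_nonneg t0.le (sq_nonneg (p l - 1 / 2))])
          simpa [sum_sub_distrib] using this
      _ = _ := by simp; ring
  simp only [hF]
  have h2 := card_filter_add_card_filter_not (s := Fintype.piFinset fun _ : Fin J => T)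
    fun b => F b ≤ J * m
  have h3 : ((Fintype.piFinset fun _ : Fin J => T).card : ℝ) = (T.card : ℝ) ^ J := by
    simp [Fintype.card_piFinset]
  rw [← h2] at h3
  push_cast at h3
  have h4 : (((Fintype.piFinset fun _ : Fin J => T).filter fun b => ¬F b ≤ J * m).card : ℝ) ≤
      (T.card : ℝ) ^ J / 4 := by
    rcases (show (0 : ℝ) ≤ J * m by positivity).eq_or_lt with h | h
    · rw [filter_eq_empty_iff.2 fun b hb => not_not.2 ?_]
      · simp only [card_empty, Nat.cast_zero]; positivity
      · rw [← h] at h1 ⊢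
        exact (single_le_sum (fun b _ => F0 b) hb).trans (h1.trans (by simp))
    · refine le_of_mul_le_mul_right ?_ h
      have := card_nsmul_le_sum ((Fintype.piFinset fun _ : Fin J => T).filter
        fun b => ¬F b ≤ J * m) F (J * m) fun b hb => (not_le.1 (mem_filter.1 hb).2).le
      rw [nsmul_eq_mul] at this
      linarith [sum_le_sum_of_subset_of_nonneg (filter_subset (fun b => ¬F b ≤ J * m)
        (Fintype.piFinset fun _ : Fin J => T)) fun b _ _ => F0 b]
  linarith

theorem ro_point {m J : ℕ} (hJ : 1 ≤ J) (T : Finset (Fin m → Bool)) (hT : T.Nonempty) {δ : ℝ}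
    (hδ : 0 < δ) (g : ℕ) (y : Fin m → ℤ) :
    (((Fintype.piFinset fun _ : Fin J => T).filter fun b => ∀ l, ∑ i, bz (b i l) = y l).card : ℝ) ≤
      ((3 / Real.sqrt (δ * J)) ^ g +
        Real.sqrt (2 ^ g * Real.exp (2 * Real.sqrt δ * m) / T.card) ^ J) * (T.card : ℝ) ^ J := by
  have J0 : (0 : ℝ) < J := Nat.cast_pos.2 hJ
  have h := growth' (J := J) T hT (fun l z => if z = y l then 1 else 0)
    (fun l z => by split_ifs <;> norm_num) (α := min 1 (3 / Real.sqrt (δ * J)))
    (by positivity) (min_le_left _ _) hδ.le (fun l p hp hv => le_min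
      ((sum_le_sum fun ξ _ => mul_le_of_le_one_right (pb_nonneg hp ξ)
        (by split_ifs <;> norm_num)).trans (sum_pb p).le) (pb_point p hp (by positivity) hv _)) g
  refine le_trans (le_of_eq ?_) (h.trans ?_)
  · rw [card_filter]
    push_cast
    refine sum_congr rfl fun b _ => ?_
    rw [prod_boole]
    simp
  · gcongr
    exact min_le_right _ _

end Vale.Agent.P160
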