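import Vale.Agent.P160.KRoA
import Vale.Agent.P160.KRoB

open Finset Filter
open scoped RealInnerProductSpace

namespace Vale.Agent.P160

open Vale.Agent.RM

theorem KRo_core {E : Type} [NormedAddCommGroup E] [InnerProductSpace ℝ E] [FiniteDimensional ℝ E]
    {m J : ℕ} (hJ : 1 ≤ J) (u : Fin m → E) (hu : ∀ l, ‖u l‖ ≤ 1) (S : Finset (Fin m))
    {A : ℝ} (hA : 0 < A) (hS : A ≤ gd (fun i : Fin S.card => u (S.orderEmbOfFin rfl i)))
    (b' : Fin m → Bool) {ρ : ℝ} (hρ : (J * ρ) ^ 2 ≤ m) (T : Finset (Fin m → Bool))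
    (hT : T.Nonempty)
    (hTb : ∀ b ∈ T, ‖∑ l, ((bz (b l) - bz (b' l) : ℤ) : ℝ) • u l‖ ≤ ρ) {d : ℝ} (hd : 0 < d)
    (g : ℕ) :
    3 / 4 ≤ (Real.exp m * (6 * Real.sqrt J) ^ (m - S.card) *
      (Real.exp m * 6 ^ S.card / Real.sqrt A)) * ((3 / Real.sqrt (d * J)) ^ g +
        Real.sqrt (2 ^ g * Real.exp (2 * Real.sqrt d * m) / T.card) ^ J) := by
  have J0 : (0 : ℝ) < J := Nat.cast_pos.2 hJ
  have t0 : (0 : ℝ) < (T.card : ℝ) ^ J := pow_pos (Nat.cast_pos.2 hT.card_pos) _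
  obtain ⟨μ, hμ⟩ := ro_cheb (J := J) T hT
  obtain ⟨G, hG⟩ : ∃ G : Finset (Fin J → Fin m → Bool), G =
    (Fintype.piFinset fun _ : Fin J => T).filter fun b =>
      ∑ l, (((∑ i, bz (b i l) : ℤ) : ℝ) - μ l) ^ 2 ≤ J * m := ⟨_, rfl⟩
  rw [← hG] at hμ
  obtain ⟨P, hP⟩ : ∃ P : ℝ, P = (3 / Real.sqrt (d * J)) ^ g +
    Real.sqrt (2 ^ g * Real.exp (2 * Real.sqrt d * m) / T.card) ^ J := ⟨_, rfl⟩
  have P0 : 0 ≤ P := by rw [hP]; positivity
  have hc := ro_count hJ u hu S hA hS μ ((J : ℝ) • ∑ l, ((bz (b' l) : ℤ) : ℝ) • u l)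
    (A := J * m) (B := m) (G.image fun b l => ∑ i, bz (b i l)) fun y hy => by
      obtain ⟨b, hb, rfl⟩ := mem_image.1 hy
      rw [hG, mem_filter] at hb
      refine ⟨hb.2, le_trans (pow_le_pow_left₀ (norm_nonneg _) ?_ 2) hρ⟩
      have e : ∑ l, ((∑ i, bz (b i l) : ℤ) : ℝ) • u l - (J : ℝ) • ∑ l, ((bz (b' l) : ℤ) : ℝ) • u l =
          ∑ i, ∑ l, ((bz (b i l) - bz (b' l) : ℤ) : ℝ) • u l := by
        rw [sum_comm, smul_sum, ← sum_sub_distrib]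
        refine sum_congr rfl fun l _ => ?_
        rw [← sum_smul, smul_smul, ← sub_smul]
        congr 1
        push_cast
        simp
      rw [e]
      refine (norm_sum_le _ _).trans ?_
      refine (sum_le_sum fun i _ => hTb _ (Fintype.mem_piFinset.1 hb.1 i)).trans ?_
      simp
  rw [mul_div_cancel_left₀ _ J0.ne'] at hc
  have h1 : (G.card : ℝ) ≤ ((G.image fun b l => ∑ i, bz (b i l)).card : ℝ) *
      (P * (T.card : ℝ) ^ J) := by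
    rw [card_eq_sum_card_image (fun (b : Fin J → Fin m → Bool) l => ∑ i, bz (b i l)) G, ← nsmul_eq_mul]
    push_cast
    refine sum_le_card_nsmul _ _ _ fun y _ => ?_
    rw [hP]
    refine le_trans ?_ (ro_point hJ T hT hd g y)
    refine Nat.cast_le.2 (card_le_card fun b hb => ?_)
    rw [mem_filter] at hb ⊢
    rw [hG, mem_filter] at hb
    exact ⟨hb.1.1, fun l => congrFun hb.2 l⟩
  rw [← hP]
  refine le_of_mul_le_mul_right ((hμ.trans h1).trans ?_) t0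
  rw [mul_assoc _ P]
  exact mul_le_mul_of_nonneg_right hc (by positivity)

theorem KRo_tail {c t : ℝ} {m s : ℕ} (hs : c * m ≤ s) (hsm : s ≤ m) (hc : 0 < c)
    (ht : (2 : ℝ) ^ (-(s : ℝ) / 4) * 2 ^ m ≤ t) :
    Real.sqrt (2 ^ (m - s + s / 2) * Real.exp (2 * Real.sqrt ((c / 24) ^ 2) * m) / t) ≤
      ((2 : ℝ) ^ (-c / 16)) ^ m := by
  have h0 : (0 : ℝ) < (2 : ℝ) ^ (-(s : ℝ) / 4) * 2 ^ m := by positivity
  rw [Real.sqrt_sq (by positivity)]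
  refine Real.sqrt_le_iff.2 ⟨by positivity, ?_⟩
  refine (div_le_div_of_nonneg_left (by positivity) h0 ht).trans ?_
  rw [div_le_iff₀ h0]
  have l2 := Real.log_two_gt_d9
  have e1 : ∀ x : ℝ, (2 : ℝ) ^ x = Real.exp (Real.log 2 * x) := fun x =>
    Real.rpow_def_of_pos two_pos x
  have e2 : ∀ n : ℕ, (2 : ℝ) ^ n = Real.exp (Real.log 2 * n) := fun n => by
    rw [← e1, Real.rpow_natCast]
  rw [e1, e1, e2, e2, ← Real.exp_nat_mul, ← Real.exp_nat_mul, ← Real.exp_add, ← Real.exp_add,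
    ← Real.exp_add]
  refine Real.exp_le_exp.2 ?_
  have h1 : ((m - s + s / 2 : ℕ) : ℝ) ≤ m - s / 2 := by
    rw [Nat.cast_add, Nat.cast_sub hsm]
    have : ((s / 2 : ℕ) : ℝ) ≤ (s : ℝ) / 2 := by exact_mod_cast Nat.cast_div_le (α := ℝ)
    linarith
  have h2 : (0 : ℝ) ≤ c * m := by positivity
  push_cast
  push_cast at h1
  nlinarith [mul_le_mul_of_nonneg_left h1 (show (0 : ℝ) ≤ Real.log 2 by linarith),
    mul_le_mul_of_nonneg_left hs (show (0 : ℝ) ≤ Real.log 2 by linarith),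
    mul_le_mul_of_nonneg_right l2.le h2]

theorem KRo_num {c a : ℝ} (hc : 0 < c) (ha : 0 < a) : ∃ J : ℕ, 1 ≤ J ∧ ∀ m s : ℕ, 2 ≤ s → s ≤ m →
    c * m ≤ s → ∀ x : ℝ, 0 ≤ x → x ≤ ((2 : ℝ) ^ (-c / 16)) ^ m →
    (Real.exp m * (6 * Real.sqrt J) ^ (m - s) * (Real.exp m * 6 ^ s / Real.sqrt (a ^ m))) *
      ((3 / Real.sqrt ((c / 24) ^ 2 * J)) ^ (m - s + s / 2) + x ^ J) ≤ 1 / 2 := by
  obtain ⟨K, K1, hK⟩ : ∃ K : ℝ, 1 ≤ K ∧ 6 * Real.exp 1 ^ 2 / Real.sqrt a ≤ K :=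
    ⟨_, le_max_left _ _, le_max_right _ _⟩
  obtain ⟨D, D1, hD⟩ : ∃ D : ℝ, 1 ≤ D ∧ 72 / c ≤ D := ⟨_, le_max_left _ _, le_max_right _ _⟩
  obtain ⟨n, hn⟩ := exists_nat_ge (3 / c)
  obtain ⟨q, hq, q0, q1⟩ : ∃ q : ℝ, (2 : ℝ) ^ (-c / 16) = q ∧ 0 ≤ q ∧ q < 1 :=
    ⟨_, rfl, by positivity, Real.rpow_lt_one_of_one_lt_of_neg one_lt_two (by linarith)⟩
  have ev1 : ∀ᶠ J : ℕ in atTop, (J : ℝ) * q ^ J < 1 / (2 * K) :=
    (tendsto_self_mul_const_pow_of_lt_one q0 q1).eventually (gt_mem_nhds (by positivity))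
  have ev2 : ∀ᶠ J : ℕ in atTop, ((2 * K * D) ^ n) ^ 2 ≤ (J : ℝ) :=
    tendsto_natCast_atTop_atTop.eventually_ge_atTop _
  obtain ⟨J, h1, h2, hJ⟩ := (ev1.and (ev2.and (eventually_ge_atTop 1))).exists
  refine ⟨J, hJ, fun m s s2 sm hs x x0 hx => ?_⟩
  rw [hq] at hx
  have J1 : (1 : ℝ) ≤ J := by exact_mod_cast hJ
  obtain ⟨r, hr, r1, rJ, r2⟩ : ∃ r : ℝ, Real.sqrt J = r ∧ 1 ≤ r ∧ r ≤ J ∧ (2 * K * D) ^ n ≤ r :=
    ⟨_, rfl, Real.one_le_sqrt.2 J1, Real.sqrt_le_iff.2 ⟨by positivity, by nlinarith⟩,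
      Real.le_sqrt_of_sq_le h2⟩
  have hN : Real.exp m * (6 * Real.sqrt J) ^ (m - s) * (Real.exp m * 6 ^ s / Real.sqrt (a ^ m)) ≤
      K ^ m * r ^ (m - s) := by
    have e1 : Real.sqrt (a ^ m) = Real.sqrt a ^ m := by
      rw [← Real.sqrt_sq (show 0 ≤ Real.sqrt a ^ m by positivity), ← pow_mul, mul_comm, pow_mul,
        Real.sq_sqrt ha.le]
    have e2 : Real.exp m = Real.exp 1 ^ m := (Real.exp_one_pow m).symm
    have e3 : (6 : ℝ) ^ (m - s) * 6 ^ s = 6 ^ m := by rw [← pow_add, Nat.sub_add_cancel sm]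
    have e4 : Real.exp m * (6 * Real.sqrt J) ^ (m - s) *
        (Real.exp m * 6 ^ s / Real.sqrt (a ^ m)) =
        (6 * Real.exp 1 ^ 2 / Real.sqrt a) ^ m * r ^ (m - s) := by
      rw [e1, e2, hr, mul_pow, div_pow, mul_pow, ← e3, ← pow_mul, mul_comm 2 m, pow_mul]
      ring
    rw [e4]
    gcongr
  have hp : (3 / Real.sqrt ((c / 24) ^ 2 * J)) ^ (m - s + s / 2) ≤
      D ^ m / (r ^ (m - s) * r ^ (s / 2)) := by
    rw [Real.sqrt_mul (by positivity), Real.sqrt_sq (by positivity), hr, ← pow_add]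
    have e : 3 / (c / 24 * r) = 72 / c / r := by field_simp; norm_num
    rw [e, div_pow]
    refine div_le_div_of_nonneg_right ?_ (by positivity)
    exact (pow_le_pow_left₀ (by positivity) hD _).trans (pow_le_pow_right₀ D1 (by omega))
  have hm : m ≤ n * (s / 2) := by
    have h3 : (s : ℝ) ≤ 3 * ((s / 2 : ℕ) : ℝ) := by exact_mod_cast (by omega : s ≤ 3 * (s / 2))
    have h4 : 3 ≤ (n : ℝ) * c := by rwa [div_le_iff₀ hc] at hn
    have h5 : (m : ℝ) ≤ n * ((s / 2 : ℕ) : ℝ) := by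
      refine le_of_mul_le_mul_left ?_ hc
      nlinarith [mul_le_mul_of_nonneg_right h4 (Nat.cast_nonneg (α := ℝ) (s / 2))]
    exact_mod_cast h5
  have h24 : ((1 : ℝ) / 2) ^ m ≤ 1 / 4 :=
    (pow_le_pow_of_le_one (by norm_num) (by norm_num) (s2.trans sm)).trans (by norm_num)
  have KD : 1 ≤ 2 * K * D := by nlinarith
  have t1 : K ^ m * r ^ (m - s) * (D ^ m / (r ^ (m - s) * r ^ (s / 2))) ≤ (1 / 2) ^ m := by
    have h6 : (2 * K * D) ^ m ≤ r ^ (s / 2) :=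
      (pow_le_pow_right₀ KD hm).trans (by rw [pow_mul]; gcongr)
    have e : K ^ m * r ^ (m - s) * (D ^ m / (r ^ (m - s) * r ^ (s / 2))) =
        (1 / 2) ^ m * ((2 * K * D) ^ m / r ^ (s / 2)) := by
      rw [mul_pow, mul_pow, one_div, inv_pow]
      field_simp
    rw [e]
    exact mul_le_of_le_one_right (by positivity) ((div_le_one (by positivity)).2 h6)
  have t2 : K ^ m * r ^ (m - s) * x ^ J ≤ (1 / 2) ^ m := by
    calc _ ≤ K ^ m * (J : ℝ) ^ m * (q ^ m) ^ J := by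
          gcongr
          exact (pow_le_pow_left₀ (by positivity) rJ _).trans (pow_le_pow_right₀ J1 (by omega))
      _ = (K * (J * q ^ J)) ^ m := by rw [← pow_mul, mul_comm m J, pow_mul]; ring
      _ ≤ _ := by
          refine pow_le_pow_left₀ (by positivity) ?_ _
          rw [lt_div_iff₀ (by positivity)] at h1
          linarith
  calc _ ≤ K ^ m * r ^ (m - s) * (D ^ m / (r ^ (m - s) * r ^ (s / 2)) + x ^ J) := by gcongr
    _ ≤ 1 / 2 := by rw [mul_add]; linarith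

/-- Robust Odlyzko lemma. Let `T` be the bad set, `s = #S`, and suppose `#T > 2^(m - s/4)`. Take `J` a large
constant, `δ₀ = (c/24)^2`, `g = m - s + s/2`. The sums `Y = ∑ bv (b i)` of the tuples counted by `ro_cheb`
satisfy `‖∑ Y l • u l - J ∑ bz (b' l) • u l‖ ≤ J m^(1/2-δ) ≤ √m`, so they take at most
`N = e^m (6√J)^(m-s) e^m 6^s a^(-m/2)` values (`ro_count`); by `ro_point`,
`3/4 ≤ N ((3/√(δ₀ J))^g + 2^(-c m J/16))`, and both products are at most `2^(-m)`. -/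
theorem robust {c a δ : ℝ} (hc : 0 < c) (ha : 0 < a) (hδ : 0 < δ) : ∀ᶠ m : ℕ in atTop,
    ∀ (E : Type) [NormedAddCommGroup E] [InnerProductSpace ℝ E] [FiniteDimensional ℝ E]
      (u : Fin m → E), (∀ l, ‖u l‖ ≤ 1) → ∀ S : Finset (Fin m), c * m ≤ S.card →
      a ^ m ≤ gd (fun i : Fin S.card => u (S.orderEmbOfFin rfl i)) → ∀ b' : Fin m → Bool,
      pr (fun b : Fin m → Bool => ‖∑ l, ((bz (b l) - bz (b' l) : ℤ) : ℝ) • u l‖ ≤
        (m : ℝ) ^ (1 / 2 - δ)) ≤ (2 : ℝ) ^ (-(S.card : ℝ) / 4) := by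
  classical
  obtain ⟨J, hJ, hnum⟩ := KRo_num hc ha
  have ev1 : ∀ᶠ m : ℕ in atTop, (J : ℝ) ≤ (m : ℝ) ^ δ :=
    ((tendsto_rpow_atTop hδ).comp tendsto_natCast_atTop_atTop).eventually_ge_atTop _
  have ev2 : ∀ᶠ m : ℕ in atTop, 2 / c ≤ (m : ℝ) :=
    tendsto_natCast_atTop_atTop.eventually_ge_atTop _
  filter_upwards [ev1, ev2, eventually_ge_atTop 1] with m h1 h2 h3 E _ _ _ u hu S hS hg b'
  have m0 : (0 : ℝ) < m := Nat.cast_pos.2 h3
  by_contra hcon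
  rw [not_le, pr, cnt_eq, lt_div_iff₀ (Nat.cast_pos.2 Fintype.card_pos)] at hcon
  obtain ⟨T, hT⟩ : ∃ T : Finset (Fin m → Bool), T = univ.filter fun b : Fin m → Bool =>
    ‖∑ l, ((bz (b l) - bz (b' l) : ℤ) : ℝ) • u l‖ ≤ (m : ℝ) ^ (1 / 2 - δ) := ⟨_, rfl⟩
  rw [← hT] at hcon
  have hc2 : (2 : ℝ) ^ (-(S.card : ℝ) / 4) * 2 ^ m ≤ T.card := by simpa using hcon.le
  have hTn : T.Nonempty := card_pos.1 (Nat.cast_pos.1 (lt_of_lt_of_le (by positivity) hc2))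
  have sm : S.card ≤ m := by simpa using S.card_le_univ
  have s2 : 2 ≤ S.card := by
    rw [div_le_iff₀ hc] at h2
    exact_mod_cast (show (2 : ℝ) ≤ S.card by linarith)
  have hρ : ((J : ℝ) * (m : ℝ) ^ (1 / 2 - δ)) ^ 2 ≤ m := by
    calc _ ≤ ((m : ℝ) ^ δ * (m : ℝ) ^ (1 / 2 - δ)) ^ 2 := by gcongr
      _ = m := by
        rw [← Real.rpow_add m0, ← Real.rpow_natCast, ← Real.rpow_mul m0.le]
        norm_num
  have h4 := KRo_core hJ u hu S (pow_pos ha m) hg b' hρ T hTn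
    (fun b hb => by rw [hT] at hb; exact (mem_filter.1 hb).2) (d := (c / 24) ^ 2) (by positivity)
    (m - S.card + S.card / 2)
  have h5 := hnum m S.card s2 sm hS _ (Real.sqrt_nonneg _) (KRo_tail hS sm hc hc2)
  linarith

end Vale.Agent.P160
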