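import Vale.Agent.P160.KDefs

open Finset Filter
open scoped RealInnerProductSpace

namespace Vale.Agent.P160

open Vale.Agent.RM

theorem KDot_bound {m : ℕ} {h z : Fin m → ℤ} (hh : ∀ l, |h l| ≤ 1) {β : ℝ} (hz : ‖rv z‖ ≤ β) :
    |((h ⬝ᵥ z : ℤ) : ℝ)| ≤ Real.sqrt m * β := by
  rw [← inner_rv]
  refine (abs_real_inner_le_norm _ _).trans (mul_le_mul ?_ hz (norm_nonneg _) (Real.sqrt_nonneg _))
  refine Real.le_sqrt_of_sq_le ?_
  rw [norm_rv_sq]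
  calc ∑ i, (h i : ℝ) ^ 2 ≤ ∑ _i : Fin m, (1 : ℝ) := by
        refine sum_le_sum fun i _ => ?_
        have h1 : |(h i : ℝ)| ≤ 1 := by exact_mod_cast hh i
        exact (sq_le_one_iff_abs_le_one _).2 h1
    _ = m := by simp

theorem KDot_orth {m r : ℕ} {x : Fin r → Fin m → ℤ} {h : Fin m → ℤ} (h0 : ∀ i, h ⬝ᵥ x i = 0)
    {w : Fin m → ℤ} (hw : rv w ∈ sp x) : h ⬝ᵥ w = 0 := by
  obtain ⟨α, hα⟩ := (Submodule.mem_span_range_iff_exists_fun ℝ).1 hw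
  have h1 : ((h ⬝ᵥ w : ℤ) : ℝ) = 0 := by
    rw [← inner_rv, ← hα, inner_sum]
    refine sum_eq_zero fun i _ => ?_
    rw [real_inner_smul_right, rf, inner_rv, h0 i]; simp
  exact_mod_cast h1

theorem KDot_mem {m r : ℕ} (x : Fin r → Fin m → ℤ) (i : Fin r) : rv (x i) ∈ sp x :=
  Submodule.subset_span ⟨i, rfl⟩

/-- If no small prime divides all the values then `1` is a value. The values `h ⬝ᵥ z`, `z ∈ zsp a`, form a subgroup
`d ℤ`. If `d = 0` then `2` divides everything. Otherwise some `h ⬝ᵥ x j ≠ 0` (the `x j` span), it is a multiple of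
`d` and at most `‖h‖ β ≤ √m β` in absolute value; so a prime factor of `d ≠ 1` would be at most `P`. -/
theorem exists_dot_one {m r r' P : ℕ} (a : Fin r → Fin m → ℤ) (x : Fin r' → Fin m → ℤ)
    (hsat : ∀ z, rv z ∈ sp a → z ∈ zsp a) (hx : sp x = sp a) {β : ℝ} (hβ : ∀ j, ‖rv (x j)‖ ≤ β)
    (h : Fin m → ℤ) (hh : ∀ l, |h l| ≤ 1) (hP2 : 2 ≤ P) (hP : Real.sqrt m * β ≤ P)
    (hno : ∀ p : ℕ, p.Prime → p ≤ P → ∃ i, ¬ (p : ℤ) ∣ h ⬝ᵥ a i) :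
    ∃ w : Fin m → ℤ, rv w ∈ sp a ∧ h ⬝ᵥ w = 1 := by
  obtain ⟨g, hg⟩ := Finset.gcd_eq_sum_mul univ fun i => h ⬝ᵥ a i
  have hw : rv (∑ i, g i • a i) ∈ sp a := by
    rw [rv_sum]
    exact Submodule.sum_mem _ fun i _ => by
      rw [rv_smul]; exact Submodule.smul_mem _ _ (KDot_mem a i)
  have hd : h ⬝ᵥ ∑ i, g i • a i = univ.gcd fun i => h ⬝ᵥ a i := by
    rw [hg, dotProduct_sum]
    exact sum_congr rfl fun i _ => by rw [dotProduct_smul, smul_eq_mul, mul_comm]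
  by_cases h1 : (univ.gcd fun i => h ⬝ᵥ a i).natAbs = 1
  · rcases Int.natAbs_eq_iff.1 h1 with h2 | h2
    · exact ⟨_, hw, by rw [hd, h2]; rfl⟩
    · exact ⟨-∑ i, g i • a i, by rw [rv_neg]; exact Submodule.neg_mem _ hw,
        by rw [dotProduct_neg, hd, h2]; rfl⟩
  exfalso
  obtain ⟨p, hp, hpd⟩ := Nat.exists_prime_and_dvd h1
  have h2 : ∀ i, (p : ℤ) ∣ h ⬝ᵥ a i := fun i =>
    (Int.natCast_dvd.2 hpd).trans (Finset.gcd_dvd (mem_univ i))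
  rcases le_or_gt p P with h3 | h3
  · obtain ⟨i, hi⟩ := hno p hp h3
    exact hi (h2 i)
  have h4 : ∀ j, h ⬝ᵥ x j = 0 := by
    intro j
    obtain ⟨n, hn⟩ := (Submodule.mem_span_range_iff_exists_fun ℤ).1
      (hsat (x j) (hx ▸ KDot_mem x j))
    refine Int.eq_zero_of_abs_lt_dvd (m := p) ?_ ?_
    · rw [← hn, dotProduct_sum]
      exact dvd_sum fun i _ => by rw [dotProduct_smul]; exact (h2 i).mul_left _
    · have h5 : |((h ⬝ᵥ x j : ℤ) : ℝ)| ≤ P := (KDot_bound hh (hβ j)).trans hP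
      have h6 : |h ⬝ᵥ x j| ≤ P := by exact_mod_cast h5
      omega
  obtain ⟨i, hi⟩ := hno 2 Nat.prime_two hP2
  rw [KDot_orth h4 (hx ▸ KDot_mem a i)] at hi
  exact hi (dvd_zero _)

/-- Short vectors with a prescribed value. `q = P (rv h) ≠ 0`, `v = (j/‖q‖^2) • q`. Pick `i₀` with
`d = h ⬝ᵥ x i₀ ≠ 0` and put `y i = d • x i - (h ⬝ᵥ x i) • x i₀` (integer, orthogonal to `h`, norm `≤ 2 √m β^2`).
The vector `j • w₀ - v = ∑ α i • x i` is orthogonal to `h`, hence equals `∑ (α i/d) • y i`. Take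
`w = j • w₀ - ∑ ⌊α i/d⌋ • y i`; `r ≤ m`. -/
theorem short_val {m r : ℕ} (x : Fin r → Fin m → ℤ) (hx : Ind x) {β : ℝ}
    (hβ : ∀ i, ‖rv (x i)‖ ≤ β) (h : Fin m → ℤ) (hh : ∀ l, |h l| ≤ 1) (w₀ : Fin m → ℤ)
    (hw : rv w₀ ∈ sp x) (hw1 : h ⬝ᵥ w₀ = 1) (j : ℤ) :
    ∃ w : Fin m → ℤ, rv w ∈ sp x ∧ h ⬝ᵥ w = j ∧
      ‖rv w - ((j : ℝ) / ‖(sp x).starProjection (rv h)‖ ^ 2) • (sp x).starProjection (rv h)‖ ≤
        2 * m * Real.sqrt m * β ^ 2 := by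
  obtain ⟨q, hq⟩ : ∃ q, q = (sp x).starProjection (rv h) := ⟨_, rfl⟩
  rw [← hq]
  have hqm : q ∈ sp x := hq ▸ Submodule.starProjection_apply_mem _ _
  have hin : ∀ v ∈ sp x, ⟪rv h, v⟫ = ⟪q, v⟫ := fun v hv => by
    have := Submodule.starProjection_inner_eq_zero (K := sp x) (rv h) v hv
    rwa [inner_sub_left, sub_eq_zero, ← hq] at this
  have h1 : ⟪rv h, rv w₀⟫ = 1 := by rw [inner_rv, hw1, Int.cast_one]
  have hq0 : ‖q‖ ≠ 0 := by
    intro h0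
    rw [hin _ hw, norm_eq_zero.1 h0, inner_zero_left] at h1
    exact zero_ne_one h1
  obtain ⟨i₀, hd⟩ : ∃ i₀, h ⬝ᵥ x i₀ ≠ 0 := by
    by_contra h0
    push Not at h0
    rw [KDot_orth h0 hw] at hw1
    exact zero_ne_one hw1
  have hβ0 : 0 ≤ β := (norm_nonneg _).trans (hβ i₀)
  have hu : (j : ℝ) • rv w₀ - ((j : ℝ) / ‖q‖ ^ 2) • q ∈ sp x :=
    Submodule.sub_mem _ (Submodule.smul_mem _ _ hw) (Submodule.smul_mem _ _ hqm)
  obtain ⟨α, hα⟩ := (Submodule.mem_span_range_iff_exists_fun ℝ).1 hu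
  have h2 : ∑ i, α i * ((h ⬝ᵥ x i : ℤ) : ℝ) = 0 := by
    have := congrArg (fun v => ⟪rv h, v⟫) hα
    simp only [inner_sum, inner_sub_right, real_inner_smul_right, rf, inner_rv, hw1, hin q hqm,
      real_inner_self_eq_norm_sq] at this
    rw [this]; field_simp; simp
  obtain ⟨y, hy⟩ : ∃ y : Fin r → Fin m → ℤ,
      y = fun i => (h ⬝ᵥ x i₀) • x i - (h ⬝ᵥ x i) • x i₀ := ⟨_, rfl⟩
  have hy1 : ∀ i, rv (y i) = ((h ⬝ᵥ x i₀ : ℤ) : ℝ) • rv (x i) - ((h ⬝ᵥ x i : ℤ) : ℝ) • rv (x i₀) :=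
    fun i => by rw [hy, rv_sub, rv_smul, rv_smul]
  have hy2 : ∀ i, h ⬝ᵥ y i = 0 := fun i => by
    rw [hy, dotProduct_sub, dotProduct_smul, dotProduct_smul, smul_eq_mul, smul_eq_mul]; ring
  have hy3 : ∀ i, ‖rv (y i)‖ ≤ 2 * Real.sqrt m * β ^ 2 := fun i => by
    rw [hy1]
    refine (norm_sub_le _ _).trans ?_
    rw [norm_smul, norm_smul, Real.norm_eq_abs, Real.norm_eq_abs]
    have a1 := mul_le_mul (KDot_bound hh (hβ i₀)) (hβ i) (norm_nonneg _) (by positivity)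
    have a2 := mul_le_mul (KDot_bound hh (hβ i)) (hβ i₀) (norm_nonneg _) (by positivity)
    linarith
  have hd' : ((h ⬝ᵥ x i₀ : ℤ) : ℝ) ≠ 0 := Int.cast_ne_zero.2 hd
  obtain ⟨d, hdd⟩ : ∃ d, d = ((h ⬝ᵥ x i₀ : ℤ) : ℝ) := ⟨_, rfl⟩
  rw [← hdd] at hd' hy1
  have h3 : ∑ i, (α i / d) • rv (y i) = (j : ℝ) • rv w₀ - ((j : ℝ) / ‖q‖ ^ 2) • q := by
    simp only [hy1, smul_sub, smul_smul, div_mul_cancel₀ _ hd', sum_sub_distrib, ← sum_smul,
      div_mul_eq_mul_div, ← sum_div, h2, zero_div, zero_smul, sub_zero]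
    exact hα
  have h4 : rv (j • w₀ - ∑ i, ⌊α i / d⌋ • y i) =
      (j : ℝ) • rv w₀ - ∑ i, (⌊α i / d⌋ : ℝ) • rv (y i) := by
    simp only [rv_sub, rv_sum, rv_smul]
  refine ⟨j • w₀ - ∑ i, ⌊α i / d⌋ • y i, ?_, ?_, ?_⟩
  · rw [h4]
    refine Submodule.sub_mem _ (Submodule.smul_mem _ _ hw) (Submodule.sum_mem _ fun i _ =>
      Submodule.smul_mem _ _ ?_)
    rw [hy1]
    exact Submodule.sub_mem _ (Submodule.smul_mem _ _ (KDot_mem x i))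
      (Submodule.smul_mem _ _ (KDot_mem x i₀))
  · simp only [dotProduct_sub, dotProduct_sum, dotProduct_smul, hy2, hw1, smul_eq_mul, mul_zero,
      mul_one, sum_const_zero, sub_zero]
  · rw [h4, sub_right_comm, ← h3, ← sum_sub_distrib]
    refine (norm_sum_le _ _).trans ?_
    calc _ ≤ ∑ _i : Fin r, 2 * Real.sqrt m * β ^ 2 := by
          refine sum_le_sum fun i _ => ?_
          rw [← sub_smul, norm_smul, Int.self_sub_floor, Real.norm_eq_abs,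
            abs_of_nonneg (Int.fract_nonneg _)]
          exact (mul_le_of_le_one_left (norm_nonneg _) (Int.fract_lt_one _).le).trans (hy3 i)
      _ = r * (2 * Real.sqrt m * β ^ 2) := by simp
      _ ≤ m * (2 * Real.sqrt m * β ^ 2) := by
          gcongr; exact_mod_cast hx.le
      _ = _ := by ring

end Vale.Agent.P160
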