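import Vale.Agent.P160.KGrV
import Vale.Agent.P160.KDot

open Finset Filter
open scoped RealInnerProductSpace

namespace Vale.Agent.P160

open Vale.Agent.RM

theorem KShift_num {m R a b : ℝ} (hm : 1 ≤ m) (hR : 0 ≤ R) (ha0 : 0 ≤ a) (ha : a ≤ R + R / (4 * m))
    (hb : b ≤ R ^ 2 / m) : a ^ 2 + b ≤ (R * (1 + 1 / m)) ^ 2 := by
  have hm0 : 0 < m := by linarith
  have h1 := pow_le_pow_left₀ ha0 ha 2
  have h2 : 0 ≤ R ^ 2 / m := by positivity
  have h3 : 0 ≤ R ^ 2 / m ^ 2 := by positivity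
  have e1 : (R + R / (4 * m)) ^ 2 = R ^ 2 + R ^ 2 / m / 2 + R ^ 2 / m ^ 2 / 16 := by
    field_simp
    ring
  have e2 : (R * (1 + 1 / m)) ^ 2 = R ^ 2 + 2 * (R ^ 2 / m) + R ^ 2 / m ^ 2 := by
    field_simp
    ring
  rw [e2]
  linarith

/-- Shift lemma. `π = ‖P (rv h)‖`. For the integers `|j| ≤ π R/√m` (at least `π R/√m` of them) let `w j`
be given by `short_val` (`short_basis`), `w j = v j + e j`, `‖v j‖ ≤ R/√m`, `‖e j‖ ≤ R/(4m)`, `e j ⊥ q`. For `z` in the
filtered set, `z + e j ⊥ v j`, so `‖z + w j‖^2 ≤ R^2 (1 + 1/(4m))^2 + R^2/m ≤ (R (1+1/m))^2`. The map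
`(j, z) ↦ z + w j` is injective (`h ⬝ᵥ (z + w j) = j`). -/
theorem shift_le {m : ℕ} (hm : 1 ≤ m) (U : Submodule ℝ (Eu m)) {β R : ℝ} (hβ : 0 < β)
    (hR : 8 * (m : ℝ) ^ 3 * β ^ 2 ≤ R) (h : Fin m → ℤ) (hh : ∀ l, |h l| ≤ 1) (w₀ : Fin m → ℤ)
    (hw : rv w₀ ∈ shortSp U β) (hw1 : h ⬝ᵥ w₀ = 1) :
    ‖(shortSp U β).starProjection (rv h)‖ * R / Real.sqrt m *
        ((ipts (shortSp U β) R).filter fun z => h ⬝ᵥ z = 0).card ≤
      np (shortSp U β) (R * (1 + 1 / m)) := by
  classical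
  obtain ⟨x, hx, hsp, hxb⟩ := short_basis U β
  have hsv := fun j : ℤ => short_val x hx hxb h hh w₀ (by rw [hsp]; exact hw) hw1 j
  rw [hsp] at hsv
  choose w hwV hwj hwe using hsv
  set V := shortSp U β with hV
  set q := V.starProjection (rv h) with hq
  have hm1 : (1 : ℝ) ≤ m := by exact_mod_cast hm
  have hR0 : 0 < R := lt_of_lt_of_le (by positivity) hR
  have hs0 : 0 < Real.sqrt m := Real.sqrt_pos.2 (by linarith)
  have hs2 : Real.sqrt m ^ 2 = m := Real.sq_sqrt (by linarith)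
  have hs1 : Real.sqrt m ≤ m := Real.sqrt_le_iff.2 ⟨by linarith, by nlinarith⟩
  have hin : ∀ z : Fin m → ℤ, rv z ∈ V → ⟪q, rv z⟫ = ((h ⬝ᵥ z : ℤ) : ℝ) := fun z hz => by
    rw [hq, Submodule.inner_starProjection_left_eq_right, Submodule.starProjection_eq_self_iff.2 hz,
      inner_rv]
  have hq0 : 0 < ‖q‖ := by
    refine norm_pos_iff.2 fun h0 => ?_
    have := hin w₀ hw
    rw [h0, inner_zero_left, hw1] at this
    simp at this
  set A := ‖q‖ * R / Real.sqrt m with hA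
  have hA0 : 0 ≤ A := by positivity
  set F := (ipts V R).filter fun z => h ⬝ᵥ z = 0 with hF
  have hcard : (range (⌊A⌋₊ + 1) ×ˢ F).card ≤ (ipts V (R * (1 + 1 / m))).card := by
    refine card_le_card_of_injOn (fun p => p.2 + w p.1) (fun p hp => ?_) fun p hp p' hp' e => ?_
    · obtain ⟨h1, h2⟩ := mem_product.1 (mem_coe.1 hp)
      obtain ⟨h2, h3⟩ := mem_filter.1 h2
      obtain ⟨h4, h5⟩ := mem_ipts.1 h2
      have hj : (p.1 : ℝ) ≤ A :=
        (Nat.cast_le.2 (Nat.lt_succ_iff.1 (mem_range.1 h1))).trans (Nat.floor_le hA0)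
      refine mem_coe.2 (mem_ipts.2 ⟨?_, by
        rw [rv_add]
        exact V.add_mem h5 (hwV _)⟩)
      set v : Eu m := (((p.1 : ℤ) : ℝ) / ‖q‖ ^ 2) • q with hv
      have e1 : rv (p.2 + w p.1) = (rv p.2 + (rv (w p.1) - v)) + v := by
        rw [rv_add]
        abel
      have e2 : ⟪rv p.2 + (rv (w p.1) - v), v⟫ = 0 := by
        rw [hv, inner_smul_right, real_inner_comm, inner_add_right, inner_sub_right, hin _ h5,
          hin _ (hwV _), h3, hwj, inner_smul_right, real_inner_self_eq_norm_sq,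
          div_mul_cancel₀ _ (by positivity)]
        simp
      have e3 : ‖v‖ ^ 2 ≤ R ^ 2 / m := by
        have e4 : ‖v‖ = p.1 / ‖q‖ := by
          rw [hv, norm_smul, Int.cast_natCast, Real.norm_of_nonneg (by positivity)]
          field_simp
        have e5 : ‖v‖ ≤ R / Real.sqrt m := by
          rw [e4, div_le_iff₀ hq0]
          refine hj.trans (le_of_eq ?_)
          rw [hA]
          ring
        refine (pow_le_pow_left₀ (norm_nonneg _) e5 2).trans (le_of_eq ?_)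
        rw [div_pow, hs2]
      have e6 : ‖rv p.2 + (rv (w p.1) - v)‖ ≤ R + R / (4 * m) := by
        refine (norm_add_le _ _).trans (add_le_add h4 ((hwe _).trans ?_))
        rw [le_div_iff₀ (by positivity)]
        refine le_trans ?_ hR
        have e7 := mul_le_mul_of_nonneg_left hs1 (show 0 ≤ 8 * (m : ℝ) ^ 2 * β ^ 2 by positivity)
        nlinarith
      refine le_of_sq_le_sq ?_ (by positivity)
      rw [e1, norm_add_sq_real, e2, mul_zero, add_zero]
      exact KShift_num hm1 hR0.le (norm_nonneg _) e6 e3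
    · have h1 := (mem_filter.1 (mem_product.1 (mem_coe.1 hp)).2).2
      have h2 := (mem_filter.1 (mem_product.1 (mem_coe.1 hp')).2).2
      have h3 := congrArg (fun z => h ⬝ᵥ z) e
      simp only [dotProduct_add, h1, h2, hwj, zero_add, Nat.cast_inj] at h3
      refine Prod.ext h3 ?_
      simp only [h3] at e
      exact add_right_cancel e
  rw [card_product, card_range] at hcard
  have h6 := (Nat.cast_le (α := ℝ)).2 hcard
  push_cast at h6
  exact (mul_le_mul_of_nonneg_right (Nat.lt_floor_add_one A).le (Nat.cast_nonneg _)).trans h6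

end Vale.Agent.P160
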