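import Vale.Agent.P160.KDefs

open Finset Filter
open scoped RealInnerProductSpace

namespace Vale.Agent.P160

open Vale.Agent.RM

theorem KTup_pr {α : Type} [Fintype α] (p : α → Prop) [DecidablePred p] :
    pr p = (∑ a, if p a then (1 : ℝ) else 0) / Fintype.card α := by
  rw [sum_boole, pr, cnt_eq]

theorem KTup_markov {α : Type} (T : Finset α) (g : α → ℝ) (h0 : ∀ z, 0 ≤ g z) {ρ c : ℝ}
    (hρ : 0 < ρ) (h : ∑ z ∈ T, g z ≤ ρ * c) : ((T.filter fun z => ¬g z ≤ ρ).card : ℝ) ≤ c := by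
  refine le_of_mul_le_mul_left (le_trans ?_ h) hρ
  rw [mul_comm, ← nsmul_eq_mul]
  exact (card_nsmul_le_sum _ _ _ fun z hz => (not_le.1 (mem_filter.1 hz).2).le).trans
    (sum_le_sum_of_subset_of_nonneg (filter_subset _ _) fun z _ _ => h0 z)

/-- Average collision probability: `∑_{z ∈ A^k} coll I z` is the average over `(b, b')` of
`#{z ∈ A | hv ⬝ᵥ z = 0}^k ≤ (1_bad + q^k) #A^k`. -/
theorem sum_coll_le {m k : ℕ} (I : Finset (Fin m)) (A : Finset (Fin m → ℤ)) {q ϵ : ℝ} (hq : 0 ≤ q)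
    (h : pr (fun bb : (Fin m → Bool) × (Fin m → Bool) =>
      q * A.card < (A.filter fun z => hv I bb.1 bb.2 ⬝ᵥ z = 0).card) ≤ ϵ) :
    ∑ z ∈ Fintype.piFinset (fun _ : Fin k => A), coll I z ≤ (ϵ + q ^ k) * (A.card : ℝ) ^ k := by
  classical
  have hN : (0 : ℝ) < Fintype.card ((Fin m → Bool) × (Fin m → Bool)) := by
    exact_mod_cast Fintype.card_pos
  rw [KTup_pr, div_le_iff₀ hN] at h
  simp only [coll, KTup_pr]
  rw [← sum_div, sum_comm, div_le_iff₀ hN]
  refine (sum_le_sum (g := fun bb => ((if q * A.card <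
    (A.filter fun z => hv I bb.1 bb.2 ⬝ᵥ z = 0).card then (1 : ℝ) else 0) + q ^ k) *
      (A.card : ℝ) ^ k) fun bb _ => ?_).trans ?_
  · have e : ((Fintype.piFinset fun _ : Fin k => A).filter fun z =>
        ∀ i, hv I bb.1 bb.2 ⬝ᵥ z i = 0) =
        Fintype.piFinset fun _ => A.filter fun z => hv I bb.1 bb.2 ⬝ᵥ z = 0 := by
      ext z
      simp only [mem_filter, Fintype.mem_piFinset, forall_and]
    rw [sum_boole, e, Fintype.card_piFinset_const, Nat.cast_pow]
    have hk := mul_nonneg (pow_nonneg hq k) (pow_nonneg (Nat.cast_nonneg (α := ℝ) A.card) k)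
    split_ifs with hb
    · have := pow_le_pow_left₀ (Nat.cast_nonneg (α := ℝ) _) (Nat.cast_le.2
        (card_filter_le A fun z => hv I bb.1 bb.2 ⬝ᵥ z = 0)) k
      linarith
    · rw [zero_add, ← mul_pow]
      exact pow_le_pow_left₀ (Nat.cast_nonneg _) (not_lt.1 hb) k
  · rw [← sum_mul, sum_add_distrib, sum_const, card_univ, nsmul_eq_mul, mul_right_comm]
    refine mul_le_mul_of_nonneg_right ?_ (by positivity)
    rw [add_mul, mul_comm (q ^ k)]
    exact add_le_add h le_rfl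

/-- Markov twice. -/
theorem card_goodT {m k : ℕ} (V : Submodule ℝ (Eu m)) (R : ℝ) (I₁ I₂ : Finset (Fin m)) {ρ : ℝ}
    (hρ : 0 < ρ)
    (h₁ : ∑ z ∈ Fintype.piFinset (fun _ : Fin k => ipts V R), coll I₁ z ≤ ρ / 4 * np V R ^ k)
    (h₂ : ∑ z ∈ Fintype.piFinset (fun _ : Fin k => ipts V R), coll I₂ z ≤ ρ / 4 * np V R ^ k) :
    np V R ^ k / 2 ≤ (goodT V R k I₁ I₂ ρ).card := by
  classical
  have a1 := KTup_markov _ (coll I₁) (fun _ => pr_nonneg _) hρ (c := np V R ^ k / 4)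
    (h₁.trans_eq (by ring))
  have a2 := KTup_markov _ (coll I₂) (fun _ => pr_nonneg _) hρ (c := np V R ^ k / 4)
    (h₂.trans_eq (by ring))
  have a3 := card_filter_add_card_filter_not (s := Fintype.piFinset fun _ : Fin k => ipts V R)
    fun z => coll I₁ z ≤ ρ ∧ coll I₂ z ≤ ρ
  simp only [not_and_or, filter_or] at a3
  rw [Fintype.card_piFinset_const] at a3
  have a4 := (Nat.cast_le (α := ℝ)).2 (a3.ge.trans (Nat.add_le_add_left (card_union_le _ _) _))
  push_cast at a4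
  unfold goodT np at *
  linarith

/-- Fubini for events on pairs. -/
theorem pr_pair_le {α β : Type} [Fintype α] [Fintype β] [Nonempty α] [Nonempty β]
    (p : α × β → Prop) {ϵ : ℝ} (h : ∀ b, pr (fun a => p (a, b)) ≤ ϵ) : pr p ≤ ϵ := by
  classical
  have ha : (0 : ℝ) < Fintype.card α := by exact_mod_cast Fintype.card_pos
  have hb : (0 : ℝ) < Fintype.card β := by exact_mod_cast Fintype.card_pos
  simp only [KTup_pr, div_le_iff₀ ha] at h
  rw [KTup_pr, Fintype.sum_prod_type_right, Fintype.card_prod, Nat.cast_mul,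
    div_le_iff₀ (mul_pos ha hb)]
  refine (sum_le_sum fun b _ => h b).trans (le_of_eq ?_)
  rw [sum_const, card_univ, nsmul_eq_mul]
  ring

end Vale.Agent.P160
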