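import Vale.Agent.P160.KCnt1

open Finset Filter
open scoped RealInnerProductSpace

namespace Vale.Agent.P160

open Vale.Agent.RM

theorem KVol_sum {m : ℕ} (W : Submodule ℝ (Eu m)) :
    ∑ l, ‖W.starProjection (EuclideanSpace.single l (1 : ℝ))‖ ^ 2 = Module.finrank ℝ W := by
  set e := stdOrthonormalBasis ℝ W
  have h : ∀ x : Eu m, ‖W.starProjection x‖ ^ 2 = ∑ j, ⟪(e j : Eu m), x⟫ ^ 2 := by
    intro x
    have h1 := e.sum_sq_norm_inner_right (W.orthogonalProjectionOnto x)
    have h2 : ‖W.starProjection x‖ = ‖W.orthogonalProjectionOnto x‖ := rfl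
    rw [h2, ← h1]
    refine Finset.sum_congr rfl fun j _ => ?_
    rw [Submodule.inner_orthogonalProjectionOnto_eq_of_mem_left, Real.norm_eq_abs, sq_abs]
  simp_rw [h]
  rw [Finset.sum_comm]
  have h3 : ∀ j, ∑ l, ⟪(e j : Eu m), EuclideanSpace.single l (1 : ℝ)⟫ ^ 2 = 1 := by
    intro j
    have h1 : ‖(e j : Eu m)‖ = 1 := e.orthonormal.1 j
    have h2 := EuclideanSpace.norm_sq_eq (e j : Eu m)
    rw [h1] at h2
    simp only [EuclideanSpace.inner_single_right, one_mul, conj_trivial]
    simpa using h2.symm
  simp [h3]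

theorem KVol_perm {E : Type} [NormedAddCommGroup E] [InnerProductSpace ℝ E] {k : ℕ}
    (v : Fin k → E) (σ : Equiv.Perm (Fin k)) : gd (v ∘ σ) = gd v := by
  unfold gd
  rw [← Matrix.det_submatrix_equiv_self σ (Matrix.gram ℝ v)]
  rfl

/-- A set of coordinates whose projections have a large Gram determinant. `u l = P (e l)`, `P` the
projection on `V`, `c = finrank V/(2m) ≤ 1/2`. Greedy induction on `k` with the invariant
`c^k' ≤ gd (u ∘ f)` for all injective `f : Fin k' → S`. Given `S` of size `k < finrank V/2`, let `W` be the span of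
`u '' S` (dimension `≤ k`) and `Q` the projection on `V ⊓ Wᗮ` (dimension `≥ finrank V/2`):
`∑_l ‖Q (e l)‖^2 = finrank (V ⊓ Wᗮ)`, so some `l` has `‖Q (e l)‖^2 ≥ c`, and `l ∉ S`. If `f` contains `l`, move it to the
last place (`Matrix.det_submatrix_equiv_self`) and use `gd_append`, `gd_one`: the distance from `u l` to the
span of the others is at least `‖Q (e l)‖`. -/
theorem vol_sel {m k : ℕ} (V : Submodule ℝ (Eu m)) (hk : 2 * k ≤ Module.finrank ℝ V) :
    ∃ S : Finset (Fin m), S.card = k ∧ ∀ (k' : ℕ) (f : Fin k' → Fin m), Function.Injective f →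
      (∀ i, f i ∈ S) → ((Module.finrank ℝ V : ℝ) / (2 * m)) ^ k' ≤
        gd (fun i => V.starProjection (EuclideanSpace.single (f i) (1 : ℝ))) := by
  classical
  set c : ℝ := (Module.finrank ℝ V : ℝ) / (2 * m) with hc
  have hc0 : 0 ≤ c := by positivity
  set u : Fin m → Eu m := fun l => V.starProjection (EuclideanSpace.single l (1 : ℝ)) with hu
  change ∃ S : Finset (Fin m), S.card = k ∧ ∀ (k' : ℕ) (f : Fin k' → Fin m),
    Function.Injective f → (∀ i, f i ∈ S) → c ^ k' ≤ gd (fun i => u (f i))
  induction k with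
  | zero =>
    refine ⟨∅, rfl, fun k' f _ h => ?_⟩
    cases k' with
    | zero => simp [gd_zero]
    | succ k' => simpa using h 0
  | succ k ih =>
    obtain ⟨S, hS, hS'⟩ := ih (by omega)
    set W := Submodule.span ℝ ((S.image u : Finset (Eu m)) : Set (Eu m)) with hW
    have hW1 : Module.finrank ℝ W ≤ k :=
      (finrank_span_finset_le_card _).trans (Finset.card_image_le.trans hS.le)
    set Q := V ⊓ Wᗮ with hQ
    have hQ1 : Module.finrank ℝ V ≤ k + Module.finrank ℝ Q := by
      have h1 := Submodule.finrank_sup_add_finrank_inf_eq V Wᗮ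
      have h2 := Submodule.finrank_le (V ⊔ Wᗮ)
      have h3 := W.finrank_add_finrank_orthogonal
      rw [← hQ] at h1
      omega
    have hV : Module.finrank ℝ V ≤ m := by simpa using Submodule.finrank_le V
    have hm : 0 < m := by omega
    have hm' : (0 : ℝ) < m := by exact_mod_cast hm
    have hc1 : 0 < c := by
      have : (0 : ℝ) < Module.finrank ℝ V := by exact_mod_cast (by omega : 0 < Module.finrank ℝ V)
      positivity
    obtain ⟨l, hl⟩ : ∃ l, c ≤ ‖Q.starProjection (EuclideanSpace.single l (1 : ℝ))‖ ^ 2 := by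
      by_contra! h
      have : Nonempty (Fin m) := ⟨⟨0, hm⟩⟩
      have h1 := Finset.sum_lt_sum_of_nonempty univ_nonempty fun l _ => h l
      rw [KVol_sum] at h1
      simp only [sum_const, card_univ, Fintype.card_fin, nsmul_eq_mul] at h1
      have h2 : (m : ℝ) * c = Module.finrank ℝ V / 2 := by rw [hc]; field_simp
      have h3 : (Module.finrank ℝ V : ℝ) ≤ 2 * Module.finrank ℝ Q := by
        exact_mod_cast (by omega : Module.finrank ℝ V ≤ 2 * Module.finrank ℝ Q)
      linarith
    have hQu : ∀ j, Q.starProjection (u j) = Q.starProjection (EuclideanSpace.single j (1 : ℝ)) :=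
      fun j => by
        have := Submodule.starProjection_comp_starProjection_of_le (U := Q) (V := V) inf_le_left
        exact congrArg (fun g : Eu m →L[ℝ] Eu m => g (EuclideanSpace.single j (1 : ℝ))) this
    have hWQ : ∀ x ∈ W, Q.starProjection x = 0 := fun x hx => by
      rw [Submodule.starProjection_apply_eq_zero_iff]
      exact Submodule.orthogonal_le inf_le_right (W.le_orthogonal_orthogonal hx)
    have hSW : ∀ j ∈ S, u j ∈ W := fun j hj =>
      Submodule.subset_span (Finset.mem_coe.2 (Finset.mem_image_of_mem _ hj))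
    have hlS : l ∉ S := fun h => by
      rw [← hQu, hWQ _ (hSW l h)] at hl
      simp at hl
      linarith
    refine ⟨insert l S, by rw [Finset.card_insert_of_notMem hlS, hS], fun k' f hf hfS => ?_⟩
    by_cases hl' : ∃ i, f i = l
    swap
    · refine hS' k' f hf fun i => ?_
      rcases Finset.mem_insert.1 (hfS i) with h | h
      · exact absurd ⟨i, h⟩ hl'
      · exact h
    obtain ⟨i₀, hi₀⟩ := hl'
    cases k' with
    | zero => exact i₀.elim0
    | succ k' =>
      set σ := Equiv.swap i₀ (Fin.last k') with hσ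
      rw [← KVol_perm _ σ, KCnt1_gd_succ, pow_succ]
      have hmem : ∀ i : Fin k', f (σ i.castSucc) ∈ S := fun i => by
        rcases Finset.mem_insert.1 (hfS (σ i.castSucc)) with h | h
        · have h1 : σ i.castSucc = σ (Fin.last k') := by
            rw [hf (h.trans hi₀.symm), hσ, Equiv.swap_apply_right]
          exact absurd (σ.injective h1) (Fin.castSucc_lt_last i).ne
        · exact h
      refine mul_le_mul (hS' k' (fun i => f (σ i.castSucc))
        (hf.comp (σ.injective.comp (Fin.castSucc_injective _))) hmem) (hl.trans ?_) hc0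
        (gd_nonneg _)
      set U := Submodule.span ℝ (Set.range (Fin.init ((fun i => u (f i)) ∘ σ))) with hU
      have hUW : U ≤ W := Submodule.span_le.2 (by
        rintro _ ⟨i, rfl⟩
        exact hSW _ (hmem i))
      have e : ((fun i => u (f i)) ∘ σ) (Fin.last k') = u l := by
        simp [hσ, hi₀]
      rw [e, ← hQu]
      have h1 := Submodule.starProjection_add_starProjection_orthogonal (K := U) (u l)
      have h2 : Q.starProjection (u l) = Q.starProjection (Uᗮ.starProjection (u l)) := by
        conv_lhs => rw [← h1]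
        rw [map_add, hWQ _ (hUW (U.starProjection_apply_mem _)), zero_add]
      rw [h2]
      gcongr
      exact Q.norm_starProjection_apply_le _

end Vale.Agent.P160
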