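import Vale.Agent.P160.KLab
import Vale.Agent.P160.KVol
import Vale.Agent.P160.KRo
import Vale.Agent.P160.KOdl
import Vale.Agent.P160.KShift
import Vale.Agent.P160.KTup

open Finset Filter
open scoped RealInnerProductSpace

namespace Vale.Agent.P160

open Vale.Agent.RM

theorem KMA_hv {m : ℕ} (I : Finset (Fin m)) (b b' : Fin m → Bool) (l : Fin m) :
    |hv I b b' l| ≤ 1 := by
  unfold hv bz
  split_ifs <;> simp

theorem KMA_frac {m r P : ℕ} (hm : 1 ≤ m) (U : Submodule ℝ (Eu m)) {β R δ : ℝ} (hβ : 1 ≤ β)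
    (hR : 8 * (m : ℝ) ^ 3 * β ^ 2 ≤ R)
    (hreg : np (shortSp U β) (R * (1 + 1 / m)) ≤ 64 * np (shortSp U β) R)
    (a : Fin r → Fin m → ℤ) (ha : sp a = shortSp U β) (hsat : ∀ z, rv z ∈ sp a → z ∈ zsp a)
    (hP2 : 2 ≤ P) (hP : Real.sqrt m * β ≤ P) (h : Fin m → ℤ) (hh : ∀ l, |h l| ≤ 1)
    (hno : ∀ p : ℕ, p.Prime → p ≤ P → ∃ i, ¬ (p : ℤ) ∣ h ⬝ᵥ a i)
    (hπ : (m : ℝ) ^ (1 / 2 - δ) ≤ ‖(shortSp U β).starProjection (rv h)‖) :
    (((ipts (shortSp U β) R).filter fun z => h ⬝ᵥ z = 0).card : ℝ) ≤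
      64 * (m : ℝ) ^ δ / R * (ipts (shortSp U β) R).card := by
  have hm' : (1 : ℝ) ≤ m := by exact_mod_cast hm
  have hm0 : (0 : ℝ) < m := by linarith
  have hR0 : 0 < R := lt_of_lt_of_le (by positivity) hR
  obtain ⟨x, -, hx, hxβ⟩ := short_basis U β
  obtain ⟨w, hw, hw1⟩ := exists_dot_one a x hsat (hx.trans ha.symm) hxβ h hh hP2 hP hno
  have h1 := (shift_le hm U (by linarith) hR h hh w (ha ▸ hw) hw1).trans hreg
  have hs : Real.sqrt m = (m : ℝ) ^ (1 / 2 - δ) * (m : ℝ) ^ δ := by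
    rw [← Real.rpow_add hm0, Real.sqrt_eq_rpow]; congr 1; ring
  have hd : 0 < (m : ℝ) ^ δ := by positivity
  have he : 0 < (m : ℝ) ^ (1 / 2 - δ) := by positivity
  have h2 : R / (m : ℝ) ^ δ ≤ ‖(shortSp U β).starProjection (rv h)‖ * R / Real.sqrt m := by
    rw [hs, div_le_div_iff₀ hd (by positivity)]
    have := mul_le_mul_of_nonneg_right hπ (show 0 ≤ R * (m : ℝ) ^ δ by positivity)
    linarith
  have h3 := (mul_le_mul_of_nonneg_right h2 (Nat.cast_nonneg _)).trans h1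
  unfold np at h3
  rw [div_mul_eq_mul_div, div_le_iff₀ hd] at h3
  rw [div_mul_eq_mul_div, le_div_iff₀ hR0]
  linarith

theorem KMA_proj {m : ℕ} (V : Submodule ℝ (Eu m)) (I : Finset (Fin m)) (b b' : Fin m → Bool) :
    V.starProjection (rv (hv I b b')) = ∑ l, ((bz (b l) - bz (b' l) : ℤ) : ℝ) •
      (if l ∈ I then V.starProjection (EuclideanSpace.single l (1 : ℝ)) else 0) := by
  have h1 : rv (hv I b b') = ∑ l, ((hv I b b' l : ℤ) : ℝ) • EuclideanSpace.single l (1 : ℝ) := by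
    ext j
    simp [Finset.sum_apply, Pi.single_apply]
  rw [h1, map_sum]
  refine sum_congr rfl fun l _ => ?_
  rw [map_smul]
  unfold hv
  split_ifs <;> simp

theorem KMA_num {x Q : ℝ} (hx : 100 ≤ x) (hQ0 : 0 ≤ Q) (hQ : 4 * Q * Real.exp (-(x / 40)) ≤ 1) :
    Q * (2 : ℝ) ^ (-(x / 10)) + (2 : ℝ) ^ (-(x / 10) / 4) ≤ Real.exp (-(x / 100)) := by
  have l2 := Real.log_two_gt_d9
  rw [Real.rpow_def_of_pos two_pos, Real.rpow_def_of_pos two_pos]
  have h1 : Real.exp (Real.log 2 * -(x / 10)) ≤ Real.exp (-(x / 40)) * Real.exp (-(x / 100)) := by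
    rw [← Real.exp_add]; exact Real.exp_le_exp.2 (by nlinarith)
  have h2 : Real.exp (Real.log 2 * (-(x / 10) / 4)) ≤
      Real.exp (-Real.log 2) * Real.exp (-(x / 100)) := by
    rw [← Real.exp_add]
    have := Real.log_two_lt_d9
    exact Real.exp_le_exp.2 (by nlinarith)
  rw [Real.exp_neg (Real.log 2), Real.exp_log two_pos] at h2
  have h3 := mul_le_mul_of_nonneg_left h1 hQ0
  have h4 : 0 < Real.exp (-(x / 100)) := Real.exp_pos _
  nlinarith

/-- Most tuples have small collision probabilities. `V = shortSp U β`, `r = finrank V ≥ c m/2`,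
`L = ⌈16/ε⌉₊ + 2`, `r₃ = c m/5 ≤ r/2` (natural division) eventually, `P = ⌈√m β⌉₊ + 2 ≤ m^(U₀+1)`. `𝒮` consists of `S₀` from
`vol_sel` (size `r/2`) and the sets `S p` from `odl_mod` for the primes `p ≤ P` (basis `a` from `int_basis`,
`isRat_shortSp`). `labels` gives `I₁, I₂`. For `I` one of them and `h = hv I b b'`: unless `h ⬝ᵥ a i ≡ 0 (p)` for some
`p ≤ P` and all `i` (probability `≤ P 2^(-r₃/(2L))`) or `‖P_V h‖ ≤ m^(1/2-δ)` (probability `≤ 2^(-r₃/(8L))`: `robust` for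
`u l = if l ∈ I then P_V (e l) else 0`, `S = S₀ ∩ I`, `a = min 1 (c/4)`), `exists_dot_one` and `shift_le` give
`#{z | h ⬝ᵥ z = 0} ≤ q * np V R` with `q = 64 m^δ/R`. So `ϵ ≤ 2^(-r₃/(10 L)) ≤ m^(-U₀ k) ≤ q^k` when
`c₄ = c/(100 L U₀)`. Conclude with `pr_pair_le`, `sum_coll_le`, `card_goodT`. -/
theorem good_many {c δ ε U₀ : ℝ} (hc : 0 < c) (hδ : 0 < δ) (hε : 0 < ε) (hU : 1 ≤ U₀) :
    ∃ c₄ : ℝ, 0 < c₄ ∧ ∀ᶠ m : ℕ in atTop, ∀ (U : Submodule ℝ (Eu m)) (β R : ℝ), 1 ≤ β →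
      c * m / 2 ≤ Module.finrank ℝ (shortSp U β) → 8 * (m : ℝ) ^ 3 * β ^ 2 ≤ R →
      R ≤ (m : ℝ) ^ U₀ → np (shortSp U β) (R * (1 + 1 / m)) ≤ 64 * np (shortSp U β) R →
      ∀ k : ℕ, (k : ℝ) ≤ c₄ * m / Real.log m →
        ∃ I₁ I₂ : Finset (Fin m), Disjoint I₁ I₂ ∧ ((I₁ ∪ I₂).card : ℝ) ≤ ε * m ∧
          np (shortSp U β) R ^ k / 2 ≤
            (goodT (shortSp U β) R k I₁ I₂ (8 * (64 * (m : ℝ) ^ δ / R) ^ k)).card := by
  classical
  set L : ℕ := ⌈16 / ε⌉₊ + 2 with hL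
  have hL2 : 2 ≤ L := by omega
  have hL1 : 16 / ε ≤ L := by
    rw [hL]; push_cast; linarith [Nat.le_ceil (16 / ε)]
  have hL0 : (0 : ℝ) < L := lt_of_lt_of_le (by positivity) hL1
  clear_value L
  refine ⟨c / (100 * L * U₀), by positivity, ?_⟩
  have hb : 0 < c / (40 * L) := by positivity
  have t1 := ((tendsto_rpow_mul_exp_neg_mul_atTop_nhds_zero (U₀ + 1) _ hb).comp
    tendsto_natCast_atTop_atTop).eventually_le_const (show (0 : ℝ) < 1 / 8 by norm_num)
  have t2 := ((tendsto_rpow_mul_exp_neg_mul_atTop_nhds_zero 0 _ hb).comp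
    tendsto_natCast_atTop_atTop).eventually_le_const (show (0 : ℝ) < 1 / 40 by norm_num)
  have t3 := (tendsto_natCast_atTop_atTop.const_mul_atTop
    (show 0 < c / L by positivity)).eventually_ge_atTop (100 : ℝ)
  filter_upwards [robust (c := c / (10 * L)) (a := min 1 (c / 4)) (by positivity)
    (lt_min one_pos (by positivity)) hδ, t1, t2, t3, eventually_ge_atTop 2] with m hro h1 h2 h3 hm2
  intro U β R hβ hr hR hRU hreg k hk
  simp only [Function.comp, Real.rpow_zero, one_mul] at h1 h2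
  have hm' : (2 : ℝ) ≤ m := by exact_mod_cast hm2
  have hm0 : (0 : ℝ) < m := by linarith
  have hm1 : (1 : ℝ) ≤ m := by linarith
  have hR0 : 0 < R := lt_of_lt_of_le (by positivity) hR
  have hεL : 8 * (m : ℝ) / L + 8 * m / L ≤ ε * m := by
    rw [← add_div, div_le_iff₀ hL0]
    rw [div_le_iff₀ hε] at hL1
    have := mul_le_mul_of_nonneg_left hL1 hm0.le
    linarith
  have hβR : β ≤ R := by
    have h8 : 1 ≤ 8 * (m : ℝ) ^ 3 := by have := one_le_pow₀ hm1 (n := 3); linarith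
    have h7 : β ≤ β ^ 2 := le_self_pow₀ hβ two_ne_zero
    exact h7.trans ((le_mul_of_one_le_left (by positivity) h8).trans hR)
  have hsq : Real.sqrt m ≤ m := Real.sqrt_le_iff.2 ⟨hm0.le, le_self_pow₀ hm1 two_ne_zero⟩
  set x : ℝ := c / L * m with hx
  have hL2' : (2 : ℝ) ≤ L := by exact_mod_cast hL2
  have hxc : x * L = c * m := by rw [hx]; field_simp
  have hcm : 10 ≤ c * m := by
    have := mul_le_mul h3 hL2' (by norm_num) (by linarith)
    linarith
  set V := shortSp U β with hV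
  obtain ⟨r, a, ha, haV, hsat⟩ := int_basis V (isRat_shortSp U β)
  have hra : Module.finrank ℝ V = r := by rw [← haV]; exact ha.finrank_sp
  have hsat' : ∀ z, rv z ∈ sp a → z ∈ zsp a := fun z hz => hsat z (haV ▸ hz)
  obtain ⟨S₀, hS₀, hS₀g⟩ := vol_sel (k := r / 2) V (by omega)
  rw [hra] at hr hS₀g
  have hr2 : c * m / 5 ≤ ((r / 2 : ℕ) : ℝ) := by
    have h4 : r ≤ 2 * (r / 2) + 1 := by omega
    have h5 : (r : ℝ) ≤ 2 * ((r / 2 : ℕ) : ℝ) + 1 := by exact_mod_cast h4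
    linarith
  have hex : ∀ p : ℕ, ∃ S : Finset (Fin m), p.Prime → S.card = r ∧
      ∀ (I : Finset (Fin m)) (b' : Fin m → Bool),
        pr (fun b : Fin m → Bool => ∀ i, (p : ℤ) ∣ hv I b b' ⬝ᵥ a i) ≤
          (2 : ℝ) ^ (-((S ∩ I).card : ℝ)) := fun p => by
    by_cases hp : p.Prime
    · obtain ⟨S, hS⟩ := odl_mod hp a ha hsat'
      exact ⟨S, fun _ => hS⟩
    · exact ⟨∅, fun h => absurd h hp⟩
  choose Sp hSp using hex
  set P : ℕ := ⌈Real.sqrt m * β⌉₊ + 2 with hP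
  have hP1 : Real.sqrt m * β ≤ P := by
    rw [hP]; push_cast; linarith [Nat.le_ceil (Real.sqrt m * β)]
  have hP2 : (P : ℝ) + 2 ≤ (m : ℝ) ^ (U₀ + 1) + 5 := by
    have h4 : ((⌈Real.sqrt m * β⌉₊ : ℕ) : ℝ) < Real.sqrt m * β + 1 :=
      Nat.ceil_lt_add_one (by positivity)
    have h7 : Real.sqrt m * β ≤ (m : ℝ) ^ (U₀ + 1) := by
      rw [Real.rpow_add hm0, Real.rpow_one, mul_comm]
      exact mul_le_mul (hβR.trans hRU) hsq (Real.sqrt_nonneg _) (by positivity)
    rw [hP]; push_cast; linarith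
  have hP3 : 2 ≤ P := by omega
  clear_value P
  set PS := (range (P + 1)).filter Nat.Prime with hPS
  have hPSc : (PS.card : ℝ) ≤ P + 1 := by
    have := (card_filter_le (range (P + 1)) Nat.Prime).trans (card_range _).le
    exact_mod_cast this
  have hexp : -(c / (40 * L)) * m = -(x / 40) := by rw [hx]; field_simp
  rw [hexp] at h1 h2
  have hQ : 4 * ((P : ℝ) + 2) * Real.exp (-(x / 40)) ≤ 1 := by
    have := mul_le_mul_of_nonneg_right hP2 (Real.exp_pos (-(x / 40))).le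
    linarith
  obtain ⟨I₁, I₂, hI, hI₁, hI₂, hSI⟩ := labels hL2 (insert S₀ (PS.image Sp)) (r := c * m / 5)
    (fun S hS => by
      rcases mem_insert.1 hS with rfl | hS
      · rw [hS₀]; exact hr2
      · obtain ⟨p, hp, rfl⟩ := mem_image.1 hS
        rw [(hSp p (mem_filter.1 hp).2).1]; linarith)
    (by
      have h4 : ((insert S₀ (PS.image Sp)).card : ℝ) ≤ P + 2 := by
        have h5 : (insert S₀ (PS.image Sp)).card ≤ PS.card + 1 :=
          (card_insert_le _ _).trans (Nat.succ_le_succ card_image_le)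
        have h6 : ((insert S₀ (PS.image Sp)).card : ℝ) ≤ PS.card + 1 := by exact_mod_cast h5
        linarith
      have h5 : c * m / 5 / (8 * L) = x / 40 := by rw [hx]; field_simp; norm_num
      rw [h5]
      have := mul_le_mul_of_nonneg_right h4 (Real.exp_pos (-(x / 40))).le
      linarith)
  have hs : c * m / 5 / (2 * L) = x / 10 := by rw [hx]; field_simp; norm_num
  rw [hs] at hSI
  set q : ℝ := 64 * (m : ℝ) ^ δ / R with hq
  have hq0 : 0 < q := by positivity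
  have hqk : Real.exp (-(x / 100)) ≤ q ^ k := by
    have hl : 0 < Real.log m := Real.log_pos (by linarith)
    have h4 : Real.exp (-(U₀ * Real.log m)) ≤ q := by
      rw [Real.exp_neg, mul_comm, ← Real.rpow_def_of_pos hm0, hq, le_div_iff₀ hR0]
      have h5 : 1 ≤ (m : ℝ) ^ δ := Real.one_le_rpow hm1 hδ.le
      have h6 : ((m : ℝ) ^ U₀)⁻¹ * R ≤ 1 := by
        rw [inv_mul_le_iff₀ (by positivity)]; linarith
      linarith
    refine le_trans ?_ (pow_le_pow_left₀ (Real.exp_pos _).le h4 k)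
    rw [← Real.exp_nat_mul]
    refine Real.exp_le_exp.2 ?_
    rw [le_div_iff₀ hl] at hk
    have h5 : U₀ * (c / (100 * L * U₀) * m) = x / 100 := by rw [hx]; field_simp
    have h6 := mul_le_mul_of_nonneg_left hk (show 0 ≤ U₀ by linarith)
    linarith
  have key : ∀ I : Finset (Fin m), (∀ S ∈ insert S₀ (PS.image Sp), x / 10 ≤ (S ∩ I).card) →
      ∑ z ∈ Fintype.piFinset (fun _ : Fin k => ipts V R), coll I z ≤
        8 * q ^ k / 4 * np V R ^ k := fun I hI' => by
    refine (sum_coll_le I (ipts V R) hq0.le (ϵ := q ^ k) (pr_pair_le _ fun b' => ?_)).trans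
      (le_of_eq (by unfold np; ring))
    refine le_trans ?_ ((KMA_num h3 (Q := P + 2) (by positivity) hQ).trans hqk)
    refine (pr_mono (q := fun b : Fin m → Bool =>
      (∃ p ∈ PS, ∀ i, (p : ℤ) ∣ hv I b b' ⬝ᵥ a i) ∨
        ‖∑ l, ((bz (b l) - bz (b' l) : ℤ) : ℝ) •
          (if l ∈ I then V.starProjection (EuclideanSpace.single l (1 : ℝ)) else 0)‖ ≤
          (m : ℝ) ^ (1 / 2 - δ)) fun b hb => ?_).trans ((pr_or_le _ _).trans (add_le_add ?_ ?_))
    · by_contra hcon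
      rw [not_or] at hcon
      refine absurd hb (not_lt.2 (KMA_frac (by omega) U hβ hR hreg a haV hsat' hP3 hP1 _
        (KMA_hv I b b') (fun p hp hpP => ?_) ?_))
      · by_contra h'
        exact hcon.1 ⟨p, mem_filter.2 ⟨mem_range.2 (by omega), hp⟩, by simpa using h'⟩
      · rw [KMA_proj]; exact (not_le.1 hcon.2).le
    · refine (pr_exists_le PS _).trans ?_
      refine (sum_le_card_nsmul _ _ ((2 : ℝ) ^ (-(x / 10))) fun p hp => ?_).trans ?_
      · refine ((hSp p (mem_filter.1 hp).2).2 I b').trans ?_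
        exact Real.rpow_le_rpow_of_exponent_le one_le_two
          (neg_le_neg (hI' _ (mem_insert_of_mem (mem_image_of_mem _ hp))))
      · rw [nsmul_eq_mul]
        exact mul_le_mul_of_nonneg_right (by linarith) (by positivity)
    · have h4 := hI' S₀ (mem_insert_self _ _)
      refine (hro (Eu m) _ (fun l => ?_) (S₀ ∩ I) ?_ ?_ b').trans ?_
      · split_ifs
        · exact (V.norm_starProjection_apply_le _).trans (by simp)
        · simp
      · have h5 : c / (10 * L) * m = x / 10 := by rw [hx]; field_simp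
        rw [h5]; exact h4
      · have h5 := hS₀g _ ((S₀ ∩ I).orderEmbOfFin rfl) ((S₀ ∩ I).orderEmbOfFin rfl).injective
          fun i => (mem_inter.1 ((S₀ ∩ I).orderEmbOfFin_mem rfl i)).1
        have h6 : (fun i : Fin (S₀ ∩ I).card => if (S₀ ∩ I).orderEmbOfFin rfl i ∈ I then
            V.starProjection (EuclideanSpace.single ((S₀ ∩ I).orderEmbOfFin rfl i) (1 : ℝ))
            else 0) = fun i => V.starProjection
              (EuclideanSpace.single ((S₀ ∩ I).orderEmbOfFin rfl i) (1 : ℝ)) := by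
          funext i
          rw [if_pos (mem_inter.1 ((S₀ ∩ I).orderEmbOfFin_mem rfl i)).2]
        rw [h6]
        refine le_trans ?_ h5
        have h7 : 0 ≤ min 1 (c / 4) := le_min zero_le_one (by positivity)
        refine (pow_le_pow_of_le_one h7 (min_le_left _ _)
          (show (S₀ ∩ I).card ≤ m by simpa using card_le_univ (S₀ ∩ I))).trans
          (pow_le_pow_left₀ h7 ((min_le_right _ _).trans ?_) _)
        rw [le_div_iff₀ (by positivity)]; linarith
      · exact Real.rpow_le_rpow_of_exponent_le one_le_two (by linarith)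
  refine ⟨I₁, I₂, hI, ?_, card_goodT V R I₁ I₂ (by positivity)
    (key I₁ fun S hS => (hSI S hS).1) (key I₂ fun S hS => (hSI S hS).2)⟩
  have h4 : ((I₁ ∪ I₂).card : ℝ) ≤ I₁.card + I₂.card := by exact_mod_cast card_union_le _ _
  exact h4.trans ((add_le_add hI₁ hI₂).trans hεL)

end Vale.Agent.P160
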