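import Vale.Agent.P160.KMB

open Finset Filter
open scoped RealInnerProductSpace

namespace Vale.Agent.P160

open Vale.Agent.RM

theorem KMC_alg {η c U m k n r i L P a b d t : ℝ} (hη : 0 < η) (hm : 1 ≤ m)
    (hk0 : 0 ≤ k) (hk : c * m ≤ 2 * (k * L)) (hn0 : 0 ≤ n) (hn : n ≤ m) (hi : m - n - r ≤ i)
    (hi0 : 0 ≤ i) (hi1 : i * U ≤ η / 8 * m) (hL : 632 ≤ η * L) (hP0 : 0 ≤ P) (hP : P ≤ U * L)
    (ha : a ≤ 16) (hb : b ≤ 63) (hd : d ≤ 7) (ht : t ≤ 7 / 10) (hm2 : 430 ≤ c * η * m) :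
    m * k * (a + P - L / 2) + n * (d + k * (b + η / 8 * L - P)) -
      (k * (r * P - (1 / 2 - η / 2) * m * L) - t) ≤ -(c * η / 16 * m ^ 2) * t := by
  have L0 : 0 ≤ L := (pos_of_mul_pos_right (by linarith : 0 < η * L) hη.le).le
  have m0 : 0 ≤ m := by linarith
  have h1 : (m - n - r) * P ≤ η / 8 * m * L :=
    calc (m - n - r) * P ≤ i * P := mul_le_mul_of_nonneg_right hi hP0
      _ ≤ i * (U * L) := mul_le_mul_of_nonneg_left hP hi0
      _ = i * U * L := by ring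
      _ ≤ η / 8 * m * L := mul_le_mul_of_nonneg_right hi1 L0
  have h2 : n * (b + η / 8 * L) ≤ m * (63 + η / 8 * L) :=
    (mul_le_mul_of_nonneg_left (by linarith) hn0).trans
      (mul_le_mul_of_nonneg_right hn (by positivity))
  have h3 : m * a ≤ m * 16 := mul_le_mul_of_nonneg_left ha m0
  have h4 : m * 632 ≤ m * (η * L) := mul_le_mul_of_nonneg_left hL m0
  have h5 : m * (a + P - L / 2) + n * (b + η / 8 * L - P) - (r * P - (1 / 2 - η / 2) * m * L) ≤
      -(η / 8 * m * L) := by nlinarith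
  have h6 := mul_le_mul_of_nonneg_left h5 hk0
  have h7 := mul_le_mul_of_nonneg_left hk (show 0 ≤ η / 16 * m by positivity)
  have h8 : n * d ≤ m * 7 := (mul_le_mul_of_nonneg_left hd hn0).trans
    (mul_le_mul_of_nonneg_right hn (by norm_num))
  have h9 := mul_le_mul_of_nonneg_left hm2 m0
  have h10 : 0 ≤ c * η / 16 * m ^ 2 := by nlinarith
  have h11 := mul_le_mul_of_nonneg_left ht h10
  nlinarith

/-- First moment bound, asymptotic form. `k = ⌊c₄ m/log m⌋₊ ≥ 1`, `n' = m - #I - r'` (truncated), so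
`m - n' - r' ≤ #I ≤ η m/(8 U₀)` and `n' ≤ m`. The bound of `markov_goodT` is `2 * 8^n' * X^k` with
`X = (17 R/√m)^m (64 m^(η/8)/R)^n' m^((1/2-η/2) m)/R^r' ≤ (17*64)^m R^(#I) m^((η/8 - η/2) m) ≤ m^(-η m/8)`.
So it is at most `2 * 8^m exp (-η k m log m/8) ≤ 2^(-c₄ η m^2/16)`. -/
theorem prob_goodT {η c₄ U₀ : ℝ} (hη : 0 < η) (hη1 : η ≤ 1 / 2) (hc : 0 < c₄) (hU : 1 ≤ U₀) :
    ∀ᶠ m : ℕ in atTop, ∀ (M : Submodule ℝ (Eu m)) (r' : ℕ), Module.finrank ℝ M ≤ r' →
      ∀ R : ℝ, (m : ℝ) ^ 2 ≤ R → R ≤ (m : ℝ) ^ U₀ → ∀ I₁ I₂ : Finset (Fin m), Disjoint I₁ I₂ →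
        ((I₁ ∪ I₂).card : ℝ) ≤ η / (8 * U₀) * m →
        pr (fun ω : Om m =>
          (R ^ r' / (m : ℝ) ^ ((1 / 2 - η / 2) * m)) ^ ⌊c₄ * m / Real.log m⌋₊ / 2 ≤
            (goodT (M.comap (lin (mat ω))) R ⌊c₄ * m / Real.log m⌋₊ I₁ I₂
              (8 * (64 * (m : ℝ) ^ (η / 8) / R) ^ ⌊c₄ * m / Real.log m⌋₊)).card) ≤
          (2 : ℝ) ^ (-(c₄ * η / 16 * (m : ℝ) ^ 2)) := by
  have T1 : Tendsto (fun m : ℕ => (m : ℝ)) atTop atTop := tendsto_natCast_atTop_atTop
  filter_upwards [T1.eventually_ge_atTop 512, T1.eventually_ge_atTop (430 / (c₄ * η)),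
    (Real.tendsto_log_atTop.comp T1).eventually_ge_atTop (632 / η),
    T1.eventually (Real.isLittleO_log_id_atTop.bound (show 0 < c₄ / 2 by positivity))]
    with m h1 h2 h3 h4 M r' hM R hR hRU I₁ I₂ hI hc'
  have m0 : (0 : ℝ) < m := by linarith
  have m1 : (1 : ℝ) ≤ m := by linarith
  have L0 : 0 < Real.log m := Real.log_pos (by linarith)
  rw [Real.norm_of_nonneg L0.le, id, Real.norm_of_nonneg m0.le] at h4
  rw [Function.comp, div_le_iff₀ hη] at h3
  rw [div_le_iff₀ (by positivity)] at h2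
  have hq : 2 ≤ c₄ * m / Real.log m := by rw [le_div_iff₀ L0]; linarith
  have hk1 := Nat.lt_floor_add_one (c₄ * m / Real.log m)
  generalize ⌊c₄ * m / Real.log m⌋₊ = k at hk1 ⊢
  have hk2 : c₄ * m ≤ 2 * (k * Real.log m) := by
    have : c₄ * m / Real.log m ≤ 2 * k := by linarith
    rw [div_le_iff₀ L0] at this
    linarith
  have hk3 : k ≠ 0 := by
    rintro rfl
    simp only [Nat.cast_zero] at hk1
    linarith
  have hmR : (m : ℝ) ≤ R := by nlinarith
  have R0 : 0 < R := by linarith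
  have hq1 : 64 * (m : ℝ) ^ (η / 8) / R ≤ 1 / 8 := by
    have := Real.rpow_le_self_of_one_le m1 (show η / 8 ≤ 1 by linarith)
    rw [div_le_iff₀ R0]
    nlinarith
  have hρ : 8 * (64 * (m : ℝ) ^ (η / 8) / R) ^ k ≤ 1 := by
    have := pow_le_of_le_one (show 0 ≤ 64 * (m : ℝ) ^ (η / 8) / R by positivity) (by linarith) hk3
    linarith
  refine (markov_goodT (by exact_mod_cast m1) M hM hI
    ((Real.sqrt_le_iff.2 ⟨m0.le, by nlinarith⟩).trans hmR) (by positivity) hρ
    (by positivity)).trans (Real.le_rpow_of_log_le two_pos ?_)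
  have hn : m - (I₁ ∪ I₂).card - r' ≤ m := by omega
  have hn1 : m ≤ (I₁ ∪ I₂).card + (m - (I₁ ∪ I₂).card - r') + r' := by omega
  generalize m - (I₁ ∪ I₂).card - r' = n at hn hn1 ⊢
  have hs : 0 < √(m : ℝ) := Real.sqrt_pos.2 m0
  rw [Real.log_div (by positivity) (by positivity), Real.log_mul (by positivity) (by positivity),
    Real.log_pow, Real.log_pow, Real.log_div (by positivity) (by positivity),
    Real.log_mul (by positivity) (by positivity), Real.log_sqrt m0.le,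
    Real.log_mul (by positivity) (by positivity), Real.log_pow,
    Real.log_div (by positivity) (by positivity), Real.log_mul (by positivity) (by positivity),
    Real.log_rpow m0, Real.log_div (by positivity) (by positivity), Real.log_pow,
    Real.log_div (by positivity) (by positivity), Real.log_pow, Real.log_rpow m0, Nat.cast_mul]
  have hn2 : (m : ℝ) ≤ (I₁ ∪ I₂).card + n + r' := by exact_mod_cast hn1
  refine KMC_alg (U := U₀) (i := (I₁ ∪ I₂).card) hη m1 k.cast_nonneg hk2 n.cast_nonneg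
    (by exact_mod_cast hn) (by linarith) (Nat.cast_nonneg _) ?_ (by linarith)
    (Real.log_nonneg (by linarith)) ?_ ?_ ?_ ?_ (by linarith [Real.log_two_lt_d9]) (by linarith)
  · have := mul_le_mul_of_nonneg_right hc' (show 0 ≤ U₀ by linarith)
    refine this.trans_eq ?_
    field_simp
  · rw [← Real.log_rpow m0]
    exact Real.log_le_log R0 hRU
  all_goals exact (Real.log_le_sub_one_of_pos (by norm_num)).trans (by norm_num)

end Vale.Agent.P160
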