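import Vale.Agent.P160.KCnt2

open Finset Filter
open scoped RealInnerProductSpace

namespace Vale.Agent.P160

open Vale.Agent.RM

/-- `AddSubgroup.index_eq_natAbs_det` (the columns of `C` form a basis of `colL C`). -/
theorem index_colL {m : ℕ} (C : Matrix (Fin m) (Fin m) ℤ) (hC : C.det ≠ 0) :
    (colL C).index = C.det.natAbs := by
  have hi : Function.Injective (Matrix.mulVecLin C) := Matrix.mulVec_injective_of_det_ne_zero hC
  have h := Submodule.natAbs_det_equiv (LinearMap.range (Matrix.mulVecLin C))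
    (LinearEquiv.ofInjective _ hi)
  have e : (LinearMap.range (Matrix.mulVecLin C)).subtype ∘ₗ AddMonoidHom.toIntLinearMap
      ((LinearEquiv.ofInjective _ hi : (Fin m → ℤ) ≃ₗ[ℤ] LinearMap.range (Matrix.mulVecLin C)) :
        (Fin m → ℤ) →+ LinearMap.range (Matrix.mulVecLin C)) = Matrix.toLin' C := by
    refine LinearMap.ext fun z => ?_
    rfl
  rw [e, LinearMap.det_toLin'] at h
  rw [h]
  rfl

theorem KPts_det {m : ℕ} (C : Matrix (Fin m) (Fin m) ℤ) :
    (C.map fun a : ℤ => (a : ℝ)).det = (C.det : ℝ) :=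
  ((Int.castRingHom ℝ).map_det C).symm

theorem lin_injective {m : ℕ} (C : Matrix (Fin m) (Fin m) ℤ) (hC : C.det ≠ 0) :
    Function.Injective (lin C) := by
  have hi : Function.Injective (C.map fun a : ℤ => (a : ℝ)).mulVec :=
    Matrix.mulVec_injective_of_det_ne_zero (by rw [KPts_det]; exact_mod_cast hC)
  intro x y h
  have h1 : (C.map fun a : ℤ => (a : ℝ)).mulVec x.ofLp = (C.map fun a : ℤ => (a : ℝ)).mulVec y.ofLp := by
    funext i
    have := congrArg (fun v : Eu m => v i) h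
    simpa [lin_apply, Matrix.mulVec, dotProduct] using this
  exact WithLp.ofLp_injective 2 (hi h1)

theorem det_lin {m : ℕ} (C : Matrix (Fin m) (Fin m) ℤ) : LinearMap.det (lin C) = (C.det : ℝ) := by
  rw [← KPts_det, lin, Matrix.toEuclideanLin_eq_toLin_orthonormal, LinearMap.det_toLin]

theorem KPts_lin_lc {m k : ℕ} (C : Matrix (Fin m) (Fin m) ℤ) (x : Fin k → Fin m → ℤ)
    (y : Fin k → Eu m) (hy : ∀ i, lin C (y i) = rv (x i)) (n : Fin k → ℤ) :
    lin C (lc y n) = rv (∑ i, n i • x i) := by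
  rw [rv_lc, lc, lc, map_sum]
  exact Finset.sum_congr rfl fun i _ => by rw [map_smul, hy]; rfl

theorem KPts_lc_sub {m k : ℕ} (y : Fin k → Eu m) (n n' : Fin k → ℤ) :
    lc y (n - n') = lc y n - lc y n' := by
  simp [lc, sub_smul, Finset.sum_sub_distrib]

theorem KPts_lc_inj {m k : ℕ} {y : Fin k → Eu m} (hy : LinearIndependent ℝ y) {n n' : Fin k → ℤ}
    (h : lc y n = lc y n') : n = n' := by
  have h0 : ∑ i, (((n - n') i : ℤ) : ℝ) • y i = 0 := by
    have := KPts_lc_sub y n n'
    rw [h, sub_self] at this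
    exact this
  funext i
  have h1 := Fintype.linearIndependent_iff.1 hy _ h0 i
  have h2 : (n - n') i = 0 := by exact_mod_cast h1
  simpa [sub_eq_zero] using h2

/-- Many integer points are mapped into `M`. `y` is independent since `x` is. `mink` for `y` gives `F`;
pigeonhole on the class of `∑ n i • x i ∈ Λ` modulo `colL C` (at most `N` classes). For `n, n₀` in one class,
`∑ (n - n₀) i • x i = C z`, so `rv z = lc y (n - n₀)` (`lin_injective`), of norm `≤ 2 √m u`, and
`lin C (rv z) ∈ M`; `n ↦ z` is injective. -/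
theorem pts_lower {m k : ℕ} (C : Matrix (Fin m) (Fin m) ℤ) (hC : C.det ≠ 0)
    (Λ : AddSubgroup (Fin m → ℤ)) (hΛ : colL C ≤ Λ) (M : Submodule ℝ (Eu m))
    (x : Fin k → Fin m → ℤ) (hx : Ind x) (hxm : ∀ i, x i ∈ Λ ∧ rv (x i) ∈ M)
    (y : Fin k → Eu m) (hy : ∀ i, lin C (y i) = rv (x i)) {u : ℝ} (hu : 0 < u) :
    (u / 2) ^ k ≤ Real.sqrt (gd y) * ((colL C).relIndex Λ : ℝ) *
      np (M.comap (lin C)) (2 * Real.sqrt m * u) := by
  classical
  have hyi : LinearIndependent ℝ y := by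
    refine LinearIndependent.of_comp (lin C) ?_
    have e : lin C ∘ y = rf x := funext fun i => hy i
    rw [e]; exact hx
  obtain ⟨F, hF, hF'⟩ := mink y hyi hu
  have hg : 0 < Real.sqrt (gd y) := Real.sqrt_pos.2 ((gd_pos_iff y).2 hyi)
  have hN : (colL C).relIndex Λ ≠ 0 := by
    have h1 := AddSubgroup.relIndex_mul_index hΛ
    intro h0
    rw [h0, zero_mul, index_colL C hC] at h1
    exact hC (Int.natAbs_eq_zero.1 h1.symm)
  have hfin : Finite (Λ ⧸ (colL C).addSubgroupOf Λ) := Nat.finite_of_card_ne_zero hN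
  have := Fintype.ofFinite (Λ ⧸ (colL C).addSubgroupOf Λ)
  have hmem : ∀ n : Fin k → ℤ, ∑ i, n i • x i ∈ Λ := fun n =>
    Λ.sum_mem fun i _ => Λ.zsmul_mem (hxm i).1 _
  let cl : (Fin k → ℤ) → Λ ⧸ (colL C).addSubgroupOf Λ := fun n =>
    QuotientAddGroup.mk ⟨∑ i, n i • x i, hmem n⟩
  have hnorm : ∀ n ∈ F, ‖lc y n‖ ≤ Real.sqrt m * u := fun n hn => by
    have h1 : ‖lc y n‖ ^ 2 ≤ (Real.sqrt m * u) ^ 2 := by
      rw [mul_pow, Real.sq_sqrt (Nat.cast_nonneg m)]
      refine (hF' n hn).trans (mul_le_mul_of_nonneg_right ?_ (sq_nonneg u))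
      exact_mod_cast hx.le
    exact (pow_le_pow_iff_left₀ (norm_nonneg _) (by positivity) two_ne_zero).1 h1
  have hfib : ∀ q ∈ (univ : Finset (Λ ⧸ (colL C).addSubgroupOf Λ)),
      (F.filter fun n => cl n = q).card ≤ (ipts (M.comap (lin C)) (2 * Real.sqrt m * u)).card := by
    intro q _
    rcases (F.filter fun n => cl n = q).eq_empty_or_nonempty with h0 | ⟨n₀, hn₀⟩
    · rw [h0]; exact Nat.zero_le _
    have hz : ∀ n ∈ F.filter fun n => cl n = q, ∃ z : Fin m → ℤ, rv z = lc y (n - n₀) := by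
      intro n hn
      have h1 : cl n₀ = cl n := (mem_filter.1 hn₀).2.trans (mem_filter.1 hn).2.symm
      have h2 := QuotientAddGroup.eq.1 h1
      rw [AddSubgroup.mem_addSubgroupOf] at h2
      obtain ⟨z, hz⟩ := mem_colL.1 h2
      refine ⟨z, lin_injective C hC ?_⟩
      rw [lin_rv, KPts_lin_lc C x y hy, hz]
      congr 1
      simp only [AddSubgroup.coe_add, AddSubgroup.coe_neg, Pi.sub_apply, sub_smul,
        Finset.sum_sub_distrib]
      abel
    choose! z hz using hz
    refine card_le_card_of_injOn z (fun n hn => ?_) (fun n hn n' hn' h => ?_)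
    · have hn' := mem_coe.1 hn
      refine mem_coe.2 (mem_ipts.2 ⟨?_, ?_⟩)
      · rw [hz n hn', KPts_lc_sub]
        have h1 := hnorm n (mem_filter.1 hn').1
        have h2 := hnorm n₀ (mem_filter.1 hn₀).1
        linarith [norm_sub_le (lc y n) (lc y n₀)]
      · rw [Submodule.mem_comap, hz n hn', KPts_lin_lc C x y hy, rv_sum]
        refine M.sum_mem fun i _ => ?_
        rw [rv_smul]
        exact M.smul_mem _ (hxm i).2
    · have h1 : lc y (n - n₀) = lc y (n' - n₀) := by
        rw [← hz n (mem_coe.1 hn), ← hz n' (mem_coe.1 hn'), h]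
      exact sub_left_injective (KPts_lc_inj hyi h1)
  have hc := card_le_mul_card_image_of_maps_to (f := cl) (s := F) (t := univ)
    (fun _ _ => mem_univ _) _ hfib
  have hcard : (univ : Finset (Λ ⧸ (colL C).addSubgroupOf Λ)).card = (colL C).relIndex Λ := by
    rw [card_univ, ← Nat.card_eq_fintype_card]; rfl
  rw [hcard] at hc
  have hc' : (F.card : ℝ) ≤ np (M.comap (lin C)) (2 * Real.sqrt m * u) *
      ((colL C).relIndex Λ : ℝ) := by
    unfold np; exact_mod_cast hc
  rw [div_le_iff₀ hg] at hF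
  calc (u / 2) ^ k ≤ F.card * Real.sqrt (gd y) := hF
    _ ≤ np (M.comap (lin C)) (2 * Real.sqrt m * u) * ((colL C).relIndex Λ : ℝ) *
        Real.sqrt (gd y) := mul_le_mul_of_nonneg_right hc' hg.le
    _ = _ := by ring

end Vale.Agent.P160
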