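import Vale.Agent.P160.KScale
import Vale.Agent.P160.KMA
import Vale.Agent.P160.KMC
import Vale.Agent.P160.KPts

open Finset Filter
open scoped RealInnerProductSpace

namespace Vale.Agent.P160

open Vale.Agent.RM

theorem KML_goodT_mono {m : ℕ} {U V : Submodule ℝ (Eu m)} (h : U ≤ V) (R : ℝ) (k : ℕ)
    (I₁ I₂ : Finset (Fin m)) (ρ : ℝ) : goodT U R k I₁ I₂ ρ ⊆ goodT V R k I₁ I₂ ρ := by
  classical
  unfold goodT
  exact filter_subset_filter _ (Fintype.piFinset_subset _ _ fun _ => ipts_mono h le_rfl)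

theorem KML_finrank {m : ℕ} (C : Matrix (Fin m) (Fin m) ℤ) (hC : C.det ≠ 0)
    (M : Submodule ℝ (Eu m)) : Module.finrank ℝ (M.comap (lin C)) ≤ Module.finrank ℝ M := by
  rw [(Submodule.equivMapOfInjective (lin C) (lin_injective C hC) (M.comap (lin C))).finrank_eq]
  exact Submodule.finrank_mono (Submodule.map_comap_le _ _)

theorem KML_scl {m i T : ℕ} (hm : 2 ≤ m) (h1 : 1 ≤ i) (h2 : i ≤ T) :
    16 * (m : ℝ) ^ 3 ≤ scl m i ∧ (scl m i : ℝ) ^ 3 ≤ (m : ℝ) ^ ((3 : ℝ) ^ (T + 2)) := by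
  constructor
  · have a1 : (m ^ 3) ^ 3 ^ 1 ≤ scl m i :=
      Nat.pow_le_pow_right (by positivity) (Nat.pow_le_pow_right (by norm_num) h1)
    have a2 : 2 ^ 6 ≤ m ^ 6 := Nat.pow_le_pow_left hm 6
    have a3 : 16 * m ^ 3 ≤ (m ^ 3) ^ 3 ^ 1 := by
      have : (m ^ 3) ^ 3 ^ 1 = m ^ 6 * m ^ 3 := by ring
      rw [this]
      exact Nat.mul_le_mul_right _ (le_trans (by norm_num) a2)
    exact_mod_cast a3.trans a1
  · have a1 : scl m i ^ 3 = m ^ 3 ^ (i + 2) := by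
      unfold scl
      rw [← pow_mul, ← pow_mul]
      congr 1
      ring
    have a2 : scl m i ^ 3 ≤ m ^ 3 ^ (T + 2) := a1 ▸
      Nat.pow_le_pow_right (by omega) (Nat.pow_le_pow_right (by norm_num) (by omega))
    have a3 : ((3 : ℝ) ^ (T + 2)) = ((3 ^ (T + 2) : ℕ) : ℝ) := by push_cast; rfl
    rw [a3, Real.rpow_natCast]
    exact_mod_cast a2

theorem KML_count {T m : ℕ} {c' : ℝ} (hc : 0 < c') (h1 : T + 1 ≤ m) (h2 : 4 / c' ≤ m) :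
    (((T + 1) * (m * (2 ^ m * 2 ^ m)) : ℕ) : ℝ) * (2 : ℝ) ^ (-(2 * c' * (m : ℝ) ^ 2)) ≤
      (2 : ℝ) ^ (-(c' * (m : ℝ) ^ 2)) := by
  have a1 : m ≤ 2 ^ m := Nat.lt_two_pow_self.le
  have a2 : (T + 1) * (m * (2 ^ m * 2 ^ m)) ≤ 2 ^ (4 * m) := by
    have : 2 ^ (4 * m) = 2 ^ m * (2 ^ m * (2 ^ m * 2 ^ m)) := by ring
    rw [this]
    exact Nat.mul_le_mul (h1.trans a1) (Nat.mul_le_mul_right _ a1)
  have a3 : (((T + 1) * (m * (2 ^ m * 2 ^ m)) : ℕ) : ℝ) ≤ (2 : ℝ) ^ ((4 * m : ℕ) : ℝ) := by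
    rw [Real.rpow_natCast]
    exact_mod_cast a2
  refine (mul_le_mul_of_nonneg_right a3 (by positivity)).trans ?_
  rw [← Real.rpow_add two_pos]
  refine Real.rpow_le_rpow_of_exponent_le one_le_two ?_
  have a4 : 4 ≤ m * c' := (div_le_iff₀ hc).1 h2
  push_cast
  nlinarith [mul_le_mul_of_nonneg_left a4 (Nat.cast_nonneg (α := ℝ) m)]

/-- Moment lemma. -/
theorem moment_lemma {η c : ℝ} (hη : 0 < η) (hη1 : η ≤ 1 / 2) (hc : 0 < c) (hcη : c ≤ η / 8) :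
    ∃ θ c' : ℝ, 0 < θ ∧ 0 < c' ∧ ∀ᶠ m : ℕ in atTop, ∀ (M : Submodule ℝ (Eu m)) (r' : ℕ),
      Module.finrank ℝ M = r' → c * m ≤ r' → (r' : ℝ) ≤ c * m + 1 →
      pr (fun ω : Om m => (mat ω).det ≠ 0 ∧
        Dense (M.comap (lin (mat ω))) (r' - θ * m) ((m : ℝ) ^ ((1 / 2 - η) * m))) ≤
        (2 : ℝ) ^ (-(c' * (m : ℝ) ^ 2)) := by
  classical
  obtain ⟨T, θ, hθ, h1⟩ := scale_sel hη hη1 hc hcη
  have hU : (1 : ℝ) ≤ 3 ^ (T + 2) := one_le_pow₀ (by norm_num)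
  obtain ⟨c₄, hc₄, h2⟩ := good_many (δ := η / 8) (ε := η / (8 * 3 ^ (T + 2))) hc (by positivity)
    (by positivity) hU
  have h3 := prob_goodT hη hη1 hc₄ hU
  have hc' : 0 < c₄ * η / 32 := by positivity
  refine ⟨θ, c₄ * η / 32, hθ, hc', ?_⟩
  filter_upwards [h1, h2, h3, eventually_ge_atTop 2, eventually_ge_atTop (T + 1),
    tendsto_natCast_atTop_atTop.eventually_ge_atTop (4 / (c₄ * η / 32))]
    with m h1 h2 h3 m2 mT mc M r' hM r1 r2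
  have m1 : (2 : ℝ) ≤ m := by exact_mod_cast m2
  obtain ⟨ρ, hρ⟩ : ∃ ρ : ℕ → ℕ → ℝ,
      ρ = fun i j => 8 * (m : ℝ) ^ 3 * (scl m i : ℝ) ^ 2 * (1 + 1 / m) ^ j := ⟨_, rfl⟩
  obtain ⟨s, hs⟩ : ∃ s : Finset (ℕ × ℕ × Finset (Fin m) × Finset (Fin m)),
      s = (range (T + 1) ×ˢ range m ×ˢ univ).filter fun t => (m : ℝ) ^ 2 ≤ ρ t.1 t.2.1 ∧
        ρ t.1 t.2.1 ≤ (m : ℝ) ^ ((3 : ℝ) ^ (T + 2)) ∧ Disjoint t.2.2.1 t.2.2.2 ∧
        ((t.2.2.1 ∪ t.2.2.2).card : ℝ) ≤ η / (8 * 3 ^ (T + 2)) * m := ⟨_, rfl⟩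
  refine le_trans (pr_mono fun ω hω => ?_) ((pr_exists_le s fun t (ω : Om m) =>
    (ρ t.1 t.2.1 ^ r' / (m : ℝ) ^ ((1 / 2 - η / 2) * m)) ^ ⌊c₄ * m / Real.log m⌋₊ / 2 ≤
      (goodT (M.comap (lin (mat ω))) (ρ t.1 t.2.1) ⌊c₄ * m / Real.log m⌋₊ t.2.2.1 t.2.2.2
        (8 * (64 * (m : ℝ) ^ (η / 8) / ρ t.1 t.2.1) ^ ⌊c₄ * m / Real.log m⌋₊)).card).trans ?_)
  · obtain ⟨i, i1, i2, i3, i4⟩ := h1 _ r' (hM ▸ KML_finrank _ hω.1 M) r1 r2 hω.2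
    obtain ⟨b1, b2⟩ := KML_scl m2 i1 i2
    have p3 : (8 : ℝ) ≤ (m : ℝ) ^ 3 := le_trans (by norm_num) (pow_le_pow_left₀ zero_le_two m1 3)
    have b0 : (1 : ℝ) ≤ scl m i := by linarith
    obtain ⟨j, j1, j2, j3⟩ := reg_radius m2 (shortSp (M.comap (lin (mat ω))) (scl m i))
      (R := 8 * (m : ℝ) ^ 3 * (scl m i : ℝ) ^ 2) (by positivity)
    have e : 8 * (m : ℝ) ^ 3 * (scl m i : ℝ) ^ 2 * (1 + 1 / m) ^ j = ρ i j := by rw [hρ]
    have q1 : 8 * (m : ℝ) ^ 3 * (scl m i : ℝ) ^ 2 ≤ ρ i j := by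
      rw [← e]
      exact le_mul_of_one_le_right (by positivity)
        (one_le_pow₀ (le_add_of_nonneg_right (by positivity)))
    rw [e] at j2 j3
    have q2 : ρ i j ≤ (scl m i : ℝ) ^ 3 := by
      nlinarith [mul_le_mul_of_nonneg_right b1 (sq_nonneg (scl m i : ℝ))]
    have q3 : (m : ℝ) ^ 2 ≤ (m : ℝ) ^ 3 := pow_le_pow_right₀ (by linarith) (by norm_num)
    have q4 : (scl m i : ℝ) ≤ (scl m i : ℝ) ^ 2 := le_self_pow₀ b0 two_ne_zero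
    have q5 : Real.sqrt m ≤ (m : ℝ) ^ 3 :=
      (Real.sqrt_le_self_iff.2 (Or.inr (by linarith))).trans
        (le_self_pow₀ (by linarith) three_ne_zero)
    have q6 : (m : ℝ) ^ 3 * 1 ≤ (m : ℝ) ^ 3 * (scl m i : ℝ) ^ 2 :=
      mul_le_mul_of_nonneg_left (b0.trans q4) (by positivity)
    have q7 : Real.sqrt m * scl m i ≤ (m : ℝ) ^ 3 * (scl m i : ℝ) ^ 2 :=
      mul_le_mul q5 q4 (by positivity) (by positivity)
    obtain ⟨I₁, I₂, k1, k2, k3⟩ := h2 _ _ _ b0 i3 q1 (q2.trans b2) j3 ⌊c₄ * m / Real.log m⌋₊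
      (Nat.floor_le (div_nonneg (by positivity) (Real.log_natCast_nonneg m)))
    refine ⟨(i, j, I₁, I₂), ?_, le_trans ?_ (k3.trans ?_)⟩
    · rw [hs, mem_filter]
      refine ⟨?_, by dsimp only; linarith, q2.trans b2, k1, k2⟩
      simp only [mem_product, mem_range, mem_univ, and_true]
      omega
    · have q0 : 0 ≤ ρ i j := le_trans (by positivity) q1
      refine div_le_div_of_nonneg_right (pow_le_pow_left₀ (by positivity) ?_ _) zero_le_two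
      rw [div_le_iff₀' (by positivity)]
      exact i4 _ (by linarith) q2
    · exact_mod_cast card_le_card (KML_goodT_mono (shortSp_le _ _) _ _ _ _ _)
  · refine (sum_le_card_nsmul s _ ((2 : ℝ) ^ (-(c₄ * η / 16 * (m : ℝ) ^ 2))) fun t ht => ?_).trans
      ?_
    · rw [hs, mem_filter] at ht
      exact h3 M r' hM.le _ ht.2.1 ht.2.2.1 _ _ ht.2.2.2.1 ht.2.2.2.2
    · have e : c₄ * η / 16 = 2 * (c₄ * η / 32) := by ring
      rw [nsmul_eq_mul, e]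
      refine le_trans (mul_le_mul_of_nonneg_right ?_ (by positivity)) (KML_count hc' mT mc)
      have : s.card ≤ (T + 1) * (m * (2 ^ m * 2 ^ m)) := by
        rw [hs]
        refine (card_filter_le _ _).trans (le_of_eq ?_)
        simp [card_product]
      exact_mod_cast this

end Vale.Agent.P160
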