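import Vale.Agent.P160.KKD
import Vale.Agent.P160.KML

open Finset Filter
open scoped RealInnerProductSpace

namespace Vale.Agent.P160

open Vale.Agent.RM

theorem KKP_richE_mono {m : ℕ} (hm : 1 ≤ m) {κ η η' : ℝ} (h : η' ≤ η)
    {C : Matrix (Fin m) (Fin m) ℤ} (hC : RichE κ η C) : RichE κ η' C := by
  obtain ⟨Λ, h1, h2, h3⟩ := hC
  refine ⟨Λ, h1, le_trans ?_ h2, h3⟩
  refine Real.rpow_le_rpow_of_exponent_le (by exact_mod_cast hm) ?_
  exact mul_le_mul_of_nonneg_right h (by positivity)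

theorem KKP_aux {κ η : ℝ} (hκ : 0 < κ) (hη : 0 < η) (hη1 : η ≤ 1 / 4) : ∀ᶠ m : ℕ in atTop,
    pr (fun ω : Om m => (mat ω).det ≠ 0 ∧ (RichE κ η (mat ω) ∨ RichG κ (mat ω)))
      ≤ (2 : ℝ) ^ (-(m : ℝ)) := by
  set c : ℝ := min (κ / 16) (η / 16) with hc
  have hc0 : 0 < c := lt_min (by positivity) (by positivity)
  have hc1 : c ≤ κ / 16 := min_le_left _ _
  have hc2 : c ≤ η / 16 := min_le_right _ _
  obtain ⟨θ, c', hθ, hc', hML⟩ := moment_lemma (η := η / 2) (c := c) (by positivity) (by linarith)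
    hc0 (by linarith)
  have hD := kp_det hκ hη hη1 hθ (half_pos hc')
  have h1 : ∀ᶠ m : ℕ in atTop, 16 / κ ≤ (m : ℝ) :=
    tendsto_natCast_atTop_atTop.eventually_ge_atTop _
  have h2 : ∀ᶠ m : ℕ in atTop, 2 / c' ≤ (m : ℝ) :=
    tendsto_natCast_atTop_atTop.eventually_ge_atTop _
  have h3 : ∀ᶠ m : ℕ in atTop, (4 : ℝ) ≤ (m : ℝ) :=
    tendsto_natCast_atTop_atTop.eventually_ge_atTop _
  filter_upwards [hML, hD, h1, h2, h3] with m hML hD h1 h2 h3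
  have hm0 : (0 : ℝ) ≤ m := by positivity
  set r' : ℕ := ⌈c * m⌉₊ with hr'
  have hr1 : c * m ≤ r' := Nat.le_ceil _
  have hr2 : (r' : ℝ) ≤ c * m + 1 := (Nat.ceil_lt_add_one (by positivity)).le
  have hκm : 16 ≤ κ * m := by
    rw [div_le_iff₀ hκ] at h1; linarith
  have hr3 : (r' : ℝ) ≤ κ * m / 8 := by
    have : c * m ≤ κ / 16 * m := mul_le_mul_of_nonneg_right hc1 hm0
    linarith
  have hr4 : 2 * r' ≤ m := by
    have : c * m ≤ 1 / 64 * m := mul_le_mul_of_nonneg_right (by linarith) hm0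
    have : (2 * r' : ℝ) ≤ m := by linarith
    exact_mod_cast this
  obtain ⟨𝓜, hcard, hrk, hdet⟩ := hD r' hr3 hr4
  have key : pr (fun ω : Om m => (mat ω).det ≠ 0 ∧ (RichE κ η (mat ω) ∨ RichG κ (mat ω))) ≤
      ∑ M ∈ 𝓜, pr (fun ω : Om m => (mat ω).det ≠ 0 ∧
        Dense (M.comap (lin (mat ω))) (r' - θ * m) ((m : ℝ) ^ ((1 / 2 - η / 2) * m))) := by
    refine le_trans (pr_mono fun ω hω => ?_) (pr_exists_le 𝓜 _)
    obtain ⟨M, hM, hd⟩ := hdet ω hω.1 hω.2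
    exact ⟨M, hM, hω.1, hd⟩
  refine key.trans ?_
  have hb : ∀ M ∈ 𝓜, pr (fun ω : Om m => (mat ω).det ≠ 0 ∧
      Dense (M.comap (lin (mat ω))) (r' - θ * m) ((m : ℝ) ^ ((1 / 2 - η / 2) * m))) ≤
      (2 : ℝ) ^ (-(c' * (m : ℝ) ^ 2)) := fun M hM => hML M r' (hrk M hM) hr1 hr2
  refine (Finset.sum_le_card_nsmul _ _ _ hb).trans ?_
  rw [nsmul_eq_mul]
  calc (𝓜.card : ℝ) * (2 : ℝ) ^ (-(c' * (m : ℝ) ^ 2))
      ≤ 2 ^ (c' / 2 * (m : ℝ) ^ 2) * (2 : ℝ) ^ (-(c' * (m : ℝ) ^ 2)) :=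
        mul_le_mul_of_nonneg_right hcard (by positivity)
    _ = 2 ^ (c' / 2 * (m : ℝ) ^ 2 + -(c' * (m : ℝ) ^ 2)) := by
        rw [Real.rpow_add (by norm_num)]
    _ ≤ _ := by
        refine Real.rpow_le_rpow_of_exponent_le (by norm_num) ?_
        rw [div_le_iff₀ hc'] at h2
        nlinarith

/-- The key proposition. -/
theorem kp : KP := by
  intro κ η hκ hη
  have h := KKP_aux (η := min η (1 / 4)) hκ (lt_min hη (by norm_num)) (min_le_right _ _)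
  filter_upwards [h, eventually_ge_atTop 1] with m h hm
  refine le_trans (pr_mono fun ω hω => ⟨hω.1, hω.2.imp (KKP_richE_mono hm (min_le_left _ _)) id⟩) h

end Vale.Agent.P160
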