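import Vale.Agent.P160.TTop
import Vale.Agent.P160.KKP

open Finset Filter

namespace Vale.Agent.P160

theorem final : Tendsto (fun n : ℕ => qs n ^ (1 / (n : ℝ))) atTop (nhds (1 / 2)) := top kp

end Vale.Agent.P160
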