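import Vale.Agent.P160.KDefs

open Finset Filter
open scoped RealInnerProductSpace

namespace Vale.Agent.P160

open Vale.Agent.RM

/-- Integer vectors which are independent over `ℤ` are independent over `ℝ`
(`linearIndependent_algebraMap_comp_iff`, then transport along `WithLp.linearEquiv`). -/
theorem ind_iff {m k : ℕ} (x : Fin k → Fin m → ℤ) : Ind x ↔ LinearIndependent ℤ x := by
  have h := linearIndependent_algebraMap_comp_iff (R := ℤ) (S := ℝ) (v := x)
  rw [← h, Ind]
  exact ((WithLp.linearEquiv 2 ℝ (Fin m → ℝ)).symm.toLinearMap.linearIndependent_iff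
    (v := fun i => algebraMap ℤ ℝ ∘ x i) (LinearEquiv.ker _))

/-- The Gram determinant is a positive integer. -/
theorem one_le_gd {m k : ℕ} {x : Fin k → Fin m → ℤ} (h : Ind x) : 1 ≤ gd (rf x) := by
  have h0 := (gd_pos_iff _).2 h
  have e : gd (rf x) = ((Matrix.of fun i j => x i ⬝ᵥ x j : Matrix (Fin k) (Fin k) ℤ).det : ℝ) := by
    rw [Int.cast_det]
    unfold gd
    congr 1
    ext i j
    simp [rf, inner_rv]
  rw [e] at h0 ⊢
  exact_mod_cast h0

theorem gd_le_expd {m k : ℕ} {E : Type} [NormedAddCommGroup E] [InnerProductSpace ℝ E]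
    {φ : Eu m →ₗ[ℝ] E} (hφ : Expd φ) (v : Fin k → Eu m) : gd v ≤ gd (fun i => φ (v i)) := by
  refine gd_mono _ _ fun w => (hφ _).trans (le_of_eq ?_)
  simp

theorem isRat_sp {m k : ℕ} (x : Fin k → Fin m → ℤ) : IsRat (sp x) := by
  refine Submodule.span_mono ?_
  rintro _ ⟨i, rfl⟩
  exact ⟨x i, Submodule.subset_span ⟨i, rfl⟩, rfl⟩

theorem isRat_shortSp {m : ℕ} (U : Submodule ℝ (Eu m)) (R : ℝ) : IsRat (shortSp U R) := by
  refine Submodule.span_mono ?_
  rintro _ ⟨z, hz, rfl⟩
  exact ⟨z, Submodule.subset_span ⟨z, hz, rfl⟩, rfl⟩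

/-- Change of basis by an integer matrix: `gram (P v) = P * gram v * Pᵀ`. -/
theorem gd_matrix {E : Type} [NormedAddCommGroup E] [InnerProductSpace ℝ E] {k : ℕ}
    (P : Matrix (Fin k) (Fin k) ℝ) (v : Fin k → E) :
    gd (fun i => ∑ j, P i j • v j) = P.det ^ 2 * gd v := by
  have := Gd_comb P.transpose v
  rw [Matrix.det_transpose] at this
  exact this

end Vale.Agent.P160
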