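import Vale.Agent.P160.KBas0

open Finset Filter
open scoped RealInnerProductSpace

namespace Vale.Agent.P160

open Vale.Agent.RM

theorem KBas1_iff {m : ℕ} {ι : Type} [Finite ι] (x : ι → Fin m → ℤ) :
    LinearIndependent ℝ (fun i => rv (x i)) ↔ LinearIndependent ℤ x := by
  obtain ⟨k, ⟨e⟩⟩ := Finite.exists_equiv_fin ι
  rw [← linearIndependent_equiv e.symm, ← linearIndependent_equiv e.symm (f := x)]
  exact ind_iff (x ∘ e.symm)

theorem KBas1_mem {m : ℕ} {s : Set (Fin m → ℤ)} {U : Submodule ℝ (Eu m)}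
    (h : ∀ z ∈ s, rv z ∈ U) {z : Fin m → ℤ} (hz : z ∈ Submodule.span ℤ s) : rv z ∈ U := by
  induction hz using Submodule.span_induction with
  | mem x hx => exact h x hx
  | zero => rw [rv_zero]; exact U.zero_mem
  | add x y _ _ h1 h2 => rw [rv_add]; exact U.add_mem h1 h2
  | smul c x _ h => rw [rv_smul]; exact U.smul_mem _ h

theorem KBas1_sp {m k l : ℕ} {x : Fin k → Fin m → ℤ} {y : Fin l → Fin m → ℤ}
    (h : ∀ i, x i ∈ zsp y) : sp x ≤ sp y := by
  refine Submodule.span_le.2 ?_
  rintro _ ⟨i, rfl⟩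
  refine KBas1_mem ?_ (h i)
  rintro _ ⟨j, rfl⟩
  exact Submodule.subset_span ⟨j, rfl⟩

/-- A basis of the lattice spanned by `a` adapted to the rational subspace `U`.
Let `K ≤ (Fin r → ℤ)` be the submodule of coefficient vectors `n` with `lc (rf a) n ∈ U`. Smith normal
form (`Submodule.smithNormalForm` with the basis `Pi.basisFun`) gives a basis `bM` of `Fin r → ℤ` and
an embedding `f : Fin k ↪ Fin r` with `K` spanned by nonzero multiples of the `bM (f i)`; since `K` is
saturated it is spanned by the `bM (f i)`. Reindex `Fin (k + l) ≃ Fin r`. `x i`, `b j` are the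
corresponding combinations of `a`; the transition matrix has determinant `±1` (`gd_matrix`,
`Matrix.det_submatrix_equiv_self`). Real independence modulo `U`: pick an independent integer family
`α` spanning `U` (`IsRat`, `exists_linearIndependent`); the family `(α, b)` is independent over `ℤ`
(a relation puts `∑ β j • b j` into `U`, hence `β = 0`), so over `ℝ` by `ind_iff`. -/
theorem adapt {m r : ℕ} (a : Fin r → Fin m → ℤ) (ha : Ind a) (U : Submodule ℝ (Eu m))
    (hU : IsRat U) :
    ∃ (k l : ℕ) (x : Fin k → Fin m → ℤ) (b : Fin l → Fin m → ℤ), k + l = r ∧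
      (∀ i, x i ∈ zsp a) ∧ (∀ j, b j ∈ zsp a) ∧ Ind x ∧ sp x = sp a ⊓ U ∧ sp a = sp x ⊔ sp b ∧
      (∀ z ∈ zsp a, rv z ∈ U → z ∈ zsp x) ∧
      (∀ β : Fin l → ℝ, ∑ j, β j • rv (b j) ∈ U → β = 0) ∧
      ∀ (E : Type) [NormedAddCommGroup E] [InnerProductSpace ℝ E] (φ : Eu m →ₗ[ℝ] E),
        gd (fun i => φ (rv (a i))) =
          gd (Fin.append (fun i => φ (rv (x i))) (fun j => φ (rv (b j)))) := by
  classical
  let N : Submodule ℤ (Fin m → ℤ) :=
    { carrier := {z | z ∈ zsp a ∧ rv z ∈ U}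
      zero_mem' := ⟨Submodule.zero_mem _, by rw [rv_zero]; exact U.zero_mem⟩
      add_mem' := fun h1 h2 => ⟨add_mem h1.1 h2.1, by rw [rv_add]; exact add_mem h1.2 h2.2⟩
      smul_mem' := fun c _ h => ⟨Submodule.smul_mem _ c h.1, by
        rw [rv_smul]; exact U.smul_mem _ h.2⟩ }
  obtain ⟨k, o, hko, bO, bN, c, hc⟩ :=
    Submodule.exists_smith_normal_form_of_le (Pi.basisFun ℤ (Fin m)) N (zsp a) fun z hz => hz.1
  let ba : Module.Basis (Fin r) ℤ (zsp a) := Module.Basis.span ((ind_iff a).1 ha)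
  obtain rfl : o = r := by simpa using Fintype.card_congr (bO.indexEquiv ba)
  obtain ⟨l, rfl⟩ := Nat.exists_eq_add_of_le hko
  set y : Fin (k + l) → Fin m → ℤ := fun i => bO i with hy
  set x : Fin k → Fin m → ℤ := fun i => y (Fin.castAdd l i) with hx
  set b : Fin l → Fin m → ℤ := fun j => y (Fin.natAdd k j) with hb
  have iy : LinearIndependent ℤ y := bO.linearIndependent.map' (zsp a).subtype (by simp)
  obtain ⟨ix, ib, dj⟩ := linearIndependent_sum.1 (iy.comp _ finSumFinEquiv.injective)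
  have ay : ∀ j, a j = ∑ i, bO.toMatrix ba i j • y i := fun j => by
    have := congrArg (zsp a).subtype (bO.sum_toMatrix_smul_self ba j)
    rw [map_sum] at this
    exact (Module.Basis.coe_span_apply _ j).symm.trans this.symm
  have e1 : sp a = sp x ⊔ sp b := by
    refine le_antisymm ((KBas1_sp (y := y) fun j => ?_).trans (Submodule.span_le.2 ?_))
      (sup_le (KBas1_sp fun i => (bO _).2) (KBas1_sp fun i => (bO _).2))
    · rw [ay]
      exact Submodule.sum_mem _ fun i _ =>
        Submodule.smul_mem _ _ (Submodule.subset_span ⟨i, rfl⟩)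
    · rintro _ ⟨i, rfl⟩
      refine Fin.addCases (fun i => ?_) (fun i => ?_) i
      · exact Submodule.mem_sup_left (Submodule.subset_span ⟨i, rfl⟩)
      · exact Submodule.mem_sup_right (Submodule.subset_span ⟨i, rfl⟩)
  have hc' : ∀ i, (bN i : Fin m → ℤ) = c i • x i := hc
  have xU : sp x ≤ U := by
    refine Submodule.span_le.2 ?_
    rintro _ ⟨i, rfl⟩
    have c0 : (c i : ℝ) ≠ 0 := fun e => bN.ne_zero i (Subtype.ext (by
      rw [hc', Int.cast_eq_zero.1 e, zero_smul]; rfl))
    have := (bN i).2.2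
    rw [hc', rv_smul] at this
    exact (U.smul_mem_iff c0).1 this
  have sat : ∀ z ∈ zsp a, rv z ∈ U → z ∈ zsp x := fun z h1 h2 => by
    have := congrArg N.subtype (bN.sum_repr ⟨z, h1, h2⟩)
    rw [map_sum] at this
    rw [show z = _ from this.symm]
    refine Submodule.sum_mem _ fun i _ => ?_
    rw [map_smul, Submodule.subtype_apply, hc']
    exact Submodule.smul_mem _ _ (Submodule.smul_mem _ _ (Submodule.subset_span ⟨i, rfl⟩))
  have ind : ∀ β : Fin l → ℝ, ∑ j, β j • rv (b j) ∈ U → β = 0 := by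
    intro β hβ
    obtain ⟨κ, α, -, h1, h2⟩ :=
      exists_linearIndependent' ℝ fun z : {z : Fin m → ℤ // rv z ∈ U} => rv z.1
    have := h2.finite
    have h3 : LinearIndependent ℤ (Sum.elim (fun i => (α i).1) b) := by
      refine ((KBas1_iff fun i => (α i).1).1 h2).sum_type ib (Submodule.disjoint_def.2 ?_)
      intro z z1 z2
      refine Submodule.disjoint_def.1 dj z (sat z (Submodule.span_le.2 ?_ z2)
        (KBas1_mem ?_ z1)) z2
      · rintro _ ⟨j, rfl⟩; exact (bO _).2
      · rintro _ ⟨j, rfl⟩; exact (α j).2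
    obtain ⟨-, k2, k3⟩ := linearIndependent_sum.1 ((KBas1_iff _).2 h3)
    refine funext (Fintype.linearIndependent_iff.1 k2 β (Submodule.disjoint_def.1 k3 _ ?_ ?_))
    · have := hU hβ
      rw [Set.image_eq_range] at this
      exact h1.ge this
    · exact Submodule.sum_mem _ fun i _ =>
        Submodule.smul_mem _ _ (Submodule.subset_span ⟨i, rfl⟩)
  refine ⟨k, l, x, b, rfl, fun i => (bO _).2, fun i => (bO _).2, (ind_iff x).2 ix,
    le_antisymm (le_inf (e1 ▸ le_sup_left) xU) fun v ⟨v1, v2⟩ => ?_, e1, sat, ind,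
    fun E _ _ φ => ?_⟩
  · rw [e1] at v1
    obtain ⟨p, hp, q, hq, rfl⟩ := Submodule.mem_sup.1 v1
    obtain ⟨β, rfl⟩ := (Submodule.mem_span_range_iff_exists_fun ℝ).1 hq
    rw [ind β ((U.add_mem_iff_right (xU hp)).1 v2)]
    simpa using hp
  · have e : (Fin.append (fun i => φ (rv (x i))) fun j => φ (rv (b j))) =
        fun i => φ (rv (y i)) := Fin.append_castAdd_natAdd (f := fun i => φ (rv (y i)))
    have u : (((bO.toMatrix ba).transpose.map (Int.cast : ℤ → ℝ)).det) ^ 2 = 1 := by
      rw [← Int.cast_det, Matrix.det_transpose, ← Int.cast_pow, ← Module.Basis.det_apply,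
        ← Int.natAbs_sq, Int.isUnit_iff_natAbs_eq.1 (bO.isUnit_det ba)]
      simp
    rw [e, ← one_mul (gd fun i => φ (rv (y i))), ← u, ← gd_matrix]
    congr 1
    funext j
    rw [ay, rv_sum, map_sum]
    exact sum_congr rfl fun i _ => by rw [rv_smul, map_smul]; rfl

end Vale.Agent.P160
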