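import Vale.Agent.P160.KBas1

open Finset Filter
open scoped RealInnerProductSpace

namespace Vale.Agent.P160

open Vale.Agent.RM

theorem KBas2_mem_perp {m k : ℕ} (x : Fin k → Fin m → ℤ) (v : Eu m) :
    v ∈ (sp x)ᗮ ↔ ∀ i, ⟪rv (x i), v⟫ = 0 := by
  rw [Submodule.mem_orthogonal]
  refine ⟨fun h i => h _ (Submodule.subset_span ⟨i, rfl⟩), fun h u hu => ?_⟩
  induction hu using Submodule.span_induction with
  | mem y hy => obtain ⟨i, rfl⟩ := hy; exact h i
  | zero => simp
  | add y z _ _ h1 h2 => rw [inner_add_left, h1, h2, add_zero]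
  | smul c y _ h1 => rw [inner_smul_left, h1, mul_zero]

/-- The orthogonal complement of an integer family is rational. -/
theorem isRat_perp {m k : ℕ} (x : Fin k → Fin m → ℤ) : IsRat (sp x)ᗮ := by
  classical
  set F : (Fin m → ℤ) →ₗ[ℤ] (Fin k → ℤ) := (Matrix.of x).mulVecLin with hF
  set G : Eu m →ₗ[ℝ] Eu k := Matrix.toEuclideanLin (Matrix.of fun i j => (x i j : ℝ)) with hG
  have hGa : ∀ v i, G v i = ⟪rv (x i), v⟫ := fun v i => by
    simp [hG, Matrix.toLpLin_apply, Matrix.mulVec, dotProduct, PiLp.inner_apply, mul_comm]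
  have hGF : ∀ z, G (rv z) = rv (F z) := fun z => by
    ext i
    rw [hGa, inner_rv]
    simp [hF, Matrix.mulVec]
  have hker : LinearMap.ker G = (sp x)ᗮ := by
    ext v
    rw [LinearMap.mem_ker, KBas2_mem_perp]
    exact ⟨fun h i => by rw [← hGa, h]; rfl, fun h => by ext i; rw [hGa, h]; rfl⟩
  set V := Submodule.span ℝ (rv '' {z : Fin m → ℤ | rv z ∈ (sp x)ᗮ}) with hV
  have hVU : V ≤ (sp x)ᗮ := Submodule.span_le.2 (by rintro _ ⟨z, hz, rfl⟩; exact hz)
  refine (Submodule.eq_of_le_of_finrank_le hVU ?_).ge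
  let bK := Module.finBasis ℤ (LinearMap.ker F)
  let bR := Module.finBasis ℤ (LinearMap.range F)
  have h1 : Ind fun i => (bK i : Fin m → ℤ) :=
    (ind_iff _).2 (bK.linearIndependent.map' (LinearMap.ker F).subtype (Submodule.ker_subtype _))
  have h2 : Ind fun i => (bR i : Fin k → ℤ) :=
    (ind_iff _).2 (bR.linearIndependent.map' (LinearMap.range F).subtype (Submodule.ker_subtype _))
  have h3 : sp (fun i => (bK i : Fin m → ℤ)) ≤ V := by
    refine Submodule.span_le.2 ?_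
    rintro _ ⟨i, rfl⟩
    refine Submodule.subset_span ⟨_, ?_, rfl⟩
    change rv _ ∈ (sp x)ᗮ
    rw [← hker, LinearMap.mem_ker, hGF, LinearMap.mem_ker.1 (bK i).2, rv_zero]
  have h4 : sp (fun i => (bR i : Fin k → ℤ)) ≤ LinearMap.range G := by
    refine Submodule.span_le.2 ?_
    rintro _ ⟨i, rfl⟩
    obtain ⟨z, hz⟩ := (bR i).2
    exact ⟨rv z, by rw [hGF, hz]; rfl⟩
  have h5 := Submodule.finrank_mono h3
  have h6 := Submodule.finrank_mono h4
  rw [h1.finrank_sp] at h5
  rw [h2.finrank_sp] at h6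
  have h7 := LinearMap.finrank_range_add_finrank_ker G
  have h8 : Module.finrank ℤ (LinearMap.range F) + Module.finrank ℤ (LinearMap.ker F) = m := by
    have h9 := Submodule.finrank_quotient_add_finrank (LinearMap.ker F)
    rw [(LinearMap.quotKerEquivRange F).finrank_eq] at h9
    simpa using h9
  rw [hker, finrank_euclideanSpace_fin] at h7
  omega

theorem KBas2_rf_std (m : ℕ) :
    rf (fun i : Fin m => (Pi.single i 1 : Fin m → ℤ)) = EuclideanSpace.basisFun (Fin m) ℝ := by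
  funext i
  ext j
  simp [rf, Pi.single_apply]

theorem KBas2_ind_std (m : ℕ) : Ind (fun i : Fin m => (Pi.single i 1 : Fin m → ℤ)) := by
  unfold Ind
  rw [KBas2_rf_std]
  exact (EuclideanSpace.basisFun (Fin m) ℝ).orthonormal.linearIndependent

theorem KBas2_sp_std (m : ℕ) : sp (fun i : Fin m => (Pi.single i 1 : Fin m → ℤ)) = ⊤ := by
  refine Submodule.eq_top_of_finrank_eq ?_
  rw [(KBas2_ind_std m).finrank_sp, finrank_euclideanSpace_fin]

theorem KBas2_zsp_std {m : ℕ} (z : Fin m → ℤ) :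
    z ∈ zsp (fun i : Fin m => (Pi.single i 1 : Fin m → ℤ)) := by
  rw [zsp, Submodule.mem_span_range_iff_exists_fun]
  exact ⟨z, by ext j; simp [Finset.sum_apply, Pi.single_apply]⟩

theorem KBas2_gd_std (m : ℕ) : gd (rf fun i : Fin m => (Pi.single i 1 : Fin m → ℤ)) = 1 := by
  rw [KBas2_rf_std, gd,
    Matrix.gram_eq_one_iff_orthonormal.2 (EuclideanSpace.basisFun (Fin m) ℝ).orthonormal,
    Matrix.det_one]

/-- A rational subspace has an integer basis generating all its integer points. -/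
theorem int_basis {m : ℕ} (U : Submodule ℝ (Eu m)) (hU : IsRat U) :
    ∃ (r : ℕ) (a : Fin r → Fin m → ℤ), Ind a ∧ sp a = U ∧ ∀ z, rv z ∈ U → z ∈ zsp a := by
  obtain ⟨k, l, x, b, -, -, -, hx, hsp, -, hz, -, -⟩ := adapt _ (KBas2_ind_std m) U hU
  exact ⟨k, x, hx, by rw [hsp, KBas2_sp_std, top_inf_eq], fun z h => hz z (KBas2_zsp_std z) h⟩

/-- Duality of heights. -/
theorem dual_fam {m r : ℕ} (α : Fin r → Fin m → ℤ) (hα : Ind α) :
    ∃ (k : ℕ) (ρ : Fin k → Fin m → ℤ), k + r = m ∧ Ind ρ ∧ sp ρ = (sp α)ᗮ ∧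
      gd (rf ρ) ≤ gd (rf α) := by
  classical
  obtain ⟨k, l, ρ, b, hkl, -, -, hρ, hsp, -, -, -, hgd⟩ :=
    adapt _ (KBas2_ind_std m) (sp α)ᗮ (isRat_perp α)
  rw [KBas2_sp_std, top_inf_eq] at hsp
  have hk : k + r = m := by
    have h1 := Submodule.finrank_add_finrank_orthogonal (sp α)
    rw [← hsp, hρ.finrank_sp, hα.finrank_sp, finrank_euclideanSpace_fin] at h1
    omega
  obtain rfl : l = r := by omega
  refine ⟨k, ρ, hk, hρ, hsp, ?_⟩
  have h1 := hgd (Eu m) LinearMap.id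
  simp only [LinearMap.id_coe, id_eq] at h1
  have h2 : gd (fun i : Fin m => rv (Pi.single i 1 : Fin m → ℤ)) = 1 := KBas2_gd_std m
  rw [h2, gd_append, ← gd_coe] at h1
  have hP : (Submodule.span ℝ (Set.range fun i => rv (ρ i)))ᗮ = sp α := by
    change (sp ρ)ᗮ = _
    rw [hsp, Submodule.orthogonal_orthogonal]
  set p : Fin l → Eu m := fun j =>
    ((Submodule.span ℝ (Set.range fun i => rv (ρ i)))ᗮ.orthogonalProjectionOnto (rv (b j)) : Eu m)
    with hp
  have hpm : ∀ j, p j ∈ sp α := fun j => hP ▸ Submodule.coe_mem _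
  have hpi : ∀ j i, ⟪p j, rv (α i)⟫ = ((b j ⬝ᵥ α i : ℤ) : ℝ) := fun j i => by
    rw [← inner_rv]
    have hm : rv (α i) ∈ (Submodule.span ℝ (Set.range fun i => rv (ρ i)))ᗮ :=
      hP ▸ Submodule.subset_span ⟨i, rfl⟩
    have := Submodule.inner_orthogonalProjectionOnto_eq_of_mem_right
      (K := (Submodule.span ℝ (Set.range fun i => rv (ρ i)))ᗮ) ⟨_, hm⟩ (rv (b j))
    exact this
  choose A hA using fun j => (Submodule.mem_span_range_iff_exists_fun ℝ).1 (hpm j)
  have h3 : gd p = (Matrix.of A).det ^ 2 * gd (rf α) := by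
    rw [← gd_matrix]
    congr 1
    funext j
    exact (hA j).symm
  set N : Matrix (Fin l) (Fin l) ℤ := Matrix.of fun j i => b j ⬝ᵥ α i with hN
  have h4 : N.map (fun a : ℤ => (a : ℝ)) = Matrix.of A * Matrix.gram ℝ (rf α) := by
    ext j i
    rw [Matrix.map_apply, hN, Matrix.of_apply, ← hpi, ← hA j, sum_inner, Matrix.mul_apply]
    refine sum_congr rfl fun t _ => ?_
    rw [real_inner_smul_left]
    rfl
  have h5 : (N.det : ℝ) = (Matrix.of A).det * gd (rf α) := by
    rw [Int.cast_det, gd, ← Matrix.det_mul, ← h4]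
  have hgα : 0 < gd (rf α) := (gd_pos_iff _).2 hα
  have hgρ : 0 < gd (rf ρ) := (gd_pos_iff _).2 hρ
  have h1' : gd (rf ρ) * gd p = 1 := h1.symm
  have hgp : 0 < gd p := by
    rcases (gd_nonneg p).eq_or_lt with h | h
    · rw [← h, mul_zero] at h1'; exact absurd h1' zero_ne_one
    · exact h
  have h6 : (N.det : ℝ) ^ 2 = gd p * gd (rf α) := by rw [h5, h3]; ring
  have h7 : N.det ≠ 0 := by
    intro h
    rw [h] at h6
    have : 0 < gd p * gd (rf α) := by positivity
    simp at h6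
    rcases h6 with h6 | h6 <;> linarith
  have h8 : (1 : ℝ) ≤ (N.det : ℝ) ^ 2 := by
    have : (1 : ℤ) ≤ N.det ^ 2 := (one_le_sq_iff_one_le_abs _).2 (Int.one_le_abs h7)
    exact_mod_cast this
  calc gd (rf ρ) ≤ gd (rf ρ) * (gd p * gd (rf α)) := by
        rw [← h6]; exact le_mul_of_one_le_right hgρ.le h8
    _ = gd (rf α) := by rw [← mul_assoc, h1', one_mul]

end Vale.Agent.P160
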