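import Vale.Agent.P160.KBas1

open Finset Filter
open scoped RealInnerProductSpace

namespace Vale.Agent.P160

open Vale.Agent.RM

theorem KBas3_append {m r r' : ℕ} (a : Fin r → Fin m → ℤ) (x : Fin r' → Fin m → ℤ) :
    rf (Fin.append a x) = Fin.append (rf a) (rf x) := by
  funext i
  refine Fin.addCases (fun j => ?_) (fun j => ?_) i <;> simp [rf]

/-- Restriction to a rational subspace. -/
theorem restrict_fam {m r r' : ℕ} {E : Type} [NormedAddCommGroup E] [InnerProductSpace ℝ E]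
    [FiniteDimensional ℝ E] {φ : Eu m →ₗ[ℝ] E} (hφ : Expd φ) (a : Fin r → Fin m → ℤ) (ha : Ind a)
    (α : Fin r' → Fin m → ℤ) (hα : Ind α) :
    ∃ (k : ℕ) (x : Fin k → Fin m → ℤ), Ind x ∧ (∀ i, x i ∈ zsp a) ∧ sp x = sp a ⊓ sp α ∧
      gd (fun i => φ (rv (x i))) ≤ gd (fun i => φ (rv (a i))) * gd (rf α) := by
  obtain ⟨k, l, x, b, -, hx, -, hxi, hsp, -, -, hβ, hgd⟩ := adapt a ha (sp α) (isRat_sp α)
  refine ⟨k, x, hxi, hx, hsp, ?_⟩
  rw [hgd E φ, gd_append]
  set W : Submodule ℝ E := Submodule.span ℝ (Set.range fun i => φ (rv (x i))) with hW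
  have hW' : W = (sp x).map φ := by
    rw [hW, sp, Submodule.map_span, ← Set.range_comp]; rfl
  have h1 := gd_append (rf α) (rf b)
  rw [← KBas3_append] at h1
  have h1' : gd (rf (Fin.append α b)) =
      gd (rf α) * gd fun j => (sp α)ᗮ.orthogonalProjectionOnto (rv (b j)) := h1
  have hQ : LinearIndependent ℝ fun j => (sp α)ᗮ.orthogonalProjectionOnto (rv (b j)) := by
    rw [Fintype.linearIndependent_iff]
    intro β h0
    have : (sp α)ᗮ.orthogonalProjectionOnto (∑ j, β j • rv (b j)) = 0 := by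
      rw [map_sum]; simpa using h0
    rw [Submodule.orthogonalProjectionOnto_eq_zero_iff, Submodule.orthogonal_orthogonal] at this
    exact congrFun (hβ β this)
  have hgα : 0 < gd (rf α) := (gd_pos_iff _).2 hα
  have h2 : 1 ≤ gd (rf (Fin.append α b)) :=
    one_le_gd ((gd_pos_iff _).1 (by rw [h1']; exact mul_pos hgα ((gd_pos_iff _).2 hQ)))
  have h3 : (gd fun j => (sp α)ᗮ.orthogonalProjectionOnto (rv (b j))) ≤
      gd fun j => Wᗮ.orthogonalProjectionOnto (φ (rv (b j))) := by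
    refine gd_mono _ _ fun w => ?_
    set y : Eu m := ∑ j, w j • rv (b j) with hy
    have e1 : ∑ j, w j • (sp α)ᗮ.orthogonalProjectionOnto (rv (b j)) =
        (sp α)ᗮ.orthogonalProjectionOnto y := by rw [hy, map_sum]; simp
    have e2 : ∑ j, w j • Wᗮ.orthogonalProjectionOnto (φ (rv (b j))) =
        Wᗮ.orthogonalProjectionOnto (φ y) := by rw [hy, map_sum, map_sum]; simp
    rw [e1, e2]
    have hm : W.starProjection (φ y) ∈ (sp x).map φ := hW' ▸ W.starProjection_apply_mem _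
    obtain ⟨v, hv, hv2⟩ := hm
    have hvα : v ∈ sp α := (hsp.le hv).2
    have e3 : (sp α)ᗮ.orthogonalProjectionOnto y = (sp α)ᗮ.orthogonalProjectionOnto (y - v) := by
      have : (sp α)ᗮ.orthogonalProjectionOnto v = 0 := by
        rwa [Submodule.orthogonalProjectionOnto_eq_zero_iff, Submodule.orthogonal_orthogonal]
      rw [map_sub, this, sub_zero]
    have e4 : ‖Wᗮ.orthogonalProjectionOnto (φ y)‖ = ‖φ (y - v)‖ := by
      rw [map_sub, hv2, ← Submodule.starProjection_orthogonal_val]; rfl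
    rw [e3, e4]
    exact (Submodule.norm_orthogonalProjectionOnto_apply_le _ _).trans (hφ _)
  have h4 : 1 ≤ (gd fun j => Wᗮ.orthogonalProjectionOnto (φ (rv (b j)))) * gd (rf α) := by
    rw [h1'] at h2
    nlinarith
  rw [mul_assoc]
  exact le_mul_of_one_le_right (gd_nonneg _) h4

/-- The first `j` unit vectors. -/
def KBas3_e {m j : ℕ} (h : j ≤ m) : Fin j → Fin m → ℤ := fun i => Pi.single (Fin.castLE h i) 1

theorem KBas3_on {m j : ℕ} (h : j ≤ m) : Orthonormal ℝ (rf (KBas3_e h)) := by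
  have : rf (KBas3_e h) = EuclideanSpace.basisFun (Fin m) ℝ ∘ Fin.castLE h := by
    funext i
    ext l
    simp [rf, KBas3_e, Pi.single_apply]
  rw [this]
  exact (EuclideanSpace.basisFun (Fin m) ℝ).orthonormal.comp _ (Fin.castLE_injective h)

theorem KBas3_ind {m j : ℕ} (h : j ≤ m) : Ind (KBas3_e h) := (KBas3_on h).linearIndependent

theorem KBas3_gd {m j : ℕ} (h : j ≤ m) : gd (rf (KBas3_e h)) = 1 := by
  rw [gd, Matrix.gram_eq_one_iff_orthonormal.2 (KBas3_on h), Matrix.det_one]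

theorem KBas3_step {m j : ℕ} (M : Submodule ℝ (Eu m)) (h : j + 1 ≤ m) :
    Module.finrank ℝ (M ⊓ sp (KBas3_e h) : Submodule ℝ (Eu m)) ≤
      Module.finrank ℝ (M ⊓ sp (KBas3_e (Nat.le_of_succ_le h)) : Submodule ℝ (Eu m)) + 1 := by
  have hle : sp (KBas3_e (Nat.le_of_succ_le h)) ≤ sp (KBas3_e h) := by
    refine Submodule.span_mono ?_
    rintro _ ⟨i, rfl⟩
    exact ⟨i.castSucc, rfl⟩
  have h1 := Submodule.finrank_sup_add_finrank_inf_eq (M ⊓ sp (KBas3_e h))
    (sp (KBas3_e (Nat.le_of_succ_le h)))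
  have h2 := Submodule.finrank_mono (sup_le (inf_le_right (a := M)) hle)
  rw [inf_assoc, inf_eq_right.2 hle, (KBas3_ind _).finrank_sp] at h1
  rw [(KBas3_ind _).finrank_sp] at h2
  omega

/-- Cutting by a coordinate subspace. -/
theorem cut_fam {m : ℕ} (M : Submodule ℝ (Eu m)) {r' : ℕ} (hr : r' ≤ Module.finrank ℝ M) :
    ∃ (j : ℕ) (e : Fin j → Fin m → ℤ), Ind e ∧ gd (rf e) = 1 ∧
      Module.finrank ℝ (M ⊓ sp e : Submodule ℝ (Eu m)) = r' := by
  have key : ∀ (j : ℕ) (h : j ≤ m),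
      r' ≤ Module.finrank ℝ (M ⊓ sp (KBas3_e h) : Submodule ℝ (Eu m)) →
      ∃ (j : ℕ) (e : Fin j → Fin m → ℤ), Ind e ∧ gd (rf e) = 1 ∧
        Module.finrank ℝ (M ⊓ sp e : Submodule ℝ (Eu m)) = r' := by
    intro j
    induction j with
    | zero =>
      intro h h1
      refine ⟨0, KBas3_e h, KBas3_ind h, KBas3_gd h, le_antisymm ?_ h1⟩
      have h2 := Submodule.finrank_mono (inf_le_right (a := M) (b := sp (KBas3_e h)))
      rw [(KBas3_ind _).finrank_sp] at h2
      omega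
    | succ j ih =>
      intro h h1
      by_cases h2 : r' ≤ Module.finrank ℝ
          (M ⊓ sp (KBas3_e (Nat.le_of_succ_le h)) : Submodule ℝ (Eu m))
      · exact ih _ h2
      · have h3 := KBas3_step M h
        exact ⟨j + 1, KBas3_e h, KBas3_ind h, KBas3_gd h, by omega⟩
  refine key m le_rfl ?_
  have : sp (KBas3_e (le_refl m)) = ⊤ := by
    refine Submodule.eq_top_of_finrank_eq ?_
    rw [(KBas3_ind _).finrank_sp, finrank_euclideanSpace_fin]
  rw [this, inf_top_eq]
  exact hr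

end Vale.Agent.P160
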