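import Vale.Agent.P160.KCnt1

open Finset Filter
open scoped RealInnerProductSpace

namespace Vale.Agent.P160

open Vale.Agent.RM

variable {E : Type} [NormedAddCommGroup E] [InnerProductSpace ℝ E] [FiniteDimensional ℝ E]

theorem KCnt2_ints {β u : ℝ} (hβ : 0 < β) (hu : β ≤ u) (γ : ℝ) :
    ∃ G : Finset ℤ, u / β ≤ G.card ∧ ∀ t ∈ G, (((t : ℝ) + γ) * β) ^ 2 ≤ u ^ 2 := by
  have hx : 1 ≤ u / β := (one_le_div hβ).2 hu
  refine ⟨Finset.Icc ⌈-γ - u / β⌉ ⌊-γ + u / β⌋, ?_, fun t ht => ?_⟩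
  · rw [Int.card_Icc]
    have h1 := Int.ceil_lt_add_one (-γ - u / β)
    have h2 := Int.lt_floor_add_one (-γ + u / β)
    have h3 : ((⌊-γ + u / β⌋ + 1 - ⌈-γ - u / β⌉ : ℤ) : ℝ) ≤
        ((⌊-γ + u / β⌋ + 1 - ⌈-γ - u / β⌉).toNat : ℝ) := by
      exact_mod_cast Int.self_le_toNat _
    push_cast at h3
    linarith
  · rw [Finset.mem_Icc, Int.ceil_le, Int.le_floor] at ht
    have e : u = u / β * β := by field_simp
    rw [e]
    apply sq_le_sq' <;> nlinarith [ht.1, ht.2]

/-- Lower bound for the number of points of a shifted lattice in a large ball. Induction on `k`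
as for `gsu` (split off the last vector `w`, `β = ‖w_⊥‖ ≤ u`, `c = c' + γ w` with `c' ∈ span v'`):
there are at least `⌊2u/β⌋ ≥ u/β` integers `t` with `|(t + γ) β| ≤ u`; for each of them apply the
induction hypothesis with the shift `c' + (t + γ) w_U` and take the union of the `snoc n' t`. -/
theorem gsl {k : ℕ} (v : Fin k → E) (hv : LinearIndependent ℝ v) {u : ℝ} (hu : 0 < u)
    (hvu : ∀ i, ‖v i‖ ≤ u) (c : E) (hc : c ∈ Submodule.span ℝ (Set.range v)) :
    ∃ F : Finset (Fin k → ℤ), u ^ k / Real.sqrt (gd v) ≤ F.card ∧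
      ∀ n ∈ F, ‖lc v n + c‖ ^ 2 ≤ k * u ^ 2 := by
  induction k generalizing c with
  | zero =>
    refine ⟨{0}, by simp [gd_zero], fun n _ => ?_⟩
    have : c = 0 := by simpa using hc
    simp [lc, this]
  | succ k ih =>
    set U := Submodule.span ℝ (Set.range (Fin.init v)) with hU
    set w := v (Fin.last k) with hw
    set p := Uᗮ.starProjection w with hp
    have hv' : LinearIndependent ℝ (Fin.init v) := hv.comp _ (Fin.castSucc_injective k)
    have hg : gd v = gd (Fin.init v) * ‖p‖ ^ 2 := KCnt1_gd_succ v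
    have hg0 : 0 < gd v := (gd_pos_iff v).2 hv
    have hg1 : 0 < gd (Fin.init v) := (gd_pos_iff _).2 hv'
    have hβ : 0 < ‖p‖ := by
      rcases (norm_nonneg p).eq_or_lt with h | h
      · rw [hg, ← h] at hg0; simp at hg0
      · exact h
    have hβs : ‖p‖ ≤ u := (Uᗮ.norm_starProjection_apply_le w).trans (hvu _)
    obtain ⟨γ, hγ⟩ : ∃ γ : ℝ, Uᗮ.starProjection c = γ • p := by
      obtain ⟨α, rfl⟩ := (Submodule.mem_span_range_iff_exists_fun ℝ).1 hc
      refine ⟨α (Fin.last k), ?_⟩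
      rw [Fin.sum_univ_castSucc, map_add, map_smul]
      have : Uᗮ.starProjection (∑ i : Fin k, α i.castSucc • v i.castSucc) = 0 := by
        rw [Submodule.starProjection_apply_eq_zero_iff, Submodule.orthogonal_orthogonal]
        exact Submodule.sum_mem _ fun i _ => Submodule.smul_mem _ _ (Submodule.subset_span ⟨i, rfl⟩)
      rw [this, zero_add]
    obtain ⟨G, hG, hG'⟩ := KCnt2_ints hβ hβs γ
    choose F hF hF' using fun t : ℤ => ih (Fin.init v) hv' (fun i => hvu _)
      (U.starProjection ((t : ℝ) • w + c)) (U.starProjection_apply_mem _)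
    refine ⟨(G.sigma F).image fun x => Fin.snoc (α := fun _ => ℤ) x.2 x.1, ?_, fun n hn => ?_⟩
    · rw [Finset.card_image_of_injective _ fun x y h => ?_, Finset.card_sigma]
      · push_cast
        calc u ^ (k + 1) / Real.sqrt (gd v)
            = u / ‖p‖ * (u ^ k / Real.sqrt (gd (Fin.init v))) := by
              rw [hg, Real.sqrt_mul hg1.le, Real.sqrt_sq hβ.le]
              field_simp
              ring
          _ ≤ G.card * (u ^ k / Real.sqrt (gd (Fin.init v))) := by gcongr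
          _ = ∑ _t ∈ G, u ^ k / Real.sqrt (gd (Fin.init v)) := by simp
          _ ≤ _ := Finset.sum_le_sum fun t _ => hF t
      · have h1 := congrArg Fin.init h
        have h2 := congrFun h (Fin.last k)
        simp only [Fin.init_snoc, Fin.snoc_last] at h1 h2
        exact Sigma.ext h2 (heq_of_eq h1)
    · obtain ⟨⟨t, n'⟩, hx, rfl⟩ := Finset.mem_image.1 hn
      rw [Finset.mem_sigma] at hx
      rw [KCnt1_lc_succ, add_assoc, KCnt1_pyth U (KCnt1_lc_mem _ _)]
      simp only [Fin.init_snoc, Fin.snoc_last]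
      have h1 := hF' t n' hx.2
      have h2 := hG' t hx.1
      have h3 : ‖Uᗮ.starProjection ((t : ℝ) • w + c)‖ ^ 2 = (((t : ℝ) + γ) * ‖p‖) ^ 2 := by
        rw [map_add, map_smul, ← hp, hγ, ← add_smul, norm_smul, mul_pow, mul_pow,
          Real.norm_eq_abs, sq_abs]
      rw [← hw, h3]
      push_cast
      linarith

/-- Minkowski type lower bound at every scale. Take an integer `t ≥ 1` with `t u ≥ ‖v i‖`, apply
`gsl` at scale `t u` with `c = 0`, and use pigeonhole on the coefficient vectors modulo `2 t`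
(`(2t)^k` classes): in the largest class take `(n - n₀)/(2t)`. -/
theorem mink {k : ℕ} (v : Fin k → E) (hv : LinearIndependent ℝ v) {u : ℝ} (hu : 0 < u) :
    ∃ F : Finset (Fin k → ℤ), (u / 2) ^ k / Real.sqrt (gd v) ≤ F.card ∧
      ∀ n ∈ F, ‖lc v n‖ ^ 2 ≤ k * u ^ 2 := by
  classical
  obtain ⟨t, ht⟩ : ∃ t : ℕ, ∑ i, ‖v i‖ / u + 1 ≤ t := exists_nat_ge _
  have hs : 0 ≤ ∑ i, ‖v i‖ / u := by positivity
  have ht1 : (1 : ℝ) ≤ t := by linarith
  have ht0 : 0 < 2 * t := by
    have : 1 ≤ t := by exact_mod_cast ht1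
    omega
  have : NeZero (2 * t) := ⟨ht0.ne'⟩
  obtain ⟨F, hF, hF'⟩ := gsl v hv (u := t * u) (by positivity) (fun i => by
    have h1 : ‖v i‖ / u ≤ ∑ i, ‖v i‖ / u :=
      Finset.single_le_sum (f := fun i => ‖v i‖ / u) (fun _ _ => by positivity) (mem_univ i)
    rw [← div_le_iff₀ hu]; linarith) 0 (Submodule.zero_mem _)
  let cl : (Fin k → ℤ) → (Fin k → ZMod (2 * t)) := fun n i => (n i : ZMod (2 * t))
  obtain ⟨y, -, hy⟩ := Finset.exists_max_image (univ : Finset (Fin k → ZMod (2 * t)))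
    (fun y => (F.filter fun n => cl n = y).card) univ_nonempty
  set A := F.filter fun n => cl n = y with hA
  have hcard : (F.card : ℝ) ≤ (2 * t) ^ k * A.card := by
    have h := Finset.card_le_mul_card_image_of_maps_to (f := cl) (s := F) (t := univ)
      (fun _ _ => mem_univ _) A.card fun b hb => hy b hb
    rw [card_univ, Fintype.card_fun, ZMod.card, Fintype.card_fin] at h
    rw [mul_comm]
    exact_mod_cast h
  have hA' : (u / 2) ^ k / Real.sqrt (gd v) ≤ A.card := by
    have h := hF.trans hcard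
    have e : (t * u) ^ k / Real.sqrt (gd v) = (2 * t) ^ k * ((u / 2) ^ k / Real.sqrt (gd v)) := by
      rw [← mul_div_assoc, ← mul_pow]; congr 2; ring
    rw [e] at h
    exact le_of_mul_le_mul_left h (by positivity)
  rcases A.eq_empty_or_nonempty with h0 | ⟨n₀, hn₀⟩
  · exact ⟨∅, by simpa [h0] using hA', by simp⟩
  have hdv : ∀ n ∈ A, ∀ i, ((2 * t : ℕ) : ℤ) * ((n i - n₀ i) / ((2 * t : ℕ) : ℤ)) = n i - n₀ i := by
    intro n hn i
    apply Int.mul_ediv_cancel'
    rw [← ZMod.intCast_eq_intCast_iff_dvd_sub]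
    have h1 := congrFun (Finset.mem_filter.1 hn).2 i
    have h2 := congrFun (Finset.mem_filter.1 hn₀).2 i
    exact h2.trans h1.symm
  refine ⟨A.image fun n i => (n i - n₀ i) / ((2 * t : ℕ) : ℤ), ?_, fun n' hn' => ?_⟩
  · rw [Finset.card_image_of_injOn fun n hn n' hn' h => ?_]
    · exact hA'
    · funext i
      have h1 := hdv n hn i
      have h2 := hdv n' hn' i
      have h3 := congrFun h i
      rw [h3] at h1
      omega
  · obtain ⟨n, hn, rfl⟩ := Finset.mem_image.1 hn'
    have e : (2 * t : ℝ) • lc v (fun i => (n i - n₀ i) / ((2 * t : ℕ) : ℤ)) = lc v n - lc v n₀ := by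
      unfold lc
      rw [Finset.smul_sum, ← Finset.sum_sub_distrib]
      refine Finset.sum_congr rfl fun i _ => ?_
      rw [smul_smul, ← sub_smul]
      congr 1
      exact_mod_cast hdv n hn i
    have h1 := hF' n (Finset.mem_filter.1 hn).1
    have h2 := hF' n₀ (Finset.mem_filter.1 hn₀).1
    rw [add_zero] at h1 h2
    have h3 := norm_sub_le (lc v n) (lc v n₀)
    rw [← e, norm_smul, Real.norm_of_nonneg (by positivity)] at h3
    set X := ‖lc v (fun i => (n i - n₀ i) / ((2 * t : ℕ) : ℤ))‖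
    have hX : 0 ≤ X := norm_nonneg _
    have h4 : (2 * t * X) ^ 2 ≤ (‖lc v n‖ + ‖lc v n₀‖) ^ 2 := by gcongr
    have h5 : (2 * t : ℝ) ^ 2 * X ^ 2 ≤ (2 * t) ^ 2 * (k * u ^ 2) := by
      nlinarith [sq_nonneg (‖lc v n‖ - ‖lc v n₀‖)]
    exact le_of_mul_le_mul_left h5 (by positivity)

end Vale.Agent.P160
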