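import Vale.Agent.P160.KCnt1
import Vale.Agent.P160.KCnt2

open Finset Filter
open scoped RealInnerProductSpace

namespace Vale.Agent.P160

open Vale.Agent.RM

theorem KCnt3_cell {t : ℕ} (ht : 1 ≤ t) (a : ℤ) :
    ((a / t : ℤ) : ℝ) ^ 2 ≤ 2 * ((a : ℝ) ^ 2 / t ^ 2) + 2 := by
  have ht0 : (0 : ℝ) < t := by exact_mod_cast ht
  have htz : (0 : ℤ) < t := by exact_mod_cast ht
  have h1 : ((a / t : ℤ) : ℝ) * t + ((a % t : ℤ) : ℝ) = a := by
    exact_mod_cast Int.ediv_mul_add_emod a t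
  have h2 : (0 : ℝ) ≤ ((a % t : ℤ) : ℝ) := by exact_mod_cast Int.emod_nonneg a htz.ne'
  have h3 : ((a % t : ℤ) : ℝ) ≤ t := by exact_mod_cast (Int.emod_lt_of_pos a htz).le
  set q : ℝ := ((a / t : ℤ) : ℝ)
  set r : ℝ := ((a % t : ℤ) : ℝ)
  rw [← h1, ← mul_div_assoc, ← sub_le_iff_le_add, le_div_iff₀ (by positivity)]
  nlinarith [sq_nonneg (q * t + 2 * r), mul_le_mul h3 h3 h2 ht0.le]

theorem KCnt3_diff {t : ℕ} (ht : 1 ≤ t) {a b : ℤ} (h : a / t = b / t) : |a - b| ≤ t := by
  have htz : (0 : ℤ) < t := by exact_mod_cast ht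
  have h1 := Int.ediv_mul_add_emod a t
  have h2 := Int.ediv_mul_add_emod b t
  have h3 := Int.emod_nonneg a htz.ne'
  have h4 := Int.emod_nonneg b htz.ne'
  have h5 := Int.emod_lt_of_pos a htz
  have h6 := Int.emod_lt_of_pos b htz
  rw [h] at h1
  rw [abs_le]
  constructor <;> linarith

/-- Lattice points in a cube. `mink` with `u = t` gives many points `z = ∑ n i • ρ i` with
`‖z‖^2 ≤ m t^2`. Map `z` to its cell `c l = z l / t` (floor division); `∑ (c l)^2 ≤ 4 m`, so there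
are at most `exp m * 12^m ≤ 33^m` cells (import `KCnt1`, `card_int_ball` with `s = 2`); differences of
points of one cell lie in `box m t`. -/
theorem box_lower {m k : ℕ} (ρ : Fin k → Fin m → ℤ) (hρ : Ind ρ) {t : ℕ} (ht : 1 ≤ t) :
    ∃ Z : Finset (Fin m → ℤ), Z ⊆ box m t ∧ (∀ z ∈ Z, rv z ∈ sp ρ) ∧
      ((t : ℝ) / 2) ^ k / Real.sqrt (gd (rf ρ)) ≤ 33 ^ m * Z.card := by
  classical
  have ht0 : (0 : ℝ) < t := by exact_mod_cast ht
  obtain ⟨F, hF, hF2⟩ := mink (rf ρ) hρ ht0
  set z : (Fin k → ℤ) → Fin m → ℤ := fun n => ∑ i, n i • ρ i with hz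
  have hzi : Function.Injective z := by
    intro n n' h
    have h1 : lc (rf ρ) n = lc (rf ρ) n' := by rw [← rv_lc, ← rv_lc]; exact congrArg rv h
    have h2 := Fintype.linearIndependent_iffₛ.1 (show LinearIndependent ℝ (rf ρ) from hρ)
      (fun i => (n i : ℝ)) (fun i => (n' i : ℝ)) h1
    funext i
    exact_mod_cast h2 i
  set c : (Fin m → ℤ) → Fin m → ℤ := fun x l => x l / t with hc
  set G := F.image z with hG
  have hGc : G.card = F.card := card_image_of_injective _ hzi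
  rcases G.eq_empty_or_nonempty with h0 | h0
  · refine ⟨∅, empty_subset _, by simp, hF.trans ?_⟩
    rw [← hGc, h0]; simp
  obtain ⟨x, hx, hmax⟩ := G.exists_max_image (fun x => (G.filter fun y => c y = c x).card) h0
  have hsp : ∀ y ∈ G, rv y ∈ sp ρ := by
    intro y hy
    obtain ⟨n, -, rfl⟩ := mem_image.1 hy
    rw [hz]
    simp only [rv_lc]
    exact KCnt1_lc_mem _ _
  refine ⟨(G.filter fun y => c y = c x).image (· - x), fun w hw => ?_, fun w hw => ?_, ?_⟩
  · obtain ⟨y, hy, rfl⟩ := mem_image.1 hw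
    exact mem_box.2 fun l => KCnt3_diff ht (congrFun (mem_filter.1 hy).2 l)
  · obtain ⟨y, hy, rfl⟩ := mem_image.1 hw
    rw [rv_sub]
    exact Submodule.sub_mem _ (hsp y (mem_filter.1 hy).1) (hsp x hx)
  rw [card_image_of_injective _ (sub_left_injective)]
  have h1 : G.card ≤ (G.filter fun y => c y = c x).card * (G.image c).card := by
    refine card_le_mul_card_image _ _ fun a ha => ?_
    obtain ⟨y, hy, rfl⟩ := mem_image.1 ha
    exact hmax y hy
  have h2 : ((G.image c).card : ℝ) ≤ 33 ^ m := by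
    have h := card_int_ball (s := 2) one_le_two (fun _ : Fin m => 0) (G.image c) (R := m * 4)
      fun w hw => by
        obtain ⟨y, hy, rfl⟩ := mem_image.1 hw
        obtain ⟨n, hn, rfl⟩ := mem_image.1 hy
        have e1 := hF2 n hn
        rw [← rv_lc, norm_rv_sq] at e1
        have e2 : (k : ℝ) ≤ m := by exact_mod_cast hρ.le
        have e3 : (∑ l, ((z n l : ℤ) : ℝ) ^ 2) / t ^ 2 ≤ m := by
          rw [div_le_iff₀ (by positivity)]
          exact e1.trans (by gcongr)
        simp only [sub_zero]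
        calc _ ≤ ∑ l, (2 * (((z n l : ℤ) : ℝ) ^ 2 / t ^ 2) + 2) :=
              sum_le_sum fun l _ => KCnt3_cell ht _
          _ = 2 * ((∑ l, ((z n l : ℤ) : ℝ) ^ 2) / t ^ 2) + 2 * m := by
              rw [sum_add_distrib, ← mul_sum, ← sum_div]
              simp [mul_comm]
          _ ≤ _ := by linarith
    refine h.trans ?_
    rw [Fintype.card_fin, show (m : ℝ) * 4 / 2 ^ 2 = m * 1 by ring, Real.exp_nat_mul, ← mul_pow]
    have := Real.exp_one_lt_d9
    gcongr
    linarith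
  refine hF.trans ?_
  rw [← hGc]
  calc (G.card : ℝ) ≤ (G.filter fun y => c y = c x).card * (G.image c).card := by
        exact_mod_cast h1
    _ ≤ _ := by rw [mul_comm]; gcongr

end Vale.Agent.P160
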