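import Vale.Agent.P160.KBas2
import Vale.Agent.P160.KBas3
import Vale.Agent.P160.KCnt3

open Finset Filter
open scoped RealInnerProductSpace

namespace Vale.Agent.P160

open Vale.Agent.RM

/-- `α` almost minimises `gd α * μ^(2 r)` among independent integer families whose span
contains the vectors `X i`. -/
def NearMin {m k r : ℕ} (μ : ℝ) (X : Fin k → Fin m → ℤ) (α : Fin r → Fin m → ℤ) : Prop :=
  Ind α ∧ (∀ i, rv (X i) ∈ sp α) ∧
    ∀ (r' : ℕ) (α' : Fin r' → Fin m → ℤ), Ind α' → (∀ i, rv (X i) ∈ sp α') →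
      gd (rf α) * μ ^ (2 * r) ≤ 4 * (gd (rf α') * μ ^ (2 * r'))

/-- The set of values is nonempty (standard basis) and bounded below by `1`. -/
theorem exists_nearMin {m k : ℕ} {μ : ℝ} (hμ : 1 ≤ μ) (X : Fin k → Fin m → ℤ) :
    ∃ (r : ℕ) (α : Fin r → Fin m → ℤ), NearMin μ X α := by
  set S : Set ℝ := {t | ∃ (r : ℕ) (a : Fin r → Fin m → ℤ), Ind a ∧ (∀ i, rv (X i) ∈ sp a) ∧
    t = gd (rf a) * μ ^ (2 * r)} with hS
  have hne : S.Nonempty :=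
    ⟨_, m, _, KBas2_ind_std m, fun i => by rw [KBas2_sp_std]; trivial, rfl⟩
  have hlb : ∀ t ∈ S, 1 ≤ t := by
    rintro t ⟨r, a, ha, -, rfl⟩
    exact one_le_mul_of_one_le_of_one_le (one_le_gd ha) (one_le_pow₀ hμ)
  have hpos : 0 < sInf S := lt_of_lt_of_le one_pos (le_csInf hne hlb)
  obtain ⟨t, ⟨r, a, ha, hm, rfl⟩, ht⟩ :=
    exists_lt_of_csInf_lt hne (show sInf S < 4 * sInf S by linarith)
  refine ⟨r, a, ha, hm, fun r' x hx hxm => ?_⟩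
  have h1 : sInf S ≤ gd (rf x) * μ ^ (2 * r') := csInf_le ⟨_, hlb⟩ ⟨r', x, hx, hxm, rfl⟩
  linarith

/-- Closure step. -/
theorem closure_step {m k₁ r₀ r j r' : ℕ} {E : Type} [NormedAddCommGroup E]
    [InnerProductSpace ℝ E] [FiniteDimensional ℝ E] {φ : Eu m →ₗ[ℝ] E} (hφ : Expd φ) {μ G : ℝ}
    (hμ : 1 ≤ μ) (X : Fin k₁ → Fin m → ℤ) (a : Fin r₀ → Fin m → ℤ) (ha : Ind a)
    (hG : gd (fun i => φ (rv (a i))) ≤ G) (hX : ∀ i, rv (X i) ∈ sp a)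
    (α : Fin r → Fin m → ℤ) (hα : NearMin μ X α) :
    gd (rf α) ≤ 4 * G * μ ^ (2 * m) ∧
    ∀ (e : Fin j → Fin m → ℤ), Ind e → gd (rf e) = 1 →
      Module.finrank ℝ (sp α ⊓ sp e : Submodule ℝ (Eu m)) = r' →
      ∃ (k : ℕ) (x : Fin k → Fin m → ℤ), Ind x ∧ (∀ i, x i ∈ zsp a) ∧
        (∀ i, rv (x i) ∈ sp α ⊓ sp e) ∧ μ ^ (2 * r') ≤ 4 * G * μ ^ (2 * k) ∧
        gd (fun i => φ (rv (x i))) ≤ 4 * G ^ 2 * μ ^ (2 * m) := by
  obtain ⟨hαi, hαX, hmin⟩ := hα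
  have hμ0 : 0 < μ := by linarith
  have hG0 : 0 ≤ G := (gd_nonneg _).trans hG
  have hgα : 0 < gd (rf α) := (gd_pos_iff _).2 hαi
  have hA : gd (rf α) ≤ 4 * G * μ ^ (2 * m) := by
    have h1 := hmin r₀ a ha hX
    have h2 : gd (rf a) ≤ G := (gd_le_expd hφ (rf a)).trans hG
    have h3 : μ ^ (2 * r₀) ≤ μ ^ (2 * m) := pow_le_pow_right₀ hμ (by have := ha.le; omega)
    have h4 : gd (rf a) * μ ^ (2 * r₀) ≤ G * μ ^ (2 * m) :=
      mul_le_mul h2 h3 (by positivity) hG0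
    have h5 : gd (rf α) ≤ gd (rf α) * μ ^ (2 * r) := le_mul_of_one_le_right hgα.le (one_le_pow₀ hμ)
    linarith
  refine ⟨hA, fun e he hge hrk => ?_⟩
  obtain ⟨k₀, x₀, hx₀, hz₀, hsp₀, hg₀⟩ := restrict_fam hφ a ha α hαi
  obtain ⟨k, x, hx, hz, hsp, hg⟩ := restrict_fam hφ x₀ hx₀ e he
  have hg₀' : gd (fun i => φ (rv (x₀ i))) ≤ G * gd (rf α) :=
    hg₀.trans (mul_le_mul_of_nonneg_right hG hgα.le)
  have hle : sp x₀ ≤ sp α := hsp₀.le.trans inf_le_right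
  refine ⟨k, x, hx, fun i => ?_, fun i => ?_, ?_, ?_⟩
  · have : zsp x₀ ≤ zsp a := Submodule.span_le.2 (by rintro _ ⟨i, rfl⟩; exact hz₀ i)
    exact this (hz i)
  · have : rv (x i) ∈ sp x₀ ⊓ sp e := hsp ▸ Submodule.subset_span ⟨i, rfl⟩
    exact ⟨hle this.1, this.2⟩
  · have h1 := hmin k₀ x₀ hx₀ fun i => hsp₀ ▸ ⟨hX i, hαX i⟩
    have h2 : gd (rf x₀) ≤ G * gd (rf α) := (gd_le_expd hφ (rf x₀)).trans hg₀'
    have h3 : μ ^ (2 * r) ≤ 4 * G * μ ^ (2 * k₀) := by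
      have : gd (rf α) * μ ^ (2 * r) ≤ gd (rf α) * (4 * G * μ ^ (2 * k₀)) := by
        have := mul_le_mul_of_nonneg_right h2 (show 0 ≤ μ ^ (2 * k₀) by positivity)
        linarith
      exact le_of_mul_le_mul_left this hgα
    have h4 : r' + k₀ ≤ k + r := by
      have h5 := Submodule.finrank_sup_add_finrank_inf_eq (sp x₀) (sp α ⊓ sp e)
      have h6 := Submodule.finrank_mono (sup_le hle (inf_le_left (b := sp e)))
      rw [← inf_assoc, inf_eq_left.2 hle, ← hsp, hx.finrank_sp, hx₀.finrank_sp, hrk] at h5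
      rw [hαi.finrank_sp] at h6
      omega
    have h5 : μ ^ (2 * r') * μ ^ (2 * k₀) ≤ μ ^ (2 * k) * μ ^ (2 * r) := by
      rw [← pow_add, ← pow_add]; exact pow_le_pow_right₀ hμ (by omega)
    have h6 : μ ^ (2 * r') * μ ^ (2 * k₀) ≤ (4 * G * μ ^ (2 * k)) * μ ^ (2 * k₀) := by
      have := mul_le_mul_of_nonneg_left h3 (show 0 ≤ μ ^ (2 * k) by positivity)
      linarith
    exact le_of_mul_le_mul_right h6 (by positivity)
  · rw [hge, mul_one] at hg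
    have := mul_le_mul_of_nonneg_left hA hG0
    linarith

/-- Lower bound for the number of points of the cube orthogonal to `X`. -/
theorem perp_lower {m k₁ r : ℕ} (X : Fin k₁ → Fin m → ℤ) (α : Fin r → Fin m → ℤ) (hα : Ind α)
    (hX : ∀ i, rv (X i) ∈ sp α) {τ : ℕ} (hτ : 1 ≤ τ) :
    ((τ : ℝ) / 2) ^ (m - r) ≤ 33 ^ m * Real.sqrt (gd (rf α)) *
      ((box m τ).filter fun z => ∀ i, z ⬝ᵥ X i = 0).card := by
  obtain ⟨k, ρ, hk, hρ, hsp, hg⟩ := dual_fam α hα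
  obtain ⟨Z, hZ, hZs, hc⟩ := box_lower ρ hρ hτ
  obtain rfl : k = m - r := by omega
  have hgρ : 0 < Real.sqrt (gd (rf ρ)) := Real.sqrt_pos.2 ((gd_pos_iff _).2 hρ)
  rw [div_le_iff₀ hgρ] at hc
  have h1 : (Z.card : ℝ) ≤ ((box m τ).filter fun z => ∀ i, z ⬝ᵥ X i = 0).card := by
    refine Nat.cast_le.2 (card_le_card fun z hz => mem_filter.2 ⟨hZ hz, fun i => ?_⟩)
    have h2 := hZs z hz
    rw [hsp, Submodule.mem_orthogonal'] at h2
    have h3 := h2 _ (hX i)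
    rw [inner_rv] at h3
    exact_mod_cast h3
  have h2 := Real.sqrt_le_sqrt hg
  calc _ ≤ 33 ^ m * (Z.card : ℝ) * Real.sqrt (gd (rf ρ)) := hc
    _ ≤ 33 ^ m * ((box m τ).filter fun z => ∀ i, z ⬝ᵥ X i = 0).card * Real.sqrt (gd (rf α)) := by
        gcongr
    _ = _ := by ring

end Vale.Agent.P160
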