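import Vale.Agent.P160.KDefs

open Finset Filter
open scoped RealInnerProductSpace

namespace Vale.Agent.P160

open Vale.Agent.RM

variable {E : Type} [NormedAddCommGroup E] [InnerProductSpace ℝ E] [FiniteDimensional ℝ E]

omit [FiniteDimensional ℝ E] in
theorem KCnt1_lc_succ {k : ℕ} (v : Fin (k + 1) → E) (n : Fin (k + 1) → ℤ) :
    lc v n = lc (Fin.init v) (Fin.init n) + (n (Fin.last k) : ℝ) • v (Fin.last k) := by
  unfold lc
  rw [Fin.sum_univ_castSucc]
  rfl

omit [FiniteDimensional ℝ E] in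
theorem KCnt1_lc_mem {k : ℕ} (v : Fin k → E) (n : Fin k → ℤ) :
    lc v n ∈ Submodule.span ℝ (Set.range v) :=
  Submodule.sum_mem _ fun i _ => Submodule.smul_mem _ _ (Submodule.subset_span ⟨i, rfl⟩)

theorem KCnt1_gd_succ {k : ℕ} (v : Fin (k + 1) → E) :
    gd v = gd (Fin.init v) *
      ‖(Submodule.span ℝ (Set.range (Fin.init v)))ᗮ.starProjection (v (Fin.last k))‖ ^ 2 := by
  have h := gd_append (Fin.init v) ![v (Fin.last k)]
  rw [Fin.append_right_eq_snoc] at h
  simp only [Matrix.cons_val_zero, Fin.snoc_init_self] at h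
  rw [h]
  congr 1
  have e : (fun j : Fin 1 =>
      (Submodule.span ℝ (Set.range (Fin.init v)))ᗮ.orthogonalProjectionOnto (![v (Fin.last k)] j))
      = ![(Submodule.span ℝ (Set.range (Fin.init v)))ᗮ.orthogonalProjectionOnto
        (v (Fin.last k))] := by
    funext j
    fin_cases j
    rfl
  rw [e, gd_one]
  rfl

theorem KCnt1_pyth (U : Submodule ℝ E) {x : E} (hx : x ∈ U) (y : E) :
    ‖x + y‖ ^ 2 = ‖x + U.starProjection y‖ ^ 2 + ‖Uᗮ.starProjection y‖ ^ 2 := by
  have h := Submodule.starProjection_add_starProjection_orthogonal (K := U) y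
  have h1 : x + y = (x + U.starProjection y) + Uᗮ.starProjection y := by rw [add_assoc, h]
  have h2 : ⟪x + U.starProjection y, Uᗮ.starProjection y⟫ = 0 :=
    Submodule.inner_right_of_mem_orthogonal (U.add_mem hx (U.starProjection_apply_mem y))
      (Uᗮ.starProjection_apply_mem y)
  rw [h1, pow_two, pow_two, pow_two]
  exact norm_add_sq_eq_norm_sq_add_norm_sq_real h2

theorem KCnt1_geo {q : ℝ} (h0 : 0 ≤ q) (h1 : q < 1) (G : Finset ℤ) (f : ℤ → ℕ)
    (hf : Set.InjOn f G) : ∑ t ∈ G, q ^ f t ≤ (1 - q)⁻¹ := by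
  rw [← Finset.sum_image (f := fun n => q ^ n) hf, ← tsum_geometric_of_lt_one h0 h1]
  exact (summable_geometric_of_lt_one h0 h1).sum_le_tsum _ fun _ _ => pow_nonneg h0 _

/-- One dimensional Gaussian sum. Use `exp (-x^2) ≤ exp (1/4) * exp (-|x|)`, split the integers
`t` according to the sign of `t β + a`, and sum two geometric series of ratio `exp (-β/s)`:
each is at most `1/(1 - exp(-β/s)) ≤ 1 + s/β ≤ 2 s/β`; `2 * 2 * exp (1/4) ≤ 6`. -/
theorem gs_one {β s : ℝ} (hβ : 0 < β) (hs : β ≤ s) (a : ℝ) (F : Finset ℤ) :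
    ∑ t ∈ F, Real.exp (-((t : ℝ) * β + a) ^ 2 / s ^ 2) ≤ 6 * s / β := by
  have hs0 : 0 < s := hβ.trans_le hs
  set x := β / s with hx
  have hx0 : 0 < x := div_pos hβ hs0
  have hx1 : x ≤ 1 := (div_le_one hs0).2 hs
  set q := Real.exp (-x) with hq
  have hq0 : 0 ≤ q := (Real.exp_pos _).le
  have hq1 : q < 1 := Real.exp_lt_one_iff.2 (by linarith)
  have hq2 : (1 - q)⁻¹ ≤ 2 / x := by
    have h1 : q * (x + 1) ≤ 1 := by
      have := Real.add_one_le_exp x
      calc q * (x + 1) ≤ q * Real.exp x := by gcongr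
        _ = 1 := by rw [hq, ← Real.exp_add]; simp
    rw [inv_eq_one_div, div_le_div_iff₀ (by linarith) hx0]
    nlinarith
  have he : Real.exp (1 / 4) ≤ 3 / 2 := by
    have h1 := Real.add_one_le_exp (-(1 / 4 : ℝ))
    have h2 : Real.exp (-(1 / 4 : ℝ)) * Real.exp (1 / 4) = 1 := by rw [← Real.exp_add]; simp
    nlinarith [Real.exp_pos (1 / 4 : ℝ)]
  have key : ∀ (y : ℝ) (n : ℕ), n * β ≤ |y| → Real.exp (-y ^ 2 / s ^ 2) ≤ 3 / 2 * q ^ n := by
    intro y n hn
    have h1 : (n : ℝ) * x ≤ |y| / s := by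
      rw [hx, ← mul_div_assoc]; gcongr
    have h2 : -y ^ 2 / s ^ 2 = -(|y| / s) ^ 2 := by rw [div_pow, sq_abs]; ring
    calc Real.exp (-y ^ 2 / s ^ 2) ≤ Real.exp (1 / 4 + n * (-x)) := by
          apply Real.exp_le_exp.2
          rw [h2]; nlinarith [sq_nonneg (|y| / s - 1 / 2)]
      _ = Real.exp (1 / 4) * q ^ n := by rw [Real.exp_add, Real.exp_nat_mul]
      _ ≤ 3 / 2 * q ^ n := by gcongr
  set t₀ : ℤ := ⌈-a / β⌉ with ht₀
  have h₁ : -a ≤ t₀ * β := by
    have := Int.le_ceil (-a / β)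
    rwa [div_le_iff₀ hβ] at this
  have h₂ : ((t₀ : ℝ) - 1) * β ≤ -a := by
    have := Int.ceil_lt_add_one (-a / β)
    rw [← le_div_iff₀ hβ]; linarith
  rw [← Finset.sum_filter_add_sum_filter_not F (fun t => t₀ ≤ t)]
  have A : ∑ t ∈ F.filter (fun t => t₀ ≤ t), Real.exp (-((t : ℝ) * β + a) ^ 2 / s ^ 2) ≤
      3 / 2 * (2 / x) := by
    calc _ ≤ ∑ t ∈ F.filter (fun t => t₀ ≤ t), 3 / 2 * q ^ (t - t₀).toNat := by
          refine Finset.sum_le_sum fun t ht => key _ _ ?_
          have h := (Finset.mem_filter.1 ht).2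
          have e : (((t - t₀).toNat : ℕ) : ℝ) = (t : ℝ) - t₀ := by
            have : (((t - t₀).toNat : ℕ) : ℤ) = t - t₀ := Int.toNat_of_nonneg (by omega)
            exact_mod_cast this
          rw [e]
          exact le_trans (by linarith) (le_abs_self _)
      _ ≤ 3 / 2 * (2 / x) := by
          rw [← Finset.mul_sum]
          gcongr
          refine (KCnt1_geo hq0 hq1 _ _ fun t ht t' ht' h => ?_).trans hq2
          have := (Finset.mem_filter.1 ht).2
          have := (Finset.mem_filter.1 ht').2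
          omega
  have B : ∑ t ∈ F.filter (fun t => ¬ t₀ ≤ t), Real.exp (-((t : ℝ) * β + a) ^ 2 / s ^ 2) ≤
      3 / 2 * (2 / x) := by
    calc _ ≤ ∑ t ∈ F.filter (fun t => ¬ t₀ ≤ t), 3 / 2 * q ^ (t₀ - 1 - t).toNat := by
          refine Finset.sum_le_sum fun t ht => key _ _ ?_
          have h := (Finset.mem_filter.1 ht).2
          have e : (((t₀ - 1 - t).toNat : ℕ) : ℝ) = (t₀ : ℝ) - 1 - t := by
            have : (((t₀ - 1 - t).toNat : ℕ) : ℤ) = t₀ - 1 - t := Int.toNat_of_nonneg (by omega)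
            exact_mod_cast this
          rw [e]
          exact le_trans (by linarith) (neg_le_abs _)
      _ ≤ 3 / 2 * (2 / x) := by
          rw [← Finset.mul_sum]
          gcongr
          refine (KCnt1_geo hq0 hq1 _ _ fun t ht t' ht' h => ?_).trans hq2
          have := (Finset.mem_filter.1 ht).2
          have := (Finset.mem_filter.1 ht').2
          omega
  have e : 6 * s / β = 3 / 2 * (2 / x) + 3 / 2 * (2 / x) := by
    rw [hx]; field_simp; ring
  rw [e]
  exact add_le_add A B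

/-- Gaussian sum over a shifted lattice spanned by short vectors. Induction on `k`
(for all `c`, `F`): write `v = Fin.append v' ![w]` (or `Fin.snoc`), `U = span v'`, `β` the norm of the
projection of `w` on `Uᗮ`, `gd v = gd v' * β^2` (`gd_append`, `gd_one`). For `n = snoc n' t`,
Pythagoras gives `‖lc v n + c‖^2 = ‖lc v' n' + (t w + c)_U‖^2 + ‖(t w + c)_{U^⊥}‖^2` and the last
term is at least `(t β + a)^2` with `a = ⟪c, w_⊥⟫/β`. Sum first over `n'` in each fibre of `t`. -/
theorem gsu {k : ℕ} (v : Fin k → E) (hv : LinearIndependent ℝ v) {s : ℝ} (hs : 0 < s)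
    (hvs : ∀ i, ‖v i‖ ≤ s) (c : E) (F : Finset (Fin k → ℤ)) :
    ∑ n ∈ F, Real.exp (-‖lc v n + c‖ ^ 2 / s ^ 2) ≤ (6 * s) ^ k / Real.sqrt (gd v) := by
  induction k generalizing c with
  | zero =>
    rw [gd_zero]
    simp only [pow_zero, Real.sqrt_one, div_one]
    calc _ ≤ ∑ _n ∈ F, (1 : ℝ) := Finset.sum_le_sum fun n _ =>
          Real.exp_le_one_iff.2 (div_nonpos_of_nonpos_of_nonneg (by simp) (by positivity))
      _ ≤ 1 := by
          simp only [sum_const, nsmul_eq_mul, mul_one]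
          exact_mod_cast Finset.card_le_one_iff_subsingleton.2 fun a _ b _ => Subsingleton.elim a b
  | succ k ih =>
    set U := Submodule.span ℝ (Set.range (Fin.init v)) with hU
    set w := v (Fin.last k) with hw
    set p := Uᗮ.starProjection w with hp
    have hv' : LinearIndependent ℝ (Fin.init v) := hv.comp _ (Fin.castSucc_injective k)
    have hg : gd v = gd (Fin.init v) * ‖p‖ ^ 2 := KCnt1_gd_succ v
    have hg0 : 0 < gd v := (gd_pos_iff v).2 hv
    have hg1 : 0 < gd (Fin.init v) := (gd_pos_iff _).2 hv'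
    have hβ : 0 < ‖p‖ := by
      rcases (norm_nonneg p).eq_or_lt with h | h
      · rw [hg, ← h] at hg0; simp at hg0
      · exact h
    have hβs : ‖p‖ ≤ s := (Uᗮ.norm_starProjection_apply_le w).trans (hvs _)
    set a := ⟪Uᗮ.starProjection c, p⟫ / ‖p‖ with ha
    have key : ∀ t : ℤ, ((t : ℝ) * ‖p‖ + a) ^ 2 ≤ ‖Uᗮ.starProjection ((t : ℝ) • w + c)‖ ^ 2 := by
      intro t
      rw [map_add, map_smul, ← hp]
      have h1 := abs_real_inner_le_norm ((t : ℝ) • p + Uᗮ.starProjection c) p
      have h2 : ⟪(t : ℝ) • p + Uᗮ.starProjection c, p⟫ = (t * ‖p‖ + a) * ‖p‖ := by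
        rw [inner_add_left, real_inner_smul_left, real_inner_self_eq_norm_sq, ha]
        field_simp
      rw [h2, abs_mul, abs_of_pos hβ] at h1
      exact sq_le_sq' (by linarith [neg_abs_le ((t : ℝ) * ‖p‖ + a), le_of_mul_le_mul_right h1 hβ])
        ((le_abs_self _).trans (le_of_mul_le_mul_right h1 hβ))
    rw [← Finset.sum_fiberwise_of_maps_to (g := fun n => n (Fin.last k))
      (t := F.image fun n => n (Fin.last k)) fun n hn => Finset.mem_image_of_mem _ hn]
    calc _ ≤ ∑ t ∈ (F.image (fun n => n (Fin.last k)) : Finset ℤ),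
          Real.exp (-((t : ℝ) * ‖p‖ + a) ^ 2 / s ^ 2) *
            ((6 * s) ^ k / Real.sqrt (gd (Fin.init v))) := by
          refine Finset.sum_le_sum fun t _ => ?_
          have hinj : Set.InjOn (fun n : Fin (k + 1) → ℤ => Fin.init n)
              (F.filter fun n => n (Fin.last k) = t) := by
            intro n hn n' hn' h
            have h1 := (Finset.mem_filter.1 hn).2
            have h2 := (Finset.mem_filter.1 hn').2
            rw [← Fin.snoc_init_self n, ← Fin.snoc_init_self n']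
            simp only at h
            rw [h, h1, h2]
          refine le_trans ?_ (mul_le_mul_of_nonneg_left (ih (Fin.init v) hv' (fun i => hvs _)
            (U.starProjection ((t : ℝ) • w + c))
            ((F.filter fun n => n (Fin.last k) = t).image fun n => Fin.init n))
            (Real.exp_pos _).le)
          rw [Finset.sum_image hinj, Finset.mul_sum]
          refine Finset.sum_le_sum fun n hn => ?_
          have h1 := (Finset.mem_filter.1 hn).2
          rw [← Real.exp_add, ← add_div]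
          apply Real.exp_le_exp.2
          apply div_le_div_of_nonneg_right _ (by positivity)
          rw [KCnt1_lc_succ, h1, add_assoc, KCnt1_pyth U (KCnt1_lc_mem _ _)]
          linarith [key t]
      _ ≤ 6 * s / ‖p‖ * ((6 * s) ^ k / Real.sqrt (gd (Fin.init v))) := by
          rw [← Finset.sum_mul]
          exact mul_le_mul_of_nonneg_right (gs_one hβ hβs a _) (by positivity)
      _ = (6 * s) ^ (k + 1) / Real.sqrt (gd v) := by
          rw [hg, Real.sqrt_mul hg1.le, Real.sqrt_sq hβ.le]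
          field_simp
          ring

theorem gsu_card {k : ℕ} (v : Fin k → E) (hv : LinearIndependent ℝ v) {s : ℝ} (hs : 0 < s)
    (hvs : ∀ i, ‖v i‖ ≤ s) (c : E) (F : Finset (Fin k → ℤ)) {R : ℝ}
    (hF : ∀ n ∈ F, ‖lc v n + c‖ ^ 2 ≤ R) :
    (F.card : ℝ) ≤ Real.exp (R / s ^ 2) * ((6 * s) ^ k / Real.sqrt (gd v)) := by
  refine le_trans ?_ (mul_le_mul_of_nonneg_left (gsu v hv hs hvs c F) (Real.exp_pos _).le)
  rw [Finset.mul_sum, Finset.card_eq_sum_ones, Nat.cast_sum]
  refine Finset.sum_le_sum fun n hn => ?_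
  rw [← Real.exp_add, ← add_div, Nat.cast_one]
  exact Real.one_le_exp (div_nonneg (by linarith [hF n hn]) (by positivity))

/-- Integer points in a Euclidean ball (product of `gs_one` with `β = 1`,
`Finset.prod_univ_sum` over the coordinate projections of `F`). -/
theorem card_int_ball {ι : Type} [Fintype ι] [DecidableEq ι] {s : ℝ} (hs : 1 ≤ s) (c : ι → ℝ)
    (F : Finset (ι → ℤ)) {R : ℝ} (hF : ∀ n ∈ F, ∑ i, ((n i : ℝ) - c i) ^ 2 ≤ R) :
    (F.card : ℝ) ≤ Real.exp (R / s ^ 2) * (6 * s) ^ Fintype.card ι := by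
  have hs0 : 0 < s := by linarith
  have h1 : ∑ n ∈ F, Real.exp (-(∑ i, ((n i : ℝ) - c i) ^ 2) / s ^ 2) ≤
      (6 * s) ^ Fintype.card ι := by
    calc _ = ∑ n ∈ F, ∏ i, Real.exp (-((n i : ℝ) * 1 + -c i) ^ 2 / s ^ 2) := by
          refine Finset.sum_congr rfl fun n _ => ?_
          rw [← Real.exp_sum, ← Finset.sum_div, Finset.sum_neg_distrib]
          simp only [mul_one, sub_eq_add_neg]
      _ ≤ ∑ n ∈ Fintype.piFinset (fun i => (F.image fun n => n i : Finset ℤ)),
            ∏ i, Real.exp (-((n i : ℝ) * 1 + -c i) ^ 2 / s ^ 2) := by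
          refine Finset.sum_le_sum_of_subset_of_nonneg (fun n hn => ?_) fun _ _ _ => by positivity
          exact Fintype.mem_piFinset.2 fun i => Finset.mem_image_of_mem _ hn
      _ = ∏ i, ∑ t ∈ (F.image (fun n => n i) : Finset ℤ),
            Real.exp (-((t : ℝ) * 1 + -c i) ^ 2 / s ^ 2) :=
          (Finset.prod_univ_sum (fun i => F.image fun n => n i)
            fun i (t : ℤ) => Real.exp (-((t : ℝ) * 1 + -c i) ^ 2 / s ^ 2)).symm
      _ ≤ ∏ _i : ι, (6 * s) := by
          refine Finset.prod_le_prod (fun _ _ => by positivity) fun i _ => ?_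
          simpa using gs_one one_pos hs (-c i) (F.image fun n => n i)
      _ = _ := by simp
  refine le_trans ?_ (mul_le_mul_of_nonneg_left h1 (Real.exp_pos _).le)
  rw [Finset.mul_sum, Finset.card_eq_sum_ones, Nat.cast_sum]
  refine Finset.sum_le_sum fun n hn => ?_
  rw [← Real.exp_add, ← add_div, Nat.cast_one]
  exact Real.one_le_exp (div_nonneg (by linarith [hF n hn]) (by positivity))

/-- `card_int_ball` with `s = R/√m`, `6 e ≤ 17`. -/
theorem np_le {m : ℕ} (hm : 1 ≤ m) (U : Submodule ℝ (Eu m)) {R : ℝ} (hR : Real.sqrt m ≤ R) :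
    np U R ≤ (17 * R / Real.sqrt m) ^ m := by
  have hm0 : (0 : ℝ) < m := by exact_mod_cast hm
  have hsq : 0 < Real.sqrt m := Real.sqrt_pos.2 hm0
  have hs : 1 ≤ R / Real.sqrt m := (one_le_div hsq).2 hR
  have hR0 : 0 < R := hsq.trans_le hR
  have h := card_int_ball hs (fun _ : Fin m => 0) (ipts U R) (R := R ^ 2) fun n hn => by
    have h1 := (mem_ipts.1 hn).1
    have h2 := norm_rv_sq n
    simp only [sub_zero]
    rw [← h2]
    gcongr
  have e : R ^ 2 / (R / Real.sqrt m) ^ 2 = m * 1 := by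
    rw [div_pow, Real.sq_sqrt hm0.le]; field_simp
  rw [e, Real.exp_nat_mul, Fintype.card_fin, ← mul_pow] at h
  refine h.trans (pow_le_pow_left₀ (by positivity) ?_ _)
  have := Real.exp_one_lt_d9
  rw [mul_div_assoc]
  nlinarith

end Vale.Agent.P160
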