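import Vale.Agent.P160.KDefs

open Finset Filter
open scoped RealInnerProductSpace

namespace Vale.Agent.P160

open Vale.Agent.RM

theorem KConc_cnt {α β : Type} [Fintype α] (f g : α → β) (T : Finset β) (hT : ∀ a, f a ∈ T) :
    (cnt fun p : α × α => f p.1 = g p.2) =
      ∑ x ∈ T, (cnt fun a => f a = x) * cnt fun a => g a = x := by
  classical
  simp only [cnt_eq]
  rw [card_eq_sum_card_fiberwise (f := fun p : α × α => f p.1) (t := T) fun p _ => hT p.1]
  refine sum_congr rfl fun x _ => ?_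
  rw [← card_product]
  congr 1
  ext p
  simp only [mem_filter, mem_univ, true_and, mem_product]
  constructor
  · rintro ⟨h1, h2⟩
    exact ⟨h2, h1 ▸ h2⟩
  · rintro ⟨h1, h2⟩
    exact ⟨h1.trans h2.symm, h1⟩

theorem KConc_am {α β : Type} [Fintype α] (f g : α → β) :
    2 * (cnt fun p : α × α => f p.1 = g p.2) ≤
      (cnt fun p : α × α => f p.1 = f p.2) + cnt fun p : α × α => g p.1 = g p.2 := by
  classical
  have hf : ∀ a, f a ∈ univ.image f ∪ univ.image g := fun a =>
    mem_union_left _ (mem_image_of_mem _ (mem_univ a))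
  have hg : ∀ a, g a ∈ univ.image f ∪ univ.image g := fun a =>
    mem_union_right _ (mem_image_of_mem _ (mem_univ a))
  rw [KConc_cnt f g _ hf, KConc_cnt f f _ hf, KConc_cnt g g _ hg, mul_sum, ← sum_add_distrib]
  refine sum_le_sum fun x _ => ?_
  have := two_mul_le_add_sq (cnt fun a => f a = x) (cnt fun a => g a = x)
  rwa [pow_two, pow_two, mul_assoc] at this

theorem KConc_equiv {α β : Type} [Fintype α] [Fintype β] (σ : α ≃ β) {p : α → Prop} {q : β → Prop}
    (h : ∀ a, p a ↔ q (σ a)) : cnt p = cnt q := by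
  classical
  rw [cnt_eq, cnt_eq]
  refine card_equiv σ fun a => ?_
  simp only [mem_filter, mem_univ, true_and, h]

theorem KConc_fst {α : Type} [Fintype α] (p : α → Prop) :
    (cnt fun x : α × α => p x.1) = cnt p * Fintype.card α := by
  classical
  rw [cnt_eq, cnt_eq, ← card_univ, ← card_product]
  congr 1
  ext x
  simp

/-- The sums over `I`. -/
def KConc_S {m k : ℕ} (I : Finset (Fin m)) (z : Fin k → Fin m → ℤ) (b : Fin m → Bool) :
    Fin k → ℤ := fun i => ∑ t ∈ I, bz (b t) * z i t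

theorem KConc_hv {m k : ℕ} (I : Finset (Fin m)) (z : Fin k → Fin m → ℤ) (b b' : Fin m → Bool) :
    (∀ i, hv I b b' ⬝ᵥ z i = 0) ↔ KConc_S I z b = KConc_S I z b' := by
  rw [funext_iff]
  refine forall_congr' fun i => ?_
  rw [← sub_eq_zero (a := KConc_S I z b i)]
  have : hv I b b' ⬝ᵥ z i = KConc_S I z b i - KConc_S I z b' i := by
    simp only [dotProduct, hv, KConc_S, ite_mul, zero_mul, sum_ite_mem, univ_inter, sub_mul,
      sum_sub_distrib]
  rw [this]

/-- Exchange of the coordinates outside `I`. -/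
def KConc_sw {m : ℕ} (I : Finset (Fin m)) :
    (Fin m → Bool) × (Fin m → Bool) ≃ (Fin m → Bool) × (Fin m → Bool) :=
  Function.Involutive.toPerm (fun p => (I.piecewise p.1 p.2, I.piecewise p.2 p.1)) fun p => by
    ext t <;> by_cases h : t ∈ I <;> simp [h]

/-- Concentration from two collision probabilities. Let `f s a` be the probability that the sum over `I s` of the
vectors `bz (b t) • z · t` equals `a`; `coll (I s) z = ∑ a, (f s a)^2`. The bits on `I₁` and `I₂` are independent
(use the bijection `(b, b') ↦ (I₁.piecewise b b', I₁.piecewise b' b)` of pairs), so the left side is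
`∑ a₁, f 1 a₁ * f 2 (a - a₁)`; Cauchy-Schwarz. -/
theorem conc_le {m k : ℕ} {I₁ I₂ : Finset (Fin m)} (hI : Disjoint I₁ I₂) (z : Fin k → Fin m → ℤ)
    {ρ : ℝ} (h₁ : coll I₁ z ≤ ρ) (h₂ : coll I₂ z ≤ ρ) (a : Fin k → ℤ) :
    pr (fun b : Fin m → Bool => ∀ i, ∑ t ∈ I₁ ∪ I₂, bz (b t) * z i t = a i) ≤ ρ := by
  have hN : (0 : ℝ) < Fintype.card (Fin m → Bool) := by exact_mod_cast Fintype.card_pos
  have e1 : ∀ I, coll I z = (cnt fun p : (Fin m → Bool) × (Fin m → Bool) =>
      KConc_S I z p.1 = KConc_S I z p.2 : ℕ) /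
        ((Fintype.card (Fin m → Bool) : ℝ) * Fintype.card (Fin m → Bool)) := fun I => by
    unfold coll pr
    simp only [KConc_hv]
    rw [Fintype.card_prod, Nat.cast_mul]
  rw [e1, div_le_iff₀ (by positivity)] at h₁ h₂
  have h3 := KConc_am (KConc_S I₁ z) (fun b => a - KConc_S I₂ z b)
  simp only [sub_right_inj] at h3
  have h4 : (cnt fun p : (Fin m → Bool) × (Fin m → Bool) =>
      KConc_S I₁ z p.1 = a - KConc_S I₂ z p.2) =
      (cnt fun b : Fin m → Bool => ∀ i, ∑ t ∈ I₁ ∪ I₂, bz (b t) * z i t = a i) *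
        Fintype.card (Fin m → Bool) := by
    rw [← KConc_fst]
    refine KConc_equiv (KConc_sw I₁) fun p => ?_
    rw [funext_iff]
    refine forall_congr' fun i => ?_
    rw [sum_union hI, Pi.sub_apply, eq_sub_iff_add_eq]
    have e2 : ∑ t ∈ I₁, bz ((KConc_sw I₁ p).1 t) * z i t = KConc_S I₁ z p.1 i :=
      sum_congr rfl fun t ht => by
        rw [show (KConc_sw I₁ p).1 t = p.1 t from piecewise_eq_of_mem _ _ _ ht]
    have e3 : ∑ t ∈ I₂, bz ((KConc_sw I₁ p).1 t) * z i t = KConc_S I₂ z p.2 i :=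
      sum_congr rfl fun t ht => by
        rw [show (KConc_sw I₁ p).1 t = p.2 t from
          piecewise_eq_of_notMem _ _ _ (disjoint_right.1 hI ht)]
    rw [e2, e3]
  rw [h4] at h3
  have h5 := (Nat.cast_le (α := ℝ)).2 h3
  push_cast at h5
  unfold pr
  rw [div_le_iff₀ hN]
  refine le_of_mul_le_mul_right ?_ hN
  linarith

end Vale.Agent.P160
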