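import Vale.Agent.P160.Defs

/-! P160, block K: definitions. -/

open Finset Filter
open scoped RealInnerProductSpace

namespace Vale.Agent.P160

open Vale.Agent.RM

/-- Integer combination of a real family. -/
def lc {E : Type} [AddCommGroup E] [Module ℝ E] {k : ℕ} (v : Fin k → E) (n : Fin k → ℤ) : E :=
  ∑ i, (n i : ℝ) • v i

/-- A family of integer vectors as a family of points of Euclidean space. -/
def rf {m k : ℕ} (x : Fin k → Fin m → ℤ) : Fin k → Eu m := fun i => rv (x i)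

/-- Real linear independence of an integer family. -/
def Ind {m k : ℕ} (x : Fin k → Fin m → ℤ) : Prop := LinearIndependent ℝ (rf x)

/-- Real span of an integer family. -/
def sp {m k : ℕ} (x : Fin k → Fin m → ℤ) : Submodule ℝ (Eu m) :=
  Submodule.span ℝ (Set.range (rf x))

/-- Integer span of an integer family. -/
def zsp {m k : ℕ} (x : Fin k → Fin m → ℤ) : Submodule ℤ (Fin m → ℤ) :=
  Submodule.span ℤ (Set.range x)

/-- A subspace spanned by its integer points. -/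
def IsRat {m : ℕ} (U : Submodule ℝ (Eu m)) : Prop :=
  U ≤ Submodule.span ℝ (rv '' {z : Fin m → ℤ | rv z ∈ U})

/-- A linear map which does not decrease norms. -/
def Expd {m : ℕ} {E : Type} [NormedAddCommGroup E] [InnerProductSpace ℝ E]
    (φ : Eu m →ₗ[ℝ] E) : Prop := ∀ x, ‖x‖ ≤ ‖φ x‖

/-- Integer points of the cube `[-t, t]^m`. -/
noncomputable def box (m t : ℕ) : Finset (Fin m → ℤ) := Fintype.piFinset fun _ => Finset.Icc (-(t : ℤ)) t

open Classical in
/-- Integer points of `U` of norm at most `R`. -/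
noncomputable def ipts {m : ℕ} (U : Submodule ℝ (Eu m)) (R : ℝ) : Finset (Fin m → ℤ) :=
  (box m ⌈R⌉₊).filter fun z => ‖rv z‖ ≤ R ∧ rv z ∈ U

/-- Number of integer points of `U` of norm at most `R`. -/
noncomputable def np {m : ℕ} (U : Submodule ℝ (Eu m)) (R : ℝ) : ℝ := (ipts U R).card

/-- The span of the integer points of `U` of norm at most `R`. -/
noncomputable def shortSp {m : ℕ} (U : Submodule ℝ (Eu m)) (R : ℝ) : Submodule ℝ (Eu m) :=
  Submodule.span ℝ (rv '' (ipts U R : Set (Fin m → ℤ)))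

/-- The real linear map of an integer matrix. -/
noncomputable def lin {m : ℕ} (C : Matrix (Fin m) (Fin m) ℤ) : Eu m →ₗ[ℝ] Eu m :=
  Matrix.toEuclideanLin (C.map fun a : ℤ => (a : ℝ))

/-- The lattice spanned by the columns. -/
def colL {m : ℕ} (C : Matrix (Fin m) (Fin m) ℤ) : AddSubgroup (Fin m → ℤ) :=
  (Matrix.mulVecLin C).toAddMonoidHom.range

/-- Product Bernoulli weight. -/
def pbw {J : ℕ} (p : Fin J → ℝ) (ξ : Fin J → Bool) : ℝ := ∏ i, if ξ i then p i else 1 - p i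

/-- Difference of two bit vectors, restricted to `I`. -/
def hv {m : ℕ} (I : Finset (Fin m)) (b b' : Fin m → Bool) : Fin m → ℤ :=
  fun l => if l ∈ I then bz (b l) - bz (b' l) else 0

/-- Collision probability of the tuple `z` on the coordinates `I`. -/
noncomputable def coll {m k : ℕ} (I : Finset (Fin m)) (z : Fin k → Fin m → ℤ) : ℝ :=
  pr fun bb : (Fin m → Bool) × (Fin m → Bool) => ∀ i, hv I bb.1 bb.2 ⬝ᵥ z i = 0

/-- Many integer points at all scales. -/
def Dense {m : ℕ} (U : Submodule ℝ (Eu m)) (a B : ℝ) : Prop :=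
  ∀ u : ℝ, 1 ≤ u → u ^ a ≤ B * np U (4 * Real.sqrt m * u)

open Classical in
/-- Resampling of the entries `(l, i)`, `i ∈ I`. -/
noncomputable def rowUpd {m : ℕ} (l : Fin m) (I : Finset (Fin m)) (ω : Om m)
    (b : Fin m → Bool) : Om m :=
  fun e => if h : ∃ i ∈ I, e = s(l, i) then b h.choose else ω e

open Classical in
/-- Tuples of integer points of the ball, mapped into `M`, with small collision probabilities. -/
noncomputable def goodT {m : ℕ} (U : Submodule ℝ (Eu m)) (R : ℝ) (k : ℕ)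
    (I₁ I₂ : Finset (Fin m)) (ρ : ℝ) : Finset (Fin k → Fin m → ℤ) :=
  (Fintype.piFinset fun _ => ipts U R).filter fun z => coll I₁ z ≤ ρ ∧ coll I₂ z ≤ ρ

theorem rowUpd_mem {m : ℕ} {l : Fin m} {I : Finset (Fin m)} (ω : Om m) (b : Fin m → Bool)
    {i : Fin m} (hi : i ∈ I) : rowUpd l I ω b s(l, i) = b i := by
  have h : ∃ j ∈ I, s(l, i) = s(l, j) := ⟨i, hi, rfl⟩
  unfold rowUpd
  rw [dif_pos h]
  have := h.choose_spec.2
  rw [Sym2.congr_right] at this
  rw [← this]

theorem rowUpd_not {m : ℕ} {l : Fin m} {I : Finset (Fin m)} (ω : Om m) (b : Fin m → Bool)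
    {e : Sym2 (Fin m)} (he : ∀ i ∈ I, e ≠ s(l, i)) : rowUpd l I ω b e = ω e := by
  unfold rowUpd
  rw [dif_neg]
  rintro ⟨i, hi, h⟩
  exact he i hi h

theorem mem_box {m t : ℕ} {z : Fin m → ℤ} : z ∈ box m t ↔ ∀ i, |z i| ≤ t := by
  simp [box, abs_le]

theorem abs_le_norm_rv {m : ℕ} (z : Fin m → ℤ) (i : Fin m) : |(z i : ℝ)| ≤ ‖rv z‖ := by
  simpa using PiLp.norm_apply_le (rv z) i

theorem mem_ipts {m : ℕ} {U : Submodule ℝ (Eu m)} {R : ℝ} {z : Fin m → ℤ} :
    z ∈ ipts U R ↔ ‖rv z‖ ≤ R ∧ rv z ∈ U := by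
  classical
  unfold ipts
  simp only [mem_filter, mem_box]
  refine ⟨fun h => h.2, fun h => ⟨fun i => ?_, h⟩⟩
  have h1 := (abs_le_norm_rv z i).trans (h.1.trans (Nat.le_ceil R))
  exact_mod_cast h1

theorem ipts_mono {m : ℕ} {U V : Submodule ℝ (Eu m)} {R S : ℝ} (h : U ≤ V) (hR : R ≤ S) :
    ipts U R ⊆ ipts V S := fun _ hz =>
  mem_ipts.2 ⟨(mem_ipts.1 hz).1.trans hR, h (mem_ipts.1 hz).2⟩

theorem np_mono {m : ℕ} {U V : Submodule ℝ (Eu m)} {R S : ℝ} (h : U ≤ V) (hR : R ≤ S) :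
    np U R ≤ np V S := by
  unfold np; exact_mod_cast card_le_card (ipts_mono h hR)

theorem one_le_np {m : ℕ} (U : Submodule ℝ (Eu m)) {R : ℝ} (hR : 0 ≤ R) : 1 ≤ np U R := by
  unfold np
  have : (0 : Fin m → ℤ) ∈ ipts U R := mem_ipts.2 ⟨by simpa [rv_zero] using hR, by simp [rv_zero]⟩
  exact_mod_cast card_pos.2 ⟨_, this⟩

theorem shortSp_le {m : ℕ} (U : Submodule ℝ (Eu m)) (R : ℝ) : shortSp U R ≤ U := by
  refine Submodule.span_le.2 ?_
  rintro _ ⟨z, hz, rfl⟩
  exact (mem_ipts.1 hz).2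

theorem ipts_shortSp {m : ℕ} (U : Submodule ℝ (Eu m)) (R : ℝ) :
    ipts (shortSp U R) R = ipts U R := by
  refine Subset.antisymm (ipts_mono (shortSp_le U R) le_rfl) fun z hz => ?_
  exact mem_ipts.2 ⟨(mem_ipts.1 hz).1, Submodule.subset_span ⟨z, hz, rfl⟩⟩

theorem shortSp_shortSp {m : ℕ} (U : Submodule ℝ (Eu m)) (R : ℝ) :
    shortSp (shortSp U R) R = shortSp U R := by
  conv_lhs => rw [shortSp, ipts_shortSp]
  rfl

theorem lin_apply {m : ℕ} (C : Matrix (Fin m) (Fin m) ℤ) (x : Eu m) (i : Fin m) :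
    lin C x i = ∑ j, (C i j : ℝ) * x j := by
  simp [lin, Matrix.toLpLin_apply, Matrix.mulVec, dotProduct]

theorem lin_rv {m : ℕ} (C : Matrix (Fin m) (Fin m) ℤ) (z : Fin m → ℤ) :
    lin C (rv z) = rv (C.mulVec z) := by
  ext i
  simp [lin_apply, Matrix.mulVec, dotProduct]

theorem mem_colL {m : ℕ} {C : Matrix (Fin m) (Fin m) ℤ} {x : Fin m → ℤ} :
    x ∈ colL C ↔ ∃ z, C.mulVec z = x := Iff.rfl

theorem rv_lc {m k : ℕ} (x : Fin k → Fin m → ℤ) (n : Fin k → ℤ) :
    rv (∑ i, n i • x i) = lc (rf x) n := by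
  rw [rv_sum]
  exact Finset.sum_congr rfl fun i _ => rv_smul _ _

theorem Ind.finrank_sp {m k : ℕ} {x : Fin k → Fin m → ℤ} (h : Ind x) :
    Module.finrank ℝ (sp x) = k := by
  have := finrank_span_eq_card (show LinearIndependent ℝ (rf x) from h)
  rw [Fintype.card_fin] at this
  exact this

theorem Ind.le {m k : ℕ} {x : Fin k → Fin m → ℤ} (h : Ind x) : k ≤ m := by
  have h1 := Submodule.finrank_le (sp x)
  rw [h.finrank_sp] at h1
  simpa using h1

end Vale.Agent.P160
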