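import Vale.Agent.P160.KDefs

open Finset Filter
open scoped RealInnerProductSpace

namespace Vale.Agent.P160

open Vale.Agent.RM

theorem KExp_pr_equiv {α β : Type} [Fintype α] [Fintype β] (e : α ≃ β) (p : β → Prop) :
    pr (fun a => p (e a)) = pr p := by
  classical
  unfold pr
  rw [Fintype.card_congr e, cnt_eq, cnt_eq]
  congr 2
  exact card_bij (fun a _ => e a) (fun a ha => by simpa using ha)
    (fun a _ b _ h => e.injective h) fun b hb => ⟨e.symm b, by simpa using hb, by simp⟩

theorem KExp_cnt_prod {α β : Type} [Fintype α] [Fintype β] (q : α × β → Prop) :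
    (cnt q : ℝ) = ∑ a : α, (cnt fun b : β => q (a, b) : ℝ) := by
  classical
  rw [cnt_eq, card_filter, Fintype.sum_prod_type]
  push_cast
  refine Finset.sum_congr rfl fun a _ => ?_
  rw [cnt_eq, card_filter]
  push_cast
  rfl

theorem KExp_pr_prod {α β : Type} [Fintype α] [Fintype β] [Nonempty β] (q : α × β → Prop) :
    pr q = (∑ a : α, pr fun b : β => q (a, b)) / Fintype.card α := by
  unfold pr
  rw [KExp_cnt_prod, Fintype.card_prod, ← Finset.sum_div, div_div]
  push_cast
  rw [mul_comm]

theorem KExp_pr_ite {α : Type} [Fintype α] (p : α → Prop) [DecidablePred p] :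
    pr p = (∑ a : α, if p a then (1 : ℝ) else 0) / Fintype.card α := by
  unfold pr
  rw [cnt_eq, card_filter]
  push_cast
  rfl

theorem KExp_pr_const {β : Type} [Fintype β] [Nonempty β] (P : Prop) [Decidable P] :
    pr (fun _ : β => P) = if P then (1 : ℝ) else 0 := by
  classical
  have hc : (Fintype.card β : ℝ) ≠ 0 := by exact_mod_cast Fintype.card_ne_zero
  rw [KExp_pr_ite]
  by_cases h : P
  · simp [h, hc]
  · simp [h]

theorem KExp_pr_fst {α β : Type} [Fintype α] [Fintype β] [Nonempty β] (p : α → Prop) :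
    pr (fun x : α × β => p x.1) = pr p := by
  classical
  rw [KExp_pr_prod, KExp_pr_ite p]
  congr 1
  exact Finset.sum_congr rfl fun a _ => KExp_pr_const (p a)

/-- Resampling one row preserves the uniform law: for fixed `l`, `I` the map
`(ω, b) ↦ (rowUpd l I ω b, fun i => if i ∈ I then ω s(l, i) else b i)` is an involution of pairs. -/
theorem pr_rowUpd {m : ℕ} (l : Fin m) (I : Finset (Fin m)) (p : Om m → Prop) :
    pr p = pr fun x : Om m × (Fin m → Bool) => p (rowUpd l I x.1 x.2) := by
  classical
  let T : Om m × (Fin m → Bool) → Om m × (Fin m → Bool) := fun x =>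
    (rowUpd l I x.1 x.2, fun i => if i ∈ I then x.1 s(l, i) else x.2 i)
  have hT : Function.Involutive T := by
    rintro ⟨ω, b⟩
    refine Prod.ext ?_ ?_
    · funext e
      by_cases h : ∃ i ∈ I, e = s(l, i)
      · obtain ⟨i, hi, rfl⟩ := h
        show rowUpd l I _ _ s(l, i) = ω s(l, i)
        rw [rowUpd_mem _ _ hi]
        exact if_pos hi
      · have h' : ∀ i ∈ I, e ≠ s(l, i) := fun i hi he => h ⟨i, hi, he⟩
        show rowUpd l I (rowUpd l I ω b) _ e = ω e
        rw [rowUpd_not _ _ h', rowUpd_not _ _ h']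
    · funext i
      show (if i ∈ I then rowUpd l I ω b s(l, i) else if i ∈ I then ω s(l, i) else b i) = b i
      by_cases hi : i ∈ I
      · rw [if_pos hi, rowUpd_mem _ _ hi]
      · rw [if_neg hi, if_neg hi]
  rw [← KExp_pr_fst (β := Fin m → Bool) p,
    ← KExp_pr_equiv hT.toPerm fun x : Om m × (Fin m → Bool) => p x.1]
  rfl

/-- Exposure lemma: independent rows of the block `R × I`. Induction on a subset `R'` of `R`; by `pr_rowUpd` for
the new row `l`, the events of the other rows are unchanged by the resampling (`hinv`, `rowUpd_not`). -/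
theorem expose {m : ℕ} (R I : Finset (Fin m)) (Ev : Fin m → Om m → Prop) {δ : ℝ} (hδ : 0 ≤ δ)
    (hinv : ∀ l ∈ R, ∀ l' ∈ R, l' ≠ l → ∀ ω b, (Ev l (rowUpd l' I ω b) ↔ Ev l ω))
    (hd : ∀ l ∈ R, ∀ ω, pr (fun b : Fin m → Bool => Ev l (rowUpd l I ω b)) ≤ δ) :
    pr (fun ω : Om m => ∀ l ∈ R, Ev l ω) ≤ δ ^ R.card := by
  classical
  have key : ∀ R' : Finset (Fin m), R' ⊆ R →
      pr (fun ω : Om m => ∀ l ∈ R', Ev l ω) ≤ δ ^ R'.card := by
    intro R'
    induction R' using Finset.induction_on with
    | empty =>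
      intro _
      have : pr (fun ω : Om m => ∀ l ∈ (∅ : Finset (Fin m)), Ev l ω) =
          pr fun _ : Om m => True := by
        congr 1
        funext ω
        simp
      rw [this, KExp_pr_const]
      simp
    | insert l S hl ih =>
      intro hS
      have hlR : l ∈ R := hS (mem_insert_self _ _)
      have hSR : S ⊆ R := fun a ha => hS (mem_insert_of_mem ha)
      have ih' := ih hSR
      rw [pr_rowUpd l I, KExp_pr_prod, card_insert_of_notMem hl, pow_succ]
      have hc : (0 : ℝ) < Fintype.card (Om m) := by exact_mod_cast Fintype.card_pos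
      have h1 : ∀ ω : Om m, pr (fun b : Fin m → Bool =>
          ∀ l' ∈ insert l S, Ev l' (rowUpd l I ω b)) ≤
          (if ∀ l' ∈ S, Ev l' ω then (1 : ℝ) else 0) * δ := by
        intro ω
        by_cases h : ∀ l' ∈ S, Ev l' ω
        · rw [if_pos h, one_mul]
          exact (pr_mono fun b hb => hb l (mem_insert_self _ _)).trans (hd l hlR ω)
        · rw [if_neg h, zero_mul]
          refine (pr_mono (q := fun _ => False) fun b hb => h fun l' hl' => ?_).trans ?_
          · exact (hinv l' (hSR hl') l hlR (fun e => hl (e ▸ hl')) ω b).1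
              (hb l' (mem_insert_of_mem hl'))
          · rw [KExp_pr_const]
            simp
      refine (div_le_div_of_nonneg_right (Finset.sum_le_sum fun ω _ => h1 ω) hc.le).trans ?_
      rw [← Finset.sum_mul, mul_div_right_comm, ← KExp_pr_ite]
      exact mul_le_mul_of_nonneg_right ih' hδ
  exact key R le_rfl

end Vale.Agent.P160
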