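import Vale.Agent.P160.KPb

open Finset Filter
open scoped RealInnerProductSpace

namespace Vale.Agent.P160

open Vale.Agent.RM

/-- The normalised Fejér kernel `|∑_{a<N} e(t a y/p)|^2/N^2`. -/
noncomputable def fej (p N : ℕ) (t y : ℤ) : ℝ :=
  ‖∑ a ∈ range N, Complex.exp (2 * Real.pi * Complex.I * ((t * a * y : ℤ) : ℂ) / p)‖ ^ 2 / (N : ℝ) ^ 2

theorem fej_mem {p N : ℕ} (hN : 1 ≤ N) (t y : ℤ) : 0 ≤ fej p N t y ∧ fej p N t y ≤ 1 := by
  have hN0 : (0 : ℝ) < N := Nat.cast_pos.2 hN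
  refine ⟨by unfold fej; positivity, ?_⟩
  unfold fej
  rw [div_le_one (by positivity)]
  refine pow_le_pow_left₀ (norm_nonneg _) ((norm_sum_le _ _).trans (le_of_eq ?_)) 2
  have e : ∀ a ∈ range N,
      ‖Complex.exp (2 * Real.pi * Complex.I * ((t * a * y : ℤ) : ℂ) / p)‖ = 1 := fun a _ => by
    rw [← Complex.norm_exp_ofReal_mul_I (2 * Real.pi * ((t * a * y : ℤ) : ℝ) / p)]
    refine congrArg (fun z => ‖Complex.exp z‖) ?_
    push_cast
    ring
  rw [sum_congr rfl e, sum_const, card_range, nsmul_eq_mul, mul_one]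

theorem KFej_eq {p : ℕ} [NeZero p] (N : ℕ) (t y : ℤ) : fej p N t y =
    ‖∑ a ∈ range N, ZMod.stdAddChar ((y * (t * a) : ZMod p))‖ ^ 2 / (N : ℝ) ^ 2 := by
  unfold fej
  refine congrArg (fun z : ℂ => ‖z‖ ^ 2 / (N : ℝ) ^ 2) (sum_congr rfl fun a _ => ?_)
  rw [← ZMod.stdAddChar_coe]
  refine congrArg _ ?_
  push_cast
  ring

theorem KFej_orth {p N : ℕ} [NeZero p] (hp : p.Prime) (hNp : N ≤ p) {t : ZMod p} (ht : t ≠ 0) :
    ∑ d : ZMod p, ‖∑ a ∈ range N, ZMod.stdAddChar (d * (t * (a : ZMod p)))‖ ^ 2 = N * p := by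
  have := Fact.mk hp
  refine Complex.ofReal_injective ?_
  push_cast
  have e1 : ∀ d : ZMod p,
      ((‖∑ a ∈ range N, ZMod.stdAddChar (d * (t * (a : ZMod p)))‖ : ℝ) : ℂ) ^ 2 =
      ∑ a ∈ range N, ∑ b ∈ range N,
        ZMod.stdAddChar (d * (t * ((a : ZMod p) - (b : ZMod p)))) := fun d => by
    rw [← Complex.mul_conj', map_sum, sum_mul_sum]
    refine sum_congr rfl fun a _ => sum_congr rfl fun b _ => ?_
    rw [← AddChar.map_neg_eq_conj, ← AddChar.map_add_eq_mul]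
    refine congrArg _ ?_
    ring
  simp only [e1]
  rw [sum_comm]
  have e2 : ∀ a ∈ range N, ∑ d : ZMod p, ∑ b ∈ range N,
      ZMod.stdAddChar (d * (t * ((a : ZMod p) - (b : ZMod p)))) = (p : ℂ) := fun a ha => by
    rw [sum_comm, sum_eq_single a]
    · rw [AddChar.sum_mulShift _ (ZMod.isPrimitive_stdAddChar p), if_pos (by simp), ZMod.card]
    · intro b hb hba
      rw [AddChar.sum_mulShift _ (ZMod.isPrimitive_stdAddChar p), if_neg, Nat.cast_zero]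
      refine mul_ne_zero ht (sub_ne_zero.2 fun h => hba ?_)
      exact ((ZMod.natCast_eq_natCast_iff a b p).1 h).symm.eq_of_lt_of_lt
        ((mem_range.1 hb).trans_le hNp) ((mem_range.1 ha).trans_le hNp)
    · exact fun h => absurd ha h
  rw [sum_congr rfl e2, sum_const, card_range, nsmul_eq_mul]

/-- `fej p N t` is `p`-periodic and `∑_{d < p} fej p N t d = p/N` (orthogonality: `p ∤ t (a - a')` for
`a ≠ a' < N ≤ p`). Group by the residue of `∑ bz - y` modulo `p` and use `pb_mod` with `v = p^2`. -/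
theorem pb_fej {J : ℕ} (q : Fin J → ℝ) (hq : ∀ i, 0 ≤ q i ∧ q i ≤ 1) {p N : ℕ} (hp : p.Prime)
    (hN : 1 ≤ N) (hNp : N ≤ p) (hv : (p : ℝ) ^ 2 ≤ ∑ i, q i * (1 - q i)) {t : ℤ}
    (ht : ¬ (p : ℤ) ∣ t) (y : ℤ) :
    ∑ ξ, pbw q ξ * fej p N t (∑ i, bz (ξ i) - y) ≤ 3 / N := by
  have : NeZero p := ⟨hp.ne_zero⟩
  have hp0 : (0 : ℝ) < p := Nat.cast_pos.2 hp.pos
  have hN0 : (0 : ℝ) < N := Nat.cast_pos.2 hN
  obtain ⟨g, hg⟩ : ∃ g : ZMod p → ℝ, ∀ d, g d =
      ‖∑ a ∈ range N, ZMod.stdAddChar (d * ((t : ZMod p) * (a : ZMod p)))‖ ^ 2 / (N : ℝ) ^ 2 :=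
    ⟨_, fun _ => rfl⟩
  have g0 : ∀ d, 0 ≤ g d := fun d => by rw [hg]; positivity
  have g1 : ∑ d, g d = p / N := by
    simp only [hg]
    rw [← sum_div, KFej_orth hp hNp fun h => ht ((ZMod.intCast_zmod_eq_zero_iff_dvd t p).1 h)]
    field_simp
  have e : ∀ s : ℤ, fej p N t (s - y) =
      ∑ d : ZMod p, g d * if (p : ℤ) ∣ s - (y + d.val) then 1 else 0 := fun s => by
    have e1 : ∀ d : ZMod p, (p : ℤ) ∣ s - (y + d.val) ↔ ((s - y : ℤ) : ZMod p) = d := fun d => by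
      rw [← ZMod.intCast_zmod_eq_zero_iff_dvd, ← sub_eq_zero (b := d)]
      push_cast
      rw [ZMod.natCast_zmod_val, sub_sub]
    simp only [e1, mul_ite, mul_one, mul_zero, sum_ite_eq, mem_univ, if_true]
    rw [KFej_eq, hg]
  have h3 : ∀ d : ZMod p, ∑ ξ, pbw q ξ * (if (p : ℤ) ∣ ∑ i, bz (ξ i) - (y + d.val) then 1 else 0)
      ≤ 3 / p := fun d => by
    have h := pb_mod q hq (by positivity) hv hp.one_le (y + d.val)
    rw [Real.sqrt_sq hp0.le, ← add_div] at h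
    exact h.trans (le_of_eq (by norm_num))
  simp only [e, mul_sum]
  rw [sum_comm]
  calc _ = ∑ d : ZMod p, g d * ∑ ξ, pbw q ξ *
        (if (p : ℤ) ∣ ∑ i, bz (ξ i) - (y + d.val) then 1 else 0) := by
        refine sum_congr rfl fun d _ => ?_
        rw [mul_sum]
        exact sum_congr rfl fun ξ _ => mul_left_comm _ _ _
    _ ≤ ∑ d : ZMod p, g d * (3 / p) :=
        sum_le_sum fun d _ => mul_le_mul_of_nonneg_left (h3 d) (g0 d)
    _ = 3 / N := by rw [← sum_mul, g1]; field_simp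

end Vale.Agent.P160
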