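import Vale.Agent.P160.KFej

open Finset Filter
open scoped RealInnerProductSpace

namespace Vale.Agent.P160

open Vale.Agent.RM

/-- The additive character. -/
noncomputable def KFour_e (p : ℕ) (n : ℤ) : ℂ := Complex.exp (2 * Real.pi * Complex.I * (n : ℂ) / p)

theorem KFour_add (p : ℕ) (a b : ℤ) : KFour_e p (a + b) = KFour_e p a * KFour_e p b := by
  rw [KFour_e, KFour_e, KFour_e, ← Complex.exp_add]; congr 1; push_cast; ring

theorem KFour_zero (p : ℕ) : KFour_e p 0 = 1 := by simp [KFour_e]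

theorem KFour_conj (p : ℕ) (a : ℤ) : (starRingEnd ℂ) (KFour_e p a) = KFour_e p (-a) := by
  rw [KFour_e, KFour_e, ← Complex.exp_conj]; congr 1; simp [map_ofNat]

theorem KFour_norm (p : ℕ) (a : ℤ) : ‖KFour_e p a‖ = 1 := by
  have : 2 * Real.pi * Complex.I * (a : ℂ) / p = ((2 * Real.pi * a / p : ℝ) : ℂ) * Complex.I := by
    push_cast; ring
  rw [KFour_e, this, Complex.norm_exp_ofReal_mul_I]

theorem KFour_sum {ι : Type} (p : ℕ) (s : Finset ι) (f : ι → ℤ) :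
    KFour_e p (∑ i ∈ s, f i) = ∏ i ∈ s, KFour_e p (f i) := by
  classical
  induction s using Finset.induction_on with
  | empty => simp [KFour_zero]
  | insert i s hi ih => rw [sum_insert hi, prod_insert hi, KFour_add, ih]

theorem KFour_orth {p : ℕ} (hp : p ≠ 0) (n : ℤ) :
    ∑ t ∈ range p, KFour_e p (t * n) = if KFour_e p n = 1 then (p : ℂ) else 0 := by
  have e : ∀ t : ℕ, KFour_e p (t * n) = KFour_e p n ^ t := fun t => by
    simpa using KFour_sum p (range t) fun _ => n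
  simp only [e]
  split_ifs with h
  · simp [h]
  · have h1 : KFour_e p n ^ p = 1 := by
      have : (p : ℂ) ≠ 0 := Nat.cast_ne_zero.2 hp
      rw [← e, KFour_e, ← Complex.exp_int_mul_two_pi_mul_I n]
      congr 1; push_cast; field_simp
    rw [geom_sum_eq h, h1, sub_self, zero_div]

theorem KFour_sq {α : Type} (p : ℕ) (s : Finset α) (f : α → ℤ) :
    ((‖∑ x ∈ s, KFour_e p (f x)‖ ^ 2 : ℝ) : ℂ) = ∑ x ∈ s, ∑ y ∈ s, KFour_e p (f x - f y) := by
  rw [Complex.ofReal_pow, ← Complex.mul_conj', map_sum, sum_mul_sum]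
  simp only [KFour_conj, ← KFour_add, sub_eq_add_neg]

theorem KFour_swap {α β : Type} {m : ℕ} (p : ℕ) (t : ℤ) (A : Finset α) (B : Finset β)
    (u : α → Fin m → ℤ) (w : β → Fin m → ℤ) :
    ∑ a ∈ A, ∑ a' ∈ A, ‖∑ b ∈ B, KFour_e p (t * ((u a - u a') ⬝ᵥ w b))‖ ^ 2 =
      ∑ b' ∈ B, ∑ b ∈ B, ‖∑ a ∈ A, KFour_e p (t * (u a ⬝ᵥ (w b - w b')))‖ ^ 2 := by
  apply Complex.ofReal_injective
  simp only [Complex.ofReal_sum, KFour_sq]
  rw [sum_comm (s := B)]
  simp only [← sum_product' A A, ← sum_product' B B]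
  rw [sum_comm]
  refine sum_congr rfl fun b _ => sum_congr rfl fun a _ => congrArg _ ?_
  simp only [sub_dotProduct, dotProduct_sub]
  ring

theorem KFour_box {m τ : ℕ} (Z : Finset (Fin m → ℤ)) (hZ : Z ⊆ box m τ) (G : (Fin m → ℤ) → ℝ)
    (hG : ∀ z, 0 ≤ G z) : (τ : ℝ) ^ m * ∑ z ∈ Z, G z ≤
      ∑ a ∈ Fintype.piFinset fun _ : Fin m => range (2 * τ),
        ∑ a' ∈ Fintype.piFinset fun _ : Fin m => range (2 * τ),
          G ((fun l => (a l : ℤ)) - fun l => (a' l : ℤ)) := by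
  classical
  set φ : (Fin m → ℤ) × (Fin m → ℕ) → (Fin m → ℕ) × (Fin m → ℕ) :=
    fun e => (fun l => e.2 l + (e.1 l).toNat, fun l => e.2 l + (-e.1 l).toNat) with hφ
  have e : ∀ x, ((fun l => ((φ x).1 l : ℤ)) - fun l => ((φ x).2 l : ℤ)) = x.1 := fun x => by
    funext l; simp only [hφ, Pi.sub_apply]; omega
  have inj : Function.Injective φ := fun x y h => by
    have h1 : x.1 = y.1 := by rw [← e, h, e]
    refine Prod.ext h1 (funext fun l => ?_)
    have := congrFun (congrArg Prod.fst h) l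
    simpa [hφ, h1] using this
  rw [← sum_product']
  refine le_trans (le_of_eq ?_) (sum_le_sum_of_subset_of_nonneg (s := (Z ×ˢ Fintype.piFinset
    fun _ : Fin m => range τ).image φ) ?_ fun _ _ _ => hG _)
  · rw [sum_image inj.injOn, sum_product, mul_sum]
    simp [e]
  · intro x hx
    obtain ⟨⟨z, c⟩, hy, rfl⟩ := mem_image.1 hx
    have h1 := mem_box.1 (hZ (mem_product.1 hy).1)
    have h2 := Fintype.mem_piFinset.1 (mem_product.1 hy).2
    simp only [mem_range, abs_le] at h1 h2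
    simp only [mem_product, Fintype.mem_piFinset, mem_range, hφ]
    exact ⟨fun l => by have := h1 l; have := h2 l; omega,
      fun l => by have := h1 l; have := h2 l; omega⟩

theorem KFour_one {m p : ℕ} (hp : p.Prime) {γ : ℝ} (hγ : 2 / (p : ℝ) ≤ γ)
    (T : Finset (Fin m → Bool)) (b₀ : Fin m → Bool) (Z : Finset (Fin m → ℤ))
    (h : ∀ b ∈ T, γ * Z.card ≤ (Z.filter fun z => z ⬝ᵥ (bv b - bv b₀) = 0).card) :
    ∃ t ∈ Ico 1 p, γ / 2 * Z.card * T.card ≤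
      ∑ z ∈ Z, ‖∑ b ∈ T, KFour_e p ((t : ℕ) * (z ⬝ᵥ bv b))‖ := by
  have p0 : (0 : ℝ) < p := Nat.cast_pos.2 hp.pos
  rw [div_le_iff₀ p0] at hγ
  have γ0 : 0 ≤ γ := by nlinarith
  have h1 : (p : ℝ) * (γ * Z.card) * T.card ≤
      (∑ b ∈ T, ∑ z ∈ Z, ∑ t ∈ range p, KFour_e p (t * (z ⬝ᵥ (bv b - bv b₀)))).re := by
    rw [mul_comm, ← nsmul_eq_mul, Complex.re_sum]
    refine card_nsmul_le_sum _ _ _ fun b hb => ?_
    refine (mul_le_mul_of_nonneg_left (h b hb) p0.le).trans ?_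
    rw [Complex.re_sum, card_filter, Nat.cast_sum, mul_sum]
    refine sum_le_sum fun z _ => ?_
    rw [KFour_orth hp.ne_zero]
    by_cases e : z ⬝ᵥ (bv b - bv b₀) = 0
    · simp [e, KFour_zero]
    · rw [if_neg e]
      split_ifs <;> simp
  have h2 : (∑ b ∈ T, ∑ z ∈ Z, ∑ t ∈ range p, KFour_e p (t * (z ⬝ᵥ (bv b - bv b₀)))).re ≤
      ∑ t ∈ range p, ∑ z ∈ Z, ‖∑ b ∈ T, KFour_e p (t * (z ⬝ᵥ bv b))‖ := by
    rw [sum_comm, sum_congr rfl fun z _ => sum_comm, sum_comm]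
    refine (Complex.re_le_norm _).trans ((norm_sum_le _ _).trans (sum_le_sum fun t _ =>
      (norm_sum_le _ _).trans (sum_le_sum fun z _ => le_of_eq ?_)))
    simp only [dotProduct_sub, mul_sub]
    simp only [sub_eq_add_neg, KFour_add, ← sum_mul, norm_mul, KFour_norm, mul_one]
  replace h2 := h1.trans h2
  rw [range_eq_Ico, sum_eq_sum_Ico_succ_bot hp.pos] at h2
  refine exists_le_of_sum_le (nonempty_Ico.2 hp.one_lt) ?_
  simp only [Nat.cast_zero, zero_mul, KFour_zero, sum_const, nsmul_eq_mul, mul_one,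
    Complex.norm_natCast, zero_add] at h2
  rw [sum_const, Nat.card_Ico, nsmul_eq_mul, Nat.cast_pred hp.pos]
  have k : (0 : ℝ) ≤ Z.card * T.card := by positivity
  nlinarith [mul_le_mul_of_nonneg_right hγ k, mul_nonneg γ0 k]

/-- Fourier lemma, explicit form. Let `N = 2 τ`, `φ ζ = (1/#T) ∑_{b ∈ T} e(ζ ⬝ (bv b - bv b₀)/p)`.
(1) `(1/p) ∑_{t<p} φ (t z)` is the fraction of `b` with `p ∣ z ⬝ (bv b - bv b₀)`; summing over `z ∈ Z`
gives at least `γ #Z`; the term `t = 0` is `#Z/p ≤ γ #Z/2`; so some `0 < t < p` has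
`∑_{z ∈ Z} ‖φ (t z)‖ ≥ γ #Z/2`. (2) Power mean (`Finset.inner_le_nnorm_mul_nnorm`, `pow_sum_div_card_le_sum_pow`
or `Real.inner_le_nnorm..`): `#Z (γ/2)^(2J) ≤ ∑_{z ∈ Z} G z`, `G z = ‖φ (t z)‖^(2J) ≥ 0`.
(3) Every `z ∈ box m τ` is `a - a'` for at least `τ^m` pairs `a, a' ∈ [0, N)^m`, so
`τ^m ∑_Z G ≤ ∑_{a, a'} G (a - a')`. (4) `G z` is the average over `b, b' ∈ T^J` of
`e(t z ⬝ (Y - Y')/p)`, `Y = ∑ bv (b i)`; so the double sum is the average of
`∏_l N^2 fej p N t (Y l - Y' l)`. (5) For fixed `b'` apply `growth'` with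
`K l y = fej p N t (y - Y' l)`, `α = 3/N` (`pb_fej`). `N^(2m)/τ^m = (2N)^m`. -/
theorem fourier {m p τ J g : ℕ} (hp : p.Prime) (hτ : 2 ≤ τ) (hτp : 2 * τ ≤ p) {δ γ : ℝ}
    (hδ : 0 ≤ δ) (hJ : (p : ℝ) ^ 2 ≤ δ * J) (hγ : 2 / (p : ℝ) ≤ γ)
    (T : Finset (Fin m → Bool)) (hT : T.Nonempty) (b₀ : Fin m → Bool)
    (Z : Finset (Fin m → ℤ)) (hZ : Z ⊆ box m τ)
    (h : ∀ b ∈ T, γ * Z.card ≤ (Z.filter fun z => z ⬝ᵥ (bv b - bv b₀) = 0).card) :
    (Z.card : ℝ) * (γ / 2) ^ (2 * J) ≤ (4 * τ : ℝ) ^ m *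
      ((3 / (2 * τ : ℝ)) ^ g +
        Real.sqrt (2 ^ g * Real.exp (2 * Real.sqrt δ * m) / T.card) ^ J) := by
  obtain ⟨t, ht, h1⟩ := KFour_one hp hγ T b₀ Z h
  have p0 : (0 : ℝ) < p := Nat.cast_pos.2 hp.pos
  have γ0 : 0 ≤ γ := le_trans (by positivity) hγ
  have τ2 : (2 : ℝ) ≤ τ := by exact_mod_cast hτ
  have t0 : (0 : ℝ) < T.card := Nat.cast_pos.2 hT.card_pos
  have pt : ¬ (p : ℤ) ∣ (t : ℤ) := fun e =>
    (Nat.le_of_dvd (mem_Ico.1 ht).1 (Int.natCast_dvd_natCast.1 e)).not_gt (mem_Ico.1 ht).2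
  rcases Z.eq_empty_or_nonempty with rfl | hZ0
  · simp only [card_empty, Nat.cast_zero, zero_mul]; positivity
  have z0 : (0 : ℝ) < Z.card := Nat.cast_pos.2 hZ0.card_pos
  obtain ⟨n, hn⟩ : ∃ n, 2 * J = n + 1 := by
    refine Nat.exists_eq_add_one_of_ne_zero fun e => ?_
    rw [show J = 0 by omega, Nat.cast_zero, mul_zero] at hJ
    exact hJ.not_gt (by positivity)
  set Y : (Fin J → Fin m → Bool) → Fin m → ℤ := fun b l => ∑ i, bz (b i l) with hY
  set B := Fintype.piFinset fun _ : Fin J => T with hB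
  have h2 : (Z.card : ℝ) * (γ / 2) ^ (2 * J) * T.card ^ (2 * J) ≤
      ∑ z ∈ Z, ‖∑ b ∈ B, KFour_e p (t * (z ⬝ᵥ Y b))‖ ^ 2 := by
    have e : ∀ z : Fin m → ℤ, ‖∑ b ∈ B, KFour_e p (t * (z ⬝ᵥ Y b))‖ ^ 2 =
        ‖∑ b ∈ T, KFour_e p (t * (z ⬝ᵥ bv b))‖ ^ (n + 1) := fun z => by
      have k := prod_univ_sum (fun _ : Fin J => T) fun _ b => KFour_e p (t * (z ⬝ᵥ bv b))
      rw [prod_const, card_univ, Fintype.card_fin] at k
      rw [← hn, mul_comm 2, pow_mul, ← norm_pow _ J, k]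
      congr 2
      refine sum_congr rfl fun b _ => ?_
      rw [← KFour_sum, ← mul_sum]
      simp only [dotProduct, hY, mul_sum, bv]
      rw [sum_comm]
    simp only [e]
    refine le_of_mul_le_mul_left (le_trans (le_of_eq ?_) ((pow_le_pow_left₀ (by positivity) h1
      (n + 1)).trans (pow_sum_le_card_mul_sum_pow (fun _ _ => norm_nonneg _) n))) (pow_pos z0 n)
    rw [hn]; ring
  have h3 := KFour_box Z hZ (fun z => ‖∑ b ∈ B, KFour_e p (t * (z ⬝ᵥ Y b))‖ ^ 2)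
    fun _ => by positivity
  rw [KFour_swap] at h3
  have N0 : (0 : ℝ) < (2 * τ : ℕ) := by push_cast; linarith
  have h4 : ∀ D : Fin m → ℤ, ‖∑ a ∈ Fintype.piFinset fun _ : Fin m => range (2 * τ),
      KFour_e p (t * ((fun l => (a l : ℤ)) ⬝ᵥ D))‖ ^ 2 =
      (((2 * τ : ℕ) : ℝ) ^ 2) ^ m * ∏ l, fej p (2 * τ) t (D l) := fun D => by
    have k := prod_univ_sum (fun _ : Fin m => range (2 * τ))
      fun l a => KFour_e p (t * a * D l)
    simp only [← KFour_sum, mul_assoc, ← mul_sum] at k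
    rw [← Fin.prod_const m, ← prod_mul_distrib]
    simp only [dotProduct]
    rw [← k, norm_prod, ← prod_pow]
    refine prod_congr rfl fun l _ => ?_
    rw [fej, mul_div_cancel₀ _ (by positivity)]
    simp only [KFour_e, mul_assoc]
  simp only [h4, ← mul_sum] at h3
  have h5 := sum_le_card_nsmul B _ _ fun b' _ => growth' T hT
    (fun l y => fej p (2 * τ) t (y - Y b' l)) (fun l y => fej_mem (by omega) _ _)
    (α := 3 / (2 * τ : ℕ)) (by positivity) ((div_le_one N0).2 (by push_cast; linarith)) hδ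
    (fun l q hq hv => pb_fej q hq hp (by omega) hτp (hJ.trans hv) pt _) g
  have h6 := (mul_le_mul_of_nonneg_left h2 (by positivity)).trans
    (h3.trans (mul_le_mul_of_nonneg_left h5 (by positivity)))
  simp only [hB, Fintype.card_piFinset, prod_const, card_univ, Fintype.card_fin, nsmul_eq_mul]
    at h6
  push_cast at h6
  refine le_of_mul_le_mul_left (le_trans (le_of_eq ?_) (h6.trans (le_of_eq ?_)))
    (show (0 : ℝ) < τ ^ m * T.card ^ (2 * J) by positivity)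
  · ring
  · rw [show (2 * τ : ℝ) ^ 2 = τ * (4 * τ) by ring, mul_pow]; ring

end Vale.Agent.P160
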