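import Vale.Agent.P160.KFour

open Finset Filter
open scoped RealInnerProductSpace

namespace Vale.Agent.P160

open Vale.Agent.RM

theorem KFourE_exp {a : ℝ} (a2 : 2 ≤ a) : 2 * a ^ 4 ≤ Real.exp (5 * a) := by
  have a45 : 2 * a ^ 4 ≤ a ^ 5 := by
    rw [pow_succ' a 4]; exact mul_le_mul_of_nonneg_right a2 (by positivity)
  rw [show 5 * a = ((5 : ℕ) : ℝ) * a by norm_num, Real.exp_nat_mul]
  exact a45.trans (pow_le_pow_left₀ (by linarith) (by linarith [Real.add_one_le_exp a]) 5)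

theorem KFourE_1 {a : ℝ} {m J : ℕ} (a2 : 2 ≤ a) (e20 : (m : ℝ) = a ^ 20)
    (J2 : (J : ℝ) ≤ 2 * a ^ 12) : (2 * a ^ 4) ^ (2 * J) ≤ 2 ^ m := by
  have l2 := Real.log_two_gt_d9
  have a7 : 2 ^ 7 ≤ a ^ 7 := pow_le_pow_left₀ (by norm_num) a2 7
  have a13 : 0 < a ^ 13 := by positivity
  calc (2 * a ^ 4) ^ (2 * J) ≤ Real.exp (5 * a) ^ (2 * J) :=
        pow_le_pow_left₀ (by positivity) (KFourE_exp a2) _
    _ = Real.exp (10 * a * J) := by rw [← Real.exp_nat_mul]; push_cast; ring_nf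
    _ ≤ Real.exp (m * Real.log 2) := by
        refine Real.exp_le_exp.2 ?_
        calc 10 * a * J ≤ 10 * a * (2 * a ^ 12) := by gcongr
          _ = a ^ 13 * 20 := by ring
          _ ≤ a ^ 13 * (a ^ 7 * Real.log 2) := by gcongr; nlinarith
          _ = _ := by rw [e20]; ring
    _ = 2 ^ m := by rw [Real.exp_nat_mul, Real.exp_log two_pos]

theorem KFourE_2 {κ x t : ℝ} {g : ℕ} (hx : 0 ≤ κ * x) (hT : (2 : ℝ) ^ (κ * x) ≤ t)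
    (g1 : (g : ℝ) ≤ κ * x / 2) :
    Real.sqrt (2 ^ g * Real.exp (2 * (κ / 16) * x) / t) ≤ Real.exp (-(κ * x / 10)) := by
  have l2 := Real.log_two_gt_d9
  have T0 : 0 < t := lt_of_lt_of_le (by positivity) hT
  rw [Real.sqrt_le_left (by positivity), div_le_iff₀ T0]
  refine le_trans ?_ (mul_le_mul_of_nonneg_left hT (by positivity))
  rw [← Real.rpow_natCast 2 g, Real.rpow_def_of_pos two_pos, Real.rpow_def_of_pos two_pos,
    ← Real.exp_nat_mul, ← Real.exp_add, ← Real.exp_add, Real.exp_le_exp]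
  push_cast
  nlinarith

theorem KFourE_3 {κ a s t : ℝ} {m J : ℕ} (hκ : 0 < κ) (a2 : 2 ≤ a) (aκ : 64 ≤ a * κ)
    (J1 : a ^ 12 ≤ J) (t0 : 0 ≤ t) (ht : t ≤ 2 * a ^ 4) (s0 : 0 ≤ s)
    (hs : s ≤ Real.exp (-(κ * m / 10))) : t ^ m * s ^ J ≤ 1 := by
  have m0 : (0 : ℝ) ≤ m := Nat.cast_nonneg m
  refine (mul_le_mul (pow_le_pow_left₀ t0 (ht.trans (KFourE_exp a2)) m)
    (pow_le_pow_left₀ s0 hs J) (by positivity) (by positivity)).trans ?_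
  rw [← Real.exp_nat_mul, ← Real.exp_nat_mul, ← Real.exp_add, Real.exp_le_one_iff]
  have a2' : a * a ≤ J := by
    rw [← pow_two]; exact (pow_le_pow_right₀ (by linarith) (by norm_num)).trans J1
  have h4 : 64 * a ≤ κ * J := by nlinarith
  nlinarith [mul_le_mul_of_nonneg_left h4 m0, mul_nonneg m0 (show 0 ≤ a by linarith)]

theorem KFourE_4 {κ t : ℝ} {m g : ℕ} (ht : 2 ≤ t) (gm : g ≤ m) (g2 : κ * m / 3 ≤ g) :
    (4 * t) ^ m * (3 / (2 * t)) ^ g ≤ 6 ^ m * (2 * t) ^ ((1 - κ / 3) * m) := by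
  have h5 : (2 * t) ^ m / (2 * t) ^ g ≤ (2 * t) ^ ((1 - κ / 3) * m) := by
    rw [← Real.rpow_natCast, ← Real.rpow_natCast, ← Real.rpow_sub (by linarith)]
    exact Real.rpow_le_rpow_of_exponent_le (by linarith) (by linarith)
  calc _ = 2 ^ m * 3 ^ g * ((2 * t) ^ m / (2 * t) ^ g) := by
        rw [show 4 * t = 2 * (2 * t) by ring, mul_pow 2, div_pow]; ring
    _ ≤ 2 ^ m * 3 ^ m * (2 * t) ^ ((1 - κ / 3) * m) := by gcongr; norm_num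
    _ = _ := by rw [← mul_pow]; norm_num

theorem KFourE_5 {z c Q : ℝ} {m J : ℕ} (c0 : 0 < c) (Q1 : 1 ≤ Q) (hm : m ≠ 0)
    (h1 : (2 * c) ^ J ≤ 2 ^ m) (h : z * (c⁻¹ / 2) ^ J ≤ 6 ^ m * Q + 1) : z ≤ 24 ^ m * Q := by
  have h6 : (1 : ℝ) ≤ 6 ^ m * Q := one_le_mul_of_one_le_of_one_le (one_le_pow₀ (by norm_num)) Q1
  have h7 : (2 : ℝ) ≤ 2 ^ m := le_self_pow₀ one_le_two hm
  calc z = z * (c⁻¹ / 2) ^ J * (2 * c) ^ J := by
        rw [mul_assoc, ← mul_pow, show c⁻¹ / 2 * (2 * c) = 1 by field_simp, one_pow, mul_one]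
    _ ≤ (6 ^ m * Q + 1) * 2 ^ m := mul_le_mul h h1 (by positivity) (by positivity)
    _ ≤ (6 ^ m * Q * 2) * 2 ^ m := by gcongr; linarith
    _ ≤ (6 ^ m * Q * 2 ^ m) * 2 ^ m := by gcongr
    _ = _ := by rw [show (24 : ℝ) = 6 * 2 * 2 by norm_num, mul_pow, mul_pow]; ring

theorem KFourE_p {a : ℝ} (a2 : 2 ≤ a) : ∃ p : ℕ, p.Prime ∧ 2 * a ^ 4 ≤ p ∧ (p : ℝ) ≤ 4 * a ^ 5 := by
  have a45 : 2 * a ^ 4 ≤ a ^ 5 := by
    rw [pow_succ' a 4]; exact mul_le_mul_of_nonneg_right a2 (by positivity)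
  have a5 : 1 ≤ a ^ 5 := one_le_pow₀ (by linarith)
  obtain ⟨p, hp, p1, p2⟩ := Nat.exists_prime_lt_and_le_two_mul ⌈a ^ 5⌉₊
    (Nat.ceil_pos.2 (by positivity)).ne'
  have h1 : (p : ℝ) ≤ 2 * ⌈a ^ 5⌉₊ := by exact_mod_cast p2
  have h2 := Nat.ceil_lt_add_one (show 0 ≤ a ^ 5 by positivity)
  exact ⟨p, hp, a45.trans ((Nat.le_ceil _).trans (by exact_mod_cast p1.le)), by linarith⟩

/-- Fourier lemma, asymptotic form. Note `κ ≤ 1` as `#T ≤ 2^m`. Take a prime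
`m^(1/4) ≤ p ≤ 2 m^(1/4) + 2` (`Nat.exists_prime_lt_and_le_two_mul`), `J = ⌈m^(3/5)⌉₊`,
`δ = (κ/16)^2`, `g = ⌊κ m/2⌋₊ ≥ κ m/3`, `γ = m^(-1/5)`. Then `(2/γ)^(2J) ≤ 2^m`;
`2^g exp (κ m/8)/#T ≤ 2^(-κ m/4)`, so the second term times `(4τ)^m ≤ m^m` is at most `1`;
`(4τ)^m (3/(2τ))^g ≤ 6^m (2τ)^(m-g)`. -/
theorem fourier_ev {κ : ℝ} (hκ : 0 < κ) : ∀ᶠ m : ℕ in atTop, ∀ τ : ℕ, 2 ≤ τ →
    (2 * τ : ℝ) ≤ (m : ℝ) ^ (1 / 5 : ℝ) → ∀ (T : Finset (Fin m → Bool)),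
      (2 : ℝ) ^ (κ * m) ≤ T.card → ∀ (b₀ : Fin m → Bool) (Z : Finset (Fin m → ℤ)), Z ⊆ box m τ →
      (∀ b ∈ T, (m : ℝ) ^ (-(1 / 5) : ℝ) * Z.card ≤
        (Z.filter fun z => z ⬝ᵥ (bv b - bv b₀) = 0).card) →
      (Z.card : ℝ) ≤ 24 ^ m * (2 * τ : ℝ) ^ ((1 - κ / 3) * m) := by
  have hev : ∀ᶠ m : ℕ in atTop, max 2 (64 / κ) ≤ (m : ℝ) ^ (1 / 20 : ℝ) :=
    ((tendsto_rpow_atTop (by norm_num)).comp tendsto_natCast_atTop_atTop).eventually_ge_atTop _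
  filter_upwards [hev] with m hm τ hτ hτm T hT b₀ Z hZ h
  obtain ⟨a, ha⟩ : ∃ a, a = (m : ℝ) ^ (1 / 20 : ℝ) := ⟨_, rfl⟩
  have m0 : (0 : ℝ) ≤ m := Nat.cast_nonneg m
  have e4 : (m : ℝ) ^ (1 / 5 : ℝ) = a ^ 4 := by
    rw [ha, ← Real.rpow_mul_natCast m0]; norm_num
  have e20 : (m : ℝ) = a ^ 20 := by
    rw [ha, ← Real.rpow_mul_natCast m0]; norm_num
  rw [← ha, max_le_iff, div_le_iff₀ hκ] at hm
  obtain ⟨a2, aκ⟩ := hm
  rw [Real.rpow_neg m0, e4] at h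
  rw [e4] at hτm
  clear ha e4
  have a1 : 1 ≤ a := by linarith
  have τ2 : (2 : ℝ) ≤ τ := by exact_mod_cast hτ
  have a4 : 0 < a ^ 4 := by positivity
  obtain ⟨p, hp, p3, p4⟩ := KFourE_p a2
  obtain ⟨J, J1, J2⟩ : ∃ J : ℕ, a ^ 12 ≤ J ∧ (J : ℝ) ≤ 2 * a ^ 12 :=
    ⟨⌈a ^ 12⌉₊, Nat.le_ceil _, by
      have h2 := Nat.ceil_lt_add_one (show 0 ≤ a ^ 12 by positivity)
      have h3 : 1 ≤ a ^ 12 := one_le_pow₀ a1
      linarith⟩
  have h1 := KFourE_1 a2 e20 J2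
  have am : a ≤ m := by rw [e20]; exact le_self_pow₀ a1 (by norm_num)
  clear e20
  have κm : 64 ≤ κ * m := aκ.trans (by rw [mul_comm]; exact mul_le_mul_of_nonneg_left am hκ.le)
  obtain ⟨g, g1, g2⟩ : ∃ g : ℕ, (g : ℝ) ≤ κ * m / 2 ∧ κ * m / 3 ≤ g :=
    ⟨⌊κ * m / 2⌋₊, Nat.floor_le (by positivity), by
      have h2 := Nat.lt_floor_add_one (κ * m / 2)
      linarith⟩
  have T0 : (0 : ℝ) < T.card := lt_of_lt_of_le (by positivity) hT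
  have κ1 : κ * m ≤ m := by
    have h1 : (T.card : ℝ) ≤ (2 : ℝ) ^ (m : ℝ) := by
      have h2 := T.card_le_univ
      rw [Fintype.card_fun, Fintype.card_bool, Fintype.card_fin] at h2
      rw [Real.rpow_natCast]
      exact_mod_cast h2
    exact (Real.rpow_le_rpow_left_iff one_lt_two).1 (hT.trans h1)
  have key := fourier (J := J) (g := g) (δ := (κ / 16) ^ 2) (γ := (a ^ 4)⁻¹) hp hτ
    (by exact_mod_cast (show (2 * τ : ℝ) ≤ p by linarith)) (sq_nonneg _) (by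
      calc (p : ℝ) ^ 2 ≤ (4 * a ^ 5) ^ 2 := by gcongr
        _ = (64 / 16) ^ 2 * a ^ 10 := by ring
        _ ≤ (a * κ / 16) ^ 2 * a ^ 10 := by gcongr
        _ = (κ / 16) ^ 2 * a ^ 12 := by ring
        _ ≤ _ := by gcongr) (by
      rw [div_le_iff₀ (by linarith), ← div_eq_inv_mul, le_div_iff₀ a4]; exact p3)
    T (Finset.card_pos.1 (by exact_mod_cast T0)) b₀ Z hZ h
  rw [Real.sqrt_sq (by positivity), mul_add] at key
  exact KFourE_5 a4 (Real.one_le_rpow (by linarith) (by linarith))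
    (by rintro rfl; norm_num at κm) h1 (key.trans (add_le_add
      (KFourE_4 τ2 (by exact_mod_cast (show (g : ℝ) ≤ m by linarith)) g2)
      (KFourE_3 hκ a2 aκ J1 (by positivity) (by linarith) (Real.sqrt_nonneg _)
        (KFourE_2 (by linarith) hT g1))))

end Vale.Agent.P160
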