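import Vale.Agent.P160.KBas2

open Finset Filter
open scoped RealInnerProductSpace

namespace Vale.Agent.P160

open Vale.Agent.RM

/-- Upper bound for the growth. Let `a` be an integer basis (`int_basis`) of the span `V'` of all integer
points of `V` (rational, `finrank ≤ r`). Write the points as `∑ n i • a i` and sort them by `n` modulo
`2 t`: at most (2t)^r classes; in one class the points (z - z₀)/(2t) are integer points of `V` of norm
`≤ R`. -/
theorem np_ratio {m r : ℕ} (V : Submodule ℝ (Eu m)) (hr : Module.finrank ℝ V ≤ r) {t : ℕ}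
    (ht : 1 ≤ t) (R : ℝ) : np V (t * R) ≤ (2 * t : ℝ) ^ r * np V R := by
  classical
  obtain ⟨k, a, ha, hsp, hz⟩ := int_basis (shortSp V (t * R)) (isRat_shortSp V _)
  have hk : k ≤ r := by
    rw [← ha.finrank_sp, hsp]
    exact (Submodule.finrank_mono (shortSp_le V _)).trans hr
  have hex : ∀ z : Fin m → ℤ, ∃ n : Fin k → ℤ, z ∈ ipts V (t * R) → ∑ i, n i • a i = z := by
    intro z
    by_cases h : z ∈ ipts V (t * R)
    · have h1 := hz z (Submodule.subset_span ⟨z, h, rfl⟩)
      rw [zsp, Submodule.mem_span_range_iff_exists_fun] at h1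
      obtain ⟨n, hn⟩ := h1
      exact ⟨n, fun _ => hn⟩
    · exact ⟨0, fun h' => absurd h' h⟩
  choose n hn using hex
  have ht0 : (0 : ℤ) < 2 * t := by omega
  have htR : (0 : ℝ) < 2 * t := by exact_mod_cast ht0
  set T : Finset (Fin k → ℤ) := Fintype.piFinset fun _ => Finset.Ico (0 : ℤ) (2 * t) with hT
  have hTc : T.card = (2 * t) ^ k := by
    rw [hT, Fintype.card_piFinset]
    have : (2 * (t : ℤ)).toNat = 2 * t := by omega
    simp [this]
  have hmap : ∀ z ∈ ipts V (t * R), (fun i => n z i % (2 * t)) ∈ T := fun z _ => by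
    rw [hT, Fintype.mem_piFinset]
    intro i
    exact mem_Ico.2 ⟨Int.emod_nonneg _ ht0.ne', Int.emod_lt_of_pos _ ht0⟩
  have hcl : ∀ c ∈ T, ((ipts V (t * R)).filter fun z => (fun i => n z i % (2 * t)) = c).card ≤
      (ipts V R).card := by
    intro c _
    rcases ((ipts V (t * R)).filter fun z => (fun i => n z i % (2 * t)) = c).eq_empty_or_nonempty
      with h0 | ⟨z₀, hz₀⟩
    · rw [h0]; exact Nat.zero_le _
    obtain ⟨hz₀, hc₀⟩ := mem_filter.1 hz₀
    have key : ∀ z ∈ (ipts V (t * R)).filter fun z => (fun i => n z i % (2 * t)) = c,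
        (2 * t : ℤ) • (∑ i, ((n z i - n z₀ i) / (2 * t)) • a i) = z - z₀ := by
      intro z hz
      obtain ⟨hz1, hc⟩ := mem_filter.1 hz
      conv_rhs => rw [← hn z hz1, ← hn z₀ hz₀, ← sum_sub_distrib]
      rw [smul_sum]
      refine sum_congr rfl fun i _ => ?_
      have hd : (2 * t : ℤ) ∣ n z i - n z₀ i := by
        have := (congrFun hc i).trans (congrFun hc₀ i).symm
        exact Int.dvd_of_emod_eq_zero (Int.emod_emod_of_dvd _ dvd_rfl ▸
          (Int.emod_eq_emod_iff_emod_sub_eq_zero.1 this))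
      rw [smul_smul, Int.mul_ediv_cancel' hd, sub_smul]
    refine card_le_card_of_injOn (fun z => ∑ i, ((n z i - n z₀ i) / (2 * t)) • a i) ?_ ?_
    · intro z hz
      have hz' := mem_coe.1 hz
      have h1 := congrArg rv (key z hz')
      rw [rv_smul, rv_sub] at h1
      push_cast at h1
      obtain ⟨hz1, -⟩ := mem_filter.1 hz'
      obtain ⟨h2, h3⟩ := mem_ipts.1 hz1
      obtain ⟨h4, h5⟩ := mem_ipts.1 hz₀
      refine mem_coe.2 (mem_ipts.2 ⟨?_, ?_⟩)
      · have h6 := congrArg norm h1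
        rw [norm_smul, Real.norm_eq_abs, abs_of_pos htR] at h6
        have h7 := norm_sub_le (rv z) (rv z₀)
        refine le_of_mul_le_mul_left ?_ htR
        rw [h6]
        linarith
      · rw [← V.smul_mem_iff htR.ne', h1]
        exact V.sub_mem h3 h5
    · intro z hz z' hz' h
      have h1 := key z (mem_coe.1 hz)
      have h2 := key z' (mem_coe.1 hz')
      have h' : (∑ i, ((n z i - n z₀ i) / (2 * t)) • a i) =
        ∑ i, ((n z' i - n z₀ i) / (2 * t)) • a i := h
      rw [h', h2] at h1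
      exact (sub_left_inj.1 h1).symm
  have h1 := Finset.card_le_mul_card_image_of_maps_to hmap _ hcl
  rw [hTc] at h1
  have h2 : (2 * t) ^ k ≤ (2 * t) ^ r := Nat.pow_le_pow_right (by omega) hk
  have h3 : (ipts V (t * R)).card ≤ (2 * t) ^ r * (ipts V R).card := by
    exact (h1.trans (Nat.mul_le_mul_left _ h2)).trans (Nat.mul_comm _ _).le
  unfold np
  exact_mod_cast h3

/-- A subspace spanned by short integer vectors has a basis of short integer vectors
(`exists_linearIndependent`, `Fintype.equivFin`). -/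
theorem short_basis {m : ℕ} (U : Submodule ℝ (Eu m)) (β : ℝ) :
    ∃ x : Fin (Module.finrank ℝ (shortSp U β)) → Fin m → ℤ,
      Ind x ∧ sp x = shortSp U β ∧ ∀ i, ‖rv (x i)‖ ≤ β := by
  obtain ⟨f, h1, h2, h3⟩ := Submodule.exists_fun_fin_finrank_span_eq ℝ
    (rv '' (ipts U β : Set (Fin m → ℤ)))
  choose x hx hf using h1
  have hxf : rf x = f := funext hf
  refine ⟨x, ?_, ?_, fun i => (mem_ipts.1 (hx i)).1⟩
  · unfold Ind
    exact hxf ▸ h3
  · unfold sp
    exact hxf ▸ h2

/-- A regular radius: (1+1/m)^(m/2) ≤ 2, `np V (2R) ≤ 4^m np V R` (`np_ratio`), and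
`64^(m/2) ≥ 4^m` for the natural number `m/2` when `m ≥ 2`. -/
theorem reg_radius {m : ℕ} (hm : 2 ≤ m) (V : Submodule ℝ (Eu m)) {R : ℝ} (hR : 0 < R) :
    ∃ j : ℕ, j < m / 2 ∧ R * (1 + 1 / m) ^ j ≤ 2 * R ∧
      np V (R * (1 + 1 / m) ^ j * (1 + 1 / m)) ≤ 64 * np V (R * (1 + 1 / m) ^ j) := by
  have hm0 : (0 : ℝ) < m := by exact_mod_cast (by omega : 0 < m)
  have hq : (1 : ℝ) ≤ 1 + 1 / m := le_add_of_nonneg_right (by positivity)
  have h2 : ∀ j ≤ m / 2, R * (1 + 1 / m : ℝ) ^ j ≤ 2 * R := by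
    intro j hj
    have h1 : (1 + 1 / m : ℝ) ^ j ≤ Real.exp (1 / m) ^ j :=
      pow_le_pow_left₀ (by positivity) (by linarith [Real.add_one_le_exp (1 / m : ℝ)]) j
    have h3 : (j : ℝ) * (1 / m) ≤ 1 / 2 := by
      have : (2 * j : ℝ) ≤ m := by exact_mod_cast (by omega : 2 * j ≤ m)
      rw [mul_one_div, div_le_div_iff₀ hm0 two_pos]
      linarith
    have h4 : Real.exp (1 / 2) ≤ 2 := by
      have h5 : Real.exp (1 / 2) ^ 2 ≤ 2 ^ 2 := by
        rw [← Real.exp_nat_mul]
        have := Real.exp_one_lt_d9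
        norm_num
        linarith
      exact le_of_pow_le_pow_left₀ two_ne_zero (by norm_num) h5
    rw [← Real.exp_nat_mul] at h1
    have h6 := h1.trans ((Real.exp_le_exp.2 h3).trans h4)
    nlinarith
  by_contra hcon
  push Not at hcon
  have hind : ∀ j, j + 1 ≤ m / 2 → 64 ^ (j + 1) * np V R < np V (R * (1 + 1 / m : ℝ) ^ (j + 1)) := by
    intro j
    induction j with
    | zero =>
      intro hj
      have := hcon 0 hj (h2 0 (Nat.zero_le _))
      simpa using this
    | succ j ih =>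
      intro hj
      have h3 := hcon (j + 1) hj (h2 _ (by omega))
      have h4 := ih (by omega)
      rw [pow_succ (1 + 1 / m : ℝ) (j + 1), ← mul_assoc, pow_succ (64 : ℝ) (j + 1)]
      nlinarith
  obtain ⟨j, hj⟩ : ∃ j, m / 2 = j + 1 := ⟨m / 2 - 1, by omega⟩
  have h3 := hind j hj.ge
  have h4 := np_mono (le_refl V) (h2 (j + 1) hj.ge)
  have h5 := np_ratio (r := m) V ((Submodule.finrank_le V).trans (by simp)) (t := 2) one_le_two R
  push_cast at h5
  have h6 : ((2 * 2 : ℝ)) ^ m ≤ 64 ^ (j + 1) := by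
    rw [show (64 : ℝ) = (2 * 2) ^ 3 by norm_num, ← pow_mul]
    exact pow_le_pow_right₀ (by norm_num) (by omega)
  have h7 := one_le_np V hR.le
  have h8 := mul_le_mul_of_nonneg_right h6 (zero_le_one.trans h7)
  linarith

end Vale.Agent.P160
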