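import Vale.Agent.P160.KGrV
import Vale.Agent.P160.KCnt1
import Vale.Agent.P160.KCnt2

open Finset Filter
open scoped RealInnerProductSpace

namespace Vale.Agent.P160

open Vale.Agent.RM

theorem KGrW_inj {m k : ℕ} {x : Fin k → Fin m → ℤ} (hx : Ind x) (c : Fin m → ℤ) :
    Function.Injective fun n : Fin k → ℤ => ∑ i, n i • x i + c := by
  intro n n' h
  have h1 : lc (rf x) n = lc (rf x) n' := by
    rw [← rv_lc, ← rv_lc]
    exact congrArg rv (add_right_cancel h)
  have h2 := (Fintype.linearIndependent_iffₛ.1 (show LinearIndependent ℝ (rf x) from hx))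
    (fun i => (n i : ℝ)) (fun i => (n' i : ℝ)) h1
  funext i
  exact_mod_cast h2 i

/-- Lower bound for the growth. Let `x` be given by `short_basis`, `V = shortSp U β`. Sort the points of
`ipts V β = ipts U β` by their class modulo `zsp x`. In one class `c + zsp x` there are at most
`e (6β)^r/√(gd x)` points of norm `≤ β` (`gsu_card` with `s = β`) and at least `(R/√m)^r/√(gd x)` points of
norm `≤ R` (`gsl` with `u = R/√m ≥ β`, `r ≤ m`). Sum over the classes. -/
theorem np_grow {m : ℕ} (hm : 1 ≤ m) (U : Submodule ℝ (Eu m)) {β R : ℝ} (hβ : 0 < β)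
    (hR : Real.sqrt m * β ≤ R) :
    np U β * (R / (6 * Real.sqrt m * β)) ^ Module.finrank ℝ (shortSp U β) ≤
      3 * np (shortSp U β) R := by
  classical
  obtain ⟨x, hx, hsp, hxβ⟩ := short_basis U β
  have hS : ipts U β = ipts (sp x) β := by rw [hsp, ipts_shortSp]
  have hnp : np (shortSp U β) R = np (sp x) R := by rw [hsp]
  rw [hnp]
  clear hnp hsp
  generalize Module.finrank ℝ (shortSp U β) = r at x hx hxβ hS ⊢
  have hm0 : (0 : ℝ) < m := by exact_mod_cast hm
  have hsq : 0 < Real.sqrt m := Real.sqrt_pos.2 hm0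
  have hR0 : 0 < R := lt_of_lt_of_le (by positivity) hR
  have hu : β ≤ R / Real.sqrt m := by rw [le_div_iff₀ hsq]; linarith
  unfold np
  rw [hS]
  set S := ipts (sp x) β with hSd
  set T := ipts (sp x) R with hTd
  set π := (zsp x).mkQ with hπ
  have key : ∀ c ∈ S.image π, ((S.filter fun z => π z = c).card : ℝ) *
      (R / (6 * Real.sqrt m * β)) ^ r ≤ 3 * (T.filter fun z => π z = c).card := by
    intro c hc
    obtain ⟨z, hz, rfl⟩ := mem_image.1 hc
    set ψ : (Fin r → ℤ) → Fin m → ℤ := fun n => ∑ i, n i • x i + z with hψ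
    have hinj : Function.Injective ψ := KGrW_inj hx z
    have hrv : ∀ n, rv (ψ n) = lc (rf x) n + rv z := fun n => by rw [hψ, rv_add, rv_lc]
    have h1 : ((S.filter fun w => π w = π z).card : ℝ) ≤ (S.preimage ψ hinj.injOn).card := by
      rw [← card_image_of_injective _ hinj]
      refine Nat.cast_le.2 (card_le_card fun w hw => ?_)
      obtain ⟨hw, hw'⟩ := mem_filter.1 hw
      have h3 : w - z ∈ zsp x := (Submodule.Quotient.eq _).1 hw'
      obtain ⟨n, hn⟩ := (Submodule.mem_span_range_iff_exists_fun ℤ).1 h3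
      have h4 : ψ n = w := by rw [hψ]; simp only; rw [hn]; abel
      exact mem_image.2 ⟨n, mem_preimage.2 (h4 ▸ hw), h4⟩
    have h2 := gsu_card (rf x) hx hβ hxβ (rv z) (S.preimage ψ hinj.injOn) (R := β ^ 2)
      fun n hn => by
        rw [← hrv]
        have := (mem_ipts.1 (mem_preimage.1 hn)).1
        gcongr
    obtain ⟨F, hF, hF'⟩ := gsl (rf x) hx (u := R / Real.sqrt m) (by positivity)
      (fun i => (hxβ i).trans hu) (rv z) (mem_ipts.1 hz).2
    have h3 : (F.card : ℝ) ≤ (T.filter fun w => π w = π z).card := by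
      rw [← card_image_of_injective _ hinj]
      refine Nat.cast_le.2 (card_le_card fun w hw => ?_)
      obtain ⟨n, hn, rfl⟩ := mem_image.1 hw
      refine mem_filter.2 ⟨mem_ipts.2 ⟨?_, ?_⟩, ?_⟩
      · have h5 := hF' n hn
        rw [← hrv, div_pow, Real.sq_sqrt hm0.le] at h5
        have h6 : (r : ℝ) ≤ m := by exact_mod_cast hx.le
        have h7 : (r : ℝ) * (R ^ 2 / m) ≤ R ^ 2 := by
          calc (r : ℝ) * (R ^ 2 / m) ≤ m * (R ^ 2 / m) := by gcongr
            _ = R ^ 2 := by field_simp
        exact (pow_le_pow_iff_left₀ (norm_nonneg _) hR0.le two_ne_zero).1 (h5.trans h7)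
      · rw [hrv]
        exact Submodule.add_mem _ (KCnt1_lc_mem _ _) (mem_ipts.1 hz).2
      · refine (Submodule.Quotient.eq _).2 ?_
        rw [hψ]
        simp only [add_sub_cancel_right]
        exact (Submodule.mem_span_range_iff_exists_fun ℤ).2 ⟨n, rfl⟩
    rw [div_self (by positivity)] at h2
    have he : Real.exp 1 ≤ 3 := Real.exp_one_lt_d9.le.trans (by norm_num)
    calc _ ≤ 3 * ((6 * β) ^ r / Real.sqrt (gd (rf x))) * (R / (6 * Real.sqrt m * β)) ^ r := by
          gcongr
          exact h1.trans (h2.trans (by gcongr))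
      _ = 3 * ((R / Real.sqrt m) ^ r / Real.sqrt (gd (rf x))) := by
          rw [mul_assoc, div_mul_eq_mul_div, ← mul_pow]
          congr 3
          field_simp
      _ ≤ _ := by gcongr; exact hF.trans h3
  rw [card_eq_sum_card_image π S]
  have h4 : ∑ c ∈ S.image π, (T.filter fun z => π z = c).card ≤ T.card := by
    have := sum_card_fiberwise_eq_card_filter T (S.image π) π
    exact le_trans (le_of_eq (by convert this)) (card_filter_le _ _)
  have h5 : (∑ c ∈ S.image π, ((T.filter fun z => π z = c).card : ℝ)) ≤ T.card := by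
    exact_mod_cast h4
  rw [Nat.cast_sum, sum_mul]
  calc _ ≤ ∑ c ∈ S.image π, 3 * ((T.filter fun z => π z = c).card : ℝ) := sum_le_sum key
    _ ≤ _ := by rw [← mul_sum]; gcongr

end Vale.Agent.P160
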