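import Vale.Agent.P160.KDefs

open Finset Filter
open scoped RealInnerProductSpace

namespace Vale.Agent.P160

open Vale.Agent.RM

theorem pb_nonneg {J : ℕ} {p : Fin J → ℝ} (hp : ∀ i, 0 ≤ p i ∧ p i ≤ 1) (ξ : Fin J → Bool) :
    0 ≤ pbw p ξ := by
  exact prod_nonneg fun i _ => by
    split_ifs
    exacts [(hp i).1, sub_nonneg.2 (hp i).2]

theorem sum_pb {J : ℕ} (p : Fin J → ℝ) : ∑ ξ, pbw p ξ = 1 := by
  have := Fintype.prod_sum (fun (i : Fin J) (c : Bool) => if c then p i else 1 - p i)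
  simp only [pbw]
  rw [← this]
  simp

theorem KGrow_split {m J : ℕ} (T : Fin J → Finset (Fin (m + 1) → Bool))
    (F : (Fin J → Fin (m + 1) → Bool) → ℝ) :
    ∑ b ∈ Fintype.piFinset T, F b = ∑ ξ : Fin J → Bool, ∑ b ∈ Fintype.piFinset
      (fun i => univ.filter fun b' : Fin m → Bool => Fin.cons (ξ i) b' ∈ T i),
        F fun i => Fin.cons (ξ i) (b i) := by
  rw [sum_sigma']
  refine sum_nbij' (fun b => ⟨fun i => b i 0, fun i => Fin.tail (b i)⟩)
    (fun e i => Fin.cons (e.1 i) (e.2 i)) ?_ ?_ ?_ ?_ ?_ <;> simp [Fintype.mem_piFinset]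

theorem KGrow_card {m : ℕ} (T : Finset (Fin (m + 1) → Bool)) :
    T.card = (univ.filter fun b' : Fin m → Bool => Fin.cons true b' ∈ T).card +
      (univ.filter fun b' : Fin m → Bool => Fin.cons false b' ∈ T).card := by
  have := KGrow_split (J := 1) (fun _ => T) fun _ => 1
  rw [← (Equiv.funUnique (Fin 1) Bool).symm.sum_comp] at this
  simp only [sum_const, Fintype.card_piFinset, nsmul_eq_mul, mul_one, Fintype.sum_bool] at this
  simpa using (Nat.cast_injective (R := ℝ) (by simpa using this) : _ = _ + _)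

theorem KGrow_sq {p : ℝ} (h0 : 0 ≤ p) (h1 : p ≤ 1) :
    √p + √(1 - p) ≤ √2 ∧ √p + √(1 - p) ≤ Real.exp √(p * (1 - p)) := by
  have e : (√p + √(1 - p)) ^ 2 = 1 + 2 * √(p * (1 - p)) := by
    rw [add_sq, Real.sq_sqrt h0, Real.sq_sqrt (sub_nonneg.2 h1), Real.sqrt_mul h0]; ring
  constructor
  · refine Real.le_sqrt_of_sq_le ?_
    nlinarith [sq_nonneg (√p - √(1 - p)), Real.sq_sqrt h0, Real.sq_sqrt (sub_nonneg.2 h1)]
  · refine (pow_le_pow_iff_left₀ (by positivity) (Real.exp_pos _).le two_ne_zero).1 ?_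
    rw [e, ← Real.exp_nat_mul]
    have := Real.add_one_le_exp (2 * √(p * (1 - p)))
    push_cast
    linarith

/-- Growth lemma. Induction on `m` for all `T`, `K`, `g`. Base: both sides, `1 ≤ α^g + √2^(gJ)`
when all `T i` are nonempty; if some `T i` is empty the left side is `0`. Step: split `b i = cons (ξ i) (b' i)`;
for `ξ : Fin J → Bool` let `T' ξ i = {b' | cons (ξ i) b' ∈ T i}` and `p i = #(T' true)/#(T i)`, so
`∏ #(T' ξ i) = pbw p ξ * ∏ #(T i)`. If `δ J ≤ ∑ p(1-p)` and `g = g' + 1` use the hypothesis with `g'`: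
the first terms give `α * α^g'`, the second terms (bound `K ≤ 1`) give
`∏ (√p + √(1-p)) ≤ √2^J`. Otherwise (`g = 0` is trivial since `K ≤ 1`) use `g` itself and
`∏ (√p + √(1-p)) ≤ exp (∑ √(p(1-p))) ≤ exp (√δ J)` (square: `1 + 2√(p(1-p))`; Cauchy-Schwarz). -/
theorem growth {m J : ℕ} (T : Fin J → Finset (Fin m → Bool)) (K : Fin m → ℤ → ℝ)
    (hK : ∀ l y, 0 ≤ K l y ∧ K l y ≤ 1) {α δ : ℝ} (hα : 0 ≤ α) (hα1 : α ≤ 1) (hδ : 0 ≤ δ)
    (hg : ∀ (l : Fin m) (p : Fin J → ℝ), (∀ i, 0 ≤ p i ∧ p i ≤ 1) →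
      δ * J ≤ ∑ i, p i * (1 - p i) → ∑ ξ, pbw p ξ * K l (∑ i, bz (ξ i)) ≤ α) (g : ℕ) :
    ∑ b ∈ Fintype.piFinset T, ∏ l, K l (∑ i, bz (b i l)) ≤
      α ^ g * ∏ i, ((T i).card : ℝ) +
        Real.sqrt 2 ^ (g * J) * Real.exp (Real.sqrt δ * J * m) *
          ∏ i, Real.sqrt (T i).card := by
  have card : ∀ {m : ℕ} (T : Fin J → Finset (Fin m → Bool)),
      ∑ _b ∈ Fintype.piFinset T, (1 : ℝ) = ∏ i, ((T i).card : ℝ) := fun T => by simp
  induction m generalizing g with
  | zero =>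
    have h1 : ∏ i, ((T i).card : ℝ) ≤ ∏ i, √(T i).card :=
      prod_le_prod (fun _ _ => by positivity) fun i _ => by
        have : (T i).card ≤ 1 := (card_le_univ _).trans (by simp)
        rcases Nat.le_one_iff_eq_zero_or_eq_one.1 this with e | e <;> simp [e]
    have h2 : (1 : ℝ) ≤ √2 ^ (g * J) := one_le_pow₀ (Real.one_le_sqrt.2 one_le_two)
    have h3 : 0 ≤ ∏ i, √(T i).card := by positivity
    simp only [univ_eq_empty, prod_empty, card, Nat.cast_zero, mul_zero, Real.exp_zero, mul_one]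
    have h4 : 0 ≤ α ^ g * ∏ i, ((T i).card : ℝ) := by positivity
    nlinarith
  | succ m ih =>
    rcases g with _ | g
    · rw [pow_zero, one_mul, ← card]
      exact le_add_of_le_of_nonneg (sum_le_sum fun b _ =>
        prod_le_one (fun l _ => (hK l _).1) fun l _ => (hK l _).2) (by positivity)
    by_cases he : ∃ i, T i = ∅
    · obtain ⟨i, hi⟩ := he
      rw [Fintype.piFinset_eq_empty.2 ⟨i, hi⟩, sum_empty]
      positivity
    push Not at he
    set T' : Bool → Fin J → Finset (Fin m → Bool) :=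
      fun c i => univ.filter fun b' => Fin.cons c b' ∈ T i with hT'
    have t0 : ∀ i, (0 : ℝ) < (T i).card := fun i => Nat.cast_pos.2 (he i).card_pos
    have t1 : ∀ i, ((T i).card : ℝ) = (T' true i).card + (T' false i).card := fun i => by
      exact_mod_cast KGrow_card (T i)
    set p : Fin J → ℝ := fun i => (T' true i).card / (T i).card with hp
    have p0 : ∀ i, 0 ≤ p i ∧ p i ≤ 1 := fun i =>
      ⟨by positivity, (div_le_one (t0 i)).2 (by rw [t1]; simp)⟩
    have t2 : ∀ c i, ((T' c i).card : ℝ) = (if c then p i else 1 - p i) * (T i).card := by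
      intro c i
      have := (t0 i).ne'
      cases c
      · simp only [hp, Bool.false_eq_true, if_false]
        field_simp
        linarith [t1 i]
      · simp only [hp, if_true]
        field_simp
    clear t1 hp
    clear_value p
    have step : ∀ g : ℕ, ∑ b ∈ Fintype.piFinset T, ∏ l, K l (∑ i, bz (b i l)) ≤
        α ^ g * (∏ i, ((T i).card : ℝ)) * (∑ ξ, pbw p ξ * K 0 (∑ i, bz (ξ i))) +
          √2 ^ (g * J) * Real.exp (√δ * J * m) * (∏ i, √(T i).card) *
            ∏ i, (√(p i) + √(1 - p i)) := by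
      intro g
      have e := Fintype.prod_sum fun (i : Fin J) (c : Bool) => √(if c then p i else 1 - p i)
      simp only [Fintype.sum_bool, if_true, Bool.false_eq_true, if_false] at e
      rw [KGrow_split, e, mul_sum, mul_sum, ← sum_add_distrib]
      refine sum_le_sum fun ξ _ => ?_
      simp only [Fin.prod_univ_succ, Fin.cons_zero, Fin.cons_succ]
      rw [← mul_sum]
      refine (mul_le_mul_of_nonneg_left (ih (fun i => T' (ξ i) i) (fun l => K l.succ)
        (fun l => hK l.succ) (fun l => hg l.succ) g) (hK 0 _).1).trans ?_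
      simp only [t2, prod_mul_distrib, Real.sqrt_mul' _ (t0 _).le]
      rw [mul_add]
      refine add_le_add (le_of_eq (by rw [pbw]; ring)) ?_
      exact (mul_le_of_le_one_left (by positivity) (hK 0 _).2).trans (le_of_eq (by ring))
    have P0 : 0 ≤ ∏ i, ((T i).card : ℝ) := by positivity
    by_cases hc : δ * J ≤ ∑ i, p i * (1 - p i)
    · refine (step g).trans (add_le_add ?_ ?_)
      · exact (mul_le_mul_of_nonneg_left (hg 0 p p0 hc) (by positivity)).trans_eq (by ring)
      · have h1 : ∏ i, (√(p i) + √(1 - p i)) ≤ √2 ^ J := by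
          simpa using prod_le_prod (s := univ) (g := fun _ => √2) (fun _ _ => by positivity)
            fun i _ => (KGrow_sq (p0 i).1 (p0 i).2).1
        have h2 : Real.exp (√δ * J * m) ≤ Real.exp (√δ * J * (m + 1 : ℕ)) := by
          gcongr; exact Nat.le_succ m
        calc _ ≤ √2 ^ (g * J) * Real.exp (√δ * J * (m + 1 : ℕ)) * (∏ i, √(T i).card) * √2 ^ J := by
              gcongr
          _ = _ := by ring
    · refine (step (g + 1)).trans (add_le_add ?_ ?_)
      · refine mul_le_of_le_one_right (by positivity) ?_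
        rw [← sum_pb p]
        exact sum_le_sum fun ξ _ => mul_le_of_le_one_right (pb_nonneg p0 ξ) (hK 0 _).2
      · have h1 : ∏ i, (√(p i) + √(1 - p i)) ≤ Real.exp (∑ i, √(p i * (1 - p i))) := by
          rw [Real.exp_sum]
          exact prod_le_prod (fun _ _ => by positivity) fun i _ => (KGrow_sq (p0 i).1 (p0 i).2).2
        have h2 : ∑ i, √(p i * (1 - p i)) ≤ √δ * J := by
          refine (pow_le_pow_iff_left₀ (by positivity) (by positivity) two_ne_zero).1
            (sq_sum_le_card_mul_sum_sq.trans ?_)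
          rw [sum_congr rfl fun i _ => Real.sq_sqrt (mul_nonneg (p0 i).1 (sub_nonneg.2 (p0 i).2)),
            mul_pow, Real.sq_sqrt hδ, card_univ, Fintype.card_fin]
          nlinarith [not_le.1 hc, (Nat.cast_nonneg J : (0 : ℝ) ≤ J)]
        calc _ ≤ √2 ^ ((g + 1) * J) * Real.exp (√δ * J * m) * (∏ i, √(T i).card) *
              Real.exp (√δ * J) := by
              gcongr
              exact h1.trans (Real.exp_le_exp.2 h2)
          _ = _ := by
            rw [Nat.cast_succ, mul_add_one (√δ * J), Real.exp_add]; ring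

/-- The case of equal sets, normalised. -/
theorem growth' {m J : ℕ} (T : Finset (Fin m → Bool)) (hT : T.Nonempty) (K : Fin m → ℤ → ℝ)
    (hK : ∀ l y, 0 ≤ K l y ∧ K l y ≤ 1) {α δ : ℝ} (hα : 0 ≤ α) (hα1 : α ≤ 1) (hδ : 0 ≤ δ)
    (hg : ∀ (l : Fin m) (p : Fin J → ℝ), (∀ i, 0 ≤ p i ∧ p i ≤ 1) →
      δ * J ≤ ∑ i, p i * (1 - p i) → ∑ ξ, pbw p ξ * K l (∑ i, bz (ξ i)) ≤ α) (g : ℕ) :
    ∑ b ∈ Fintype.piFinset (fun _ : Fin J => T), ∏ l, K l (∑ i, bz (b i l)) ≤
      (α ^ g + Real.sqrt (2 ^ g * Real.exp (2 * Real.sqrt δ * m) / T.card) ^ J) *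
        (T.card : ℝ) ^ J := by
  refine (growth (fun _ => T) K hK hα hα1 hδ hg g).trans (le_of_eq ?_)
  have t0 : (0 : ℝ) < T.card := Nat.cast_pos.2 hT.card_pos
  have e2 : √(2 ^ g) = √2 ^ g := (Real.sqrt_eq_iff_mul_self_eq (by positivity) (by positivity)).2
    (by rw [← mul_pow, Real.mul_self_sqrt two_pos.le])
  have e : √(2 ^ g * Real.exp (2 * √δ * m) / T.card) * T.card =
      √2 ^ g * Real.exp (√δ * m) * √T.card := by
    rw [Real.sqrt_div' _ t0.le, Real.sqrt_mul (by positivity), div_mul_eq_mul_div, mul_div_assoc,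
      Real.div_sqrt, mul_assoc 2, two_mul, Real.exp_add, Real.sqrt_mul_self (Real.exp_pos _).le,
      e2]
  rw [add_mul, ← mul_pow, e, mul_pow, mul_pow, ← pow_mul, ← Real.exp_nat_mul]
  simp only [prod_const, card_univ, Fintype.card_fin]
  rw [show (J : ℝ) * (√δ * m) = √δ * J * m by ring]

end Vale.Agent.P160
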