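import Vale.Agent.P160.KBas0
import Vale.Agent.RM.Main

open Finset Filter
open scoped RealInnerProductSpace

namespace Vale.Agent.P160

open Vale.Agent.RM

theorem KHn_near {m : ℕ} {E : Type} [NormedAddCommGroup E] [InnerProductSpace ℝ E]
    {φ : Eu m →ₗ[ℝ] E} (hφ : Expd φ) (Λ : AddSubgroup (Fin m → ℤ)) {s : ℝ} (hs : 1 ≤ s) :
    ∃ (r : ℕ) (a : Fin r → Fin m → ℤ), Ind a ∧ (∀ i, a i ∈ Λ) ∧
      ∀ (r' : ℕ) (x : Fin r' → Fin m → ℤ), Ind x → (∀ i, x i ∈ Λ) →
        gd (fun i => φ (rv (a i))) * s ^ (2 * r') ≤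
          4 * gd (fun i => φ (rv (x i))) * s ^ (2 * r) := by
  have hs0 : 0 < s := by linarith
  set S : Set ℝ := {t | ∃ (r : ℕ) (a : Fin r → Fin m → ℤ), Ind a ∧ (∀ i, a i ∈ Λ) ∧
    t = gd (fun i => φ (rv (a i))) / s ^ (2 * r)} with hS
  have hne : S.Nonempty :=
    ⟨_, 0, Fin.elim0, linearIndependent_empty_type, fun i => i.elim0, rfl⟩
  have hlb : ∀ t ∈ S, 1 / s ^ (2 * m) ≤ t := by
    rintro t ⟨r, a, ha, -, rfl⟩
    have h1 : 1 ≤ gd (fun i => φ (rv (a i))) := (one_le_gd ha).trans (gd_le_expd hφ (rf a))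
    have h2 : s ^ (2 * r) ≤ s ^ (2 * m) := pow_le_pow_right₀ hs (by have := ha.le; omega)
    exact div_le_div₀ (by linarith) h1 (by positivity) h2
  have hpos : 0 < sInf S := lt_of_lt_of_le (by positivity) (le_csInf hne hlb)
  obtain ⟨t, ⟨r, a, ha, hm, rfl⟩, ht⟩ := exists_lt_of_csInf_lt hne (show sInf S < 4 * sInf S by linarith)
  refine ⟨r, a, ha, hm, fun r' x hx hxm => ?_⟩
  have h1 : sInf S ≤ gd (fun i => φ (rv (x i))) / s ^ (2 * r') :=
    csInf_le ⟨_, hlb⟩ ⟨r', x, hx, hxm, rfl⟩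
  have h2 : gd (fun i => φ (rv (a i))) / s ^ (2 * r) ≤
      4 * gd (fun i => φ (rv (x i))) / s ^ (2 * r') := by
    rw [mul_div_assoc]; linarith
  rwa [div_le_div_iff₀ (by positivity) (by positivity)] at h2

theorem KHn_append {m r r' : ℕ} {E : Type} (f : (Fin m → ℤ) → E) (a : Fin r → Fin m → ℤ)
    (x : Fin r' → Fin m → ℤ) :
    (fun i => f (Fin.append a x i)) = Fin.append (fun i => f (a i)) (fun i => f (x i)) := by
  funext i
  refine Fin.addCases (fun j => ?_) (fun j => ?_) i <;> simp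

theorem KHn_ev {ε κ C : ℝ} (hε : 0 < ε) (hκ : 0 < κ) (hC : 0 < C) : ∀ᶠ m : ℕ in atTop,
    Real.exp (κ / 8 * ((2 * m : ℕ) : ℝ) + (C * Real.log ((2 * m : ℕ) : ℝ) ^ 9 * Real.sqrt (2 * m) /
      ((m : ℝ) ^ (ε / 3) / 2)) ^ 2) ≤ (2 : ℝ) ^ (κ * m) := by
  have hδ : 0 < κ / (32 * C ^ 2 * 2 ^ (2 * ε / 3)) := by positivity
  have h1 := (isLittleO_log_rpow_rpow_atTop (s := 2 * ε / 3) 18 (by positivity)).bound hδ
  have h2 : Tendsto (fun m : ℕ => ((2 * m : ℕ) : ℝ)) atTop atTop :=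
    tendsto_natCast_atTop_atTop.comp (tendsto_id.const_mul_atTop' (by norm_num))
  filter_upwards [h2.eventually h1, eventually_ge_atTop 1] with m h hm
  have hm0 : (0 : ℝ) < m := by exact_mod_cast hm
  have hc : ((2 * m : ℕ) : ℝ) = 2 * m := by push_cast; ring
  rw [hc] at h ⊢
  have hl : 0 ≤ Real.log (2 * m) := Real.log_nonneg (by have : (1 : ℝ) ≤ m := by exact_mod_cast hm
                                                        linarith)
  rw [Real.norm_of_nonneg (by positivity), Real.norm_of_nonneg (by positivity),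
    Real.mul_rpow (by norm_num) hm0.le] at h
  have h18 : Real.log (2 * m) ^ (18 : ℝ) = Real.log (2 * m) ^ 18 := by
    exact_mod_cast Real.rpow_natCast _ 18
  rw [h18] at h
  have hsq : ((m : ℝ) ^ (ε / 3)) ^ 2 = (m : ℝ) ^ (2 * ε / 3) := by
    rw [← Real.rpow_natCast, ← Real.rpow_mul hm0.le]; congr 1; push_cast; ring
  have hp : 0 < (m : ℝ) ^ (2 * ε / 3) := by positivity
  have e : (C * Real.log (2 * m) ^ 9 * Real.sqrt (2 * m) / ((m : ℝ) ^ (ε / 3) / 2)) ^ 2 =
      8 * C ^ 2 * m * (Real.log (2 * m) ^ 18 / (m : ℝ) ^ (2 * ε / 3)) := by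
    rw [div_pow, mul_pow, mul_pow, Real.sq_sqrt (by positivity), div_pow, hsq]
    field_simp
    ring
  have h3 : Real.log (2 * m) ^ 18 / (m : ℝ) ^ (2 * ε / 3) ≤ κ / (32 * C ^ 2) := by
    rw [div_le_iff₀ hp]
    refine h.trans (le_of_eq ?_)
    field_simp
  have h4 : 8 * C ^ 2 * m * (Real.log (2 * m) ^ 18 / (m : ℝ) ^ (2 * ε / 3)) ≤ κ * m / 4 := by
    refine (mul_le_mul_of_nonneg_left h3 (by positivity)).trans (le_of_eq ?_)
    field_simp
    ring
  rw [e, Real.rpow_def_of_pos (x := 2) (by norm_num)]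
  refine Real.exp_le_exp.2 ?_
  have h5 := Real.log_two_gt_d9
  have h6 : 0 < κ * m := by positivity
  nlinarith

/-- Harder-Narasimhan piece plus reverse Minkowski. -/
theorem hn {ε κ : ℝ} (hε : 0 < ε) (hκ : 0 < κ) : ∀ᶠ m : ℕ in atTop,
    ∀ (E : Type) [NormedAddCommGroup E] [InnerProductSpace ℝ E] [FiniteDimensional ℝ E],
      Module.finrank ℝ E ≤ 2 * m → ∀ (φ : Eu m →ₗ[ℝ] E), Expd φ →
      ∀ (Λ : AddSubgroup (Fin m → ℤ)) (T : Finset (Fin m → Bool)),
        (∀ b ∈ T, bv b ∈ Λ ∧ ‖φ (rv (bv b))‖ ^ 2 ≤ 2 * m) →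
        ∃ (r : ℕ) (a : Fin r → Fin m → ℤ), Ind a ∧ (∀ i, a i ∈ Λ) ∧
          gd (fun i => φ (rv (a i))) ≤ (m : ℝ) ^ (ε * m) ∧
          ∃ T' ⊆ T, (T.card : ℝ) ≤ 2 ^ (κ * m) * T'.card ∧
            ∀ b ∈ T', ∀ b' ∈ T', rv (bv b - bv b') ∈ sp a := by
  classical
  obtain ⟨C, hC, hcount⟩ := RM.count (η := κ / 8) (by positivity)
  have h1 : ∀ᶠ m : ℕ in atTop, 3 / ε ≤ (m : ℝ) :=
    tendsto_natCast_atTop_atTop.eventually_ge_atTop _
  filter_upwards [KHn_ev hε hκ hC, h1, eventually_ge_atTop 4] with m hev hεm hm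
  intro E _ _ _ hE φ hφ Λ T hT
  have hm4 : (4 : ℝ) ≤ m := by exact_mod_cast hm
  have hm1 : (1 : ℝ) ≤ m := by linarith
  set s : ℝ := (m : ℝ) ^ (ε / 3) with hsdef
  have hs : 1 ≤ s := Real.one_le_rpow hm1 (by positivity)
  obtain ⟨r, a, ha, haΛ, hmin⟩ := KHn_near hφ Λ hs
  refine ⟨r, a, ha, haΛ, ?_, ?_⟩
  · have h0 := hmin 0 Fin.elim0 linearIndependent_empty_type fun i => i.elim0
    rw [gd_zero, mul_zero, pow_zero, mul_one, mul_one] at h0
    have h2 : s ^ (2 * r) ≤ s ^ (2 * m) := pow_le_pow_right₀ hs (by have := ha.le; omega)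
    have h3 : s ^ (2 * m) = (m : ℝ) ^ (2 * ε / 3 * m) := by
      rw [hsdef, ← Real.rpow_natCast, ← Real.rpow_mul (by linarith)]; congr 1; push_cast; ring
    have h4 : (4 : ℝ) ≤ (m : ℝ) ^ (ε / 3 * m) := by
      refine hm4.trans (Real.self_le_rpow_of_one_le hm1 ?_)
      rw [div_le_iff₀ hε] at hεm; linarith
    have h5 : (m : ℝ) ^ (ε * m) = (m : ℝ) ^ (ε / 3 * m) * (m : ℝ) ^ (2 * ε / 3 * m) := by
      rw [← Real.rpow_add (by linarith)]; congr 1; ring
    rw [h5, ← h3]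
    have : 0 ≤ s ^ (2 * m) := by positivity
    nlinarith
  set U : Submodule ℝ E := Submodule.span ℝ (Set.range fun i => φ (rv (a i))) with hU
  let f : (Fin m → ℤ) →+ (Uᗮ : Submodule ℝ E) := AddMonoidHom.mk'
    (fun z => Uᗮ.orthogonalProjectionOnto (φ (rv z))) (by intro x y; rw [rv_add, map_add, map_add])
  have hf : ∀ z, f z = Uᗮ.orthogonalProjectionOnto (φ (rv z)) := fun _ => rfl
  let L : Submodule ℤ (Uᗮ : Submodule ℝ E) := (Λ.map f).toIntSubmodule
  have hL : ∀ y, y ∈ L ↔ ∃ z ∈ Λ, f z = y := fun y => AddSubgroup.mem_map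
  have hga : 0 < gd (fun i => φ (rv (a i))) :=
    lt_of_lt_of_le one_pos ((one_le_gd ha).trans (gd_le_expd hφ (rf a)))
  have hstab : Stab L (s / 2) := by
    intro r' y hy hyi
    rcases Nat.eq_zero_or_pos r' with rfl | hr'
    · rw [gd_zero, mul_zero, pow_zero]
    choose x hx e using fun i => (hL _).1 (hy i)
    obtain rfl : y = fun i => f (x i) := funext fun i => (e i).symm
    have hap := gd_append (fun i => φ (rv (a i))) (fun i => φ (rv (x i)))
    rw [← KHn_append (fun z => φ (rv z)) a x] at hap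
    have hgy : 0 < gd fun i => f (x i) := (gd_pos_iff _).2 hyi
    have hap' : gd (fun i => φ (rv (Fin.append a x i))) =
        gd (fun i => φ (rv (a i))) * gd fun i => f (x i) := hap
    have hind : Ind (Fin.append a x) := by
      have : LinearIndependent ℝ fun i => φ (rv (Fin.append a x i)) :=
        (gd_pos_iff _).1 (by rw [hap']; positivity)
      exact LinearIndependent.of_comp φ this
    have hmem : ∀ i, Fin.append a x i ∈ Λ := fun i => by
      refine Fin.addCases (fun j => ?_) (fun j => ?_) i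
      · simpa using haΛ j
      · simpa using hx j
    have h2 := hmin _ _ hind hmem
    rw [hap', mul_add, pow_add] at h2
    have hsr : 0 < s ^ (2 * r) := by positivity
    have h3 : s ^ (2 * r') ≤ 4 * gd fun i => f (x i) := by
      have : (gd (fun i => φ (rv (a i))) * s ^ (2 * r)) * s ^ (2 * r') ≤
          (gd (fun i => φ (rv (a i))) * s ^ (2 * r)) * (4 * gd fun i => f (x i)) := by linarith
      exact le_of_mul_le_mul_left this (by positivity)
    have h4 : (4 : ℝ) ≤ 2 ^ (2 * r') := by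
      calc (4 : ℝ) = 2 ^ 2 := by norm_num
        _ ≤ _ := pow_le_pow_right₀ (by norm_num) (by omega)
    rw [div_pow, div_le_iff₀ (by positivity)]
    nlinarith
  rcases T.eq_empty_or_nonempty with rfl | hTne
  · exact ⟨∅, Subset.rfl, by simp, by simp⟩
  set g : (Fin m → Bool) → (Uᗮ : Submodule ℝ E) := fun b => f (bv b) with hg
  have hS := hcount (2 * m) (by omega) (Uᗮ : Submodule ℝ E) ((Submodule.finrank_le _).trans hE) L
    (s / 2) (Real.sqrt (2 * m)) (by positivity) hstab (T.image g) (by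
      intro y hy
      obtain ⟨b, hb, rfl⟩ := mem_image.1 hy
      refine ⟨(hL _).2 ⟨_, (hT b hb).1, rfl⟩, ?_⟩
      refine le_trans ?_ (Real.le_sqrt_of_sq_le (hT b hb).2)
      exact Submodule.norm_orthogonalProjectionOnto_apply_le _ _)
  have hS' : ((T.image g).card : ℝ) ≤ 2 ^ (κ * m) := hS.trans hev
  obtain ⟨y, hy, hmax⟩ := exists_max_image (T.image g) (fun y => (T.filter fun b => g b = y).card)
    (hTne.image g)
  refine ⟨T.filter fun b => g b = y, filter_subset _ _, ?_, ?_⟩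
  · have h2 := card_le_mul_card_image (f := g) T _ hmax
    have h3 : (T.card : ℝ) ≤ ((T.filter fun b => g b = y).card : ℝ) * (T.image g).card := by
      exact_mod_cast h2
    refine h3.trans ?_
    rw [mul_comm]
    exact mul_le_mul_of_nonneg_right hS' (by positivity)
  · intro b hb b' hb'
    have e : f (bv b - bv b') = 0 := by
      rw [map_sub]
      exact sub_eq_zero.2 ((mem_filter.1 hb).2.trans (mem_filter.1 hb').2.symm)
    rw [hf, Submodule.orthogonalProjectionOnto_eq_zero_iff, Submodule.orthogonal_orthogonal] at e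
    have hU' : U = (sp a).map φ := by
      rw [hU, sp, Submodule.map_span, ← Set.range_comp]; rfl
    rw [hU'] at e
    obtain ⟨w, hw, hw2⟩ := e
    have : w = rv (bv b - bv b') := by
      have h5 := hφ (w - rv (bv b - bv b'))
      rw [map_sub, hw2, sub_self, norm_zero] at h5
      exact sub_eq_zero.1 (norm_le_zero_iff.1 h5)
    exact this ▸ hw

end Vale.Agent.P160
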