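import Vale.Agent.P160.KPts

open Finset Filter
open scoped RealInnerProductSpace

namespace Vale.Agent.P160

open Vale.Agent.RM

theorem KInv_hadamard {E : Type} [NormedAddCommGroup E] [InnerProductSpace ℝ E]
    [FiniteDimensional ℝ E] {k : ℕ} (v : Fin k → E) : gd v ≤ ∏ i, ‖v i‖ ^ 2 := by
  induction k with
  | zero => simp [gd_zero]
  | succ k ih =>
    rw [KCnt1_gd_succ, Fin.prod_univ_castSucc]
    refine mul_le_mul (ih _) ?_ (by positivity) (by positivity)
    gcongr
    exact Submodule.norm_starProjection_apply_le _ _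

theorem KInv_amgm {n : ℕ} (a : Fin n → ℝ) (ha : ∀ i, 0 ≤ a i) {c : ℝ} (hc : 0 < c)
    (h : ∑ i, a i ≤ c * n) : ∏ i, a i ≤ c ^ n := by
  calc ∏ i, a i ≤ ∏ i, c * Real.exp (a i / c - 1) := by
        refine Finset.prod_le_prod (fun i _ => ha i) fun i _ => ?_
        have := Real.add_one_le_exp (a i / c - 1)
        rw [← div_le_iff₀' hc]; linarith
    _ = c ^ n * Real.exp (∑ i, (a i / c - 1)) := by
        rw [Finset.prod_mul_distrib, Real.exp_sum]; simp
    _ ≤ c ^ n * 1 := by
        gcongr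
        rw [Real.exp_le_one_iff, Finset.sum_sub_distrib, ← Finset.sum_div]
        simp only [sum_const, card_univ, Fintype.card_fin, nsmul_eq_mul, mul_one, sub_nonpos]
        rwa [div_le_iff₀' hc]
    _ = _ := mul_one _

/-- Inverse images have a controlled Gram determinant. Extend `y` by an orthonormal basis
`e` of `(span y)ᗮ` (size `m - k`): `gd (y, e) = gd y` (`gd_append`), `det^2 * gd (y, e) = gd (C y, C e)`
(`gd_map_full`, `det_lin`), `≤ gd (C y) * gd (C e)` (`gd_append`, `gd_mono`), Hadamard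
`gd (C e) ≤ ∏ ‖C e j‖^2`, `∑ ‖C e j‖^2 ≤ ∑ (C i j)^2 ≤ m^2` (Bessel for each row), AM-GM
(`inner_le_nnorm_mul_nnorm` family: `Real.inner_le_nnorm`, `Real.geom_mean_le_arith_mean_weighted`):
`≤ (m^2/(m-k))^(m-k) ≤ (2m)^m`. If `y` is dependent the left side vanishes. -/
theorem gd_inv_le {m k : ℕ} (hm : 1 ≤ m) (hk : 2 * k ≤ m) (C : Matrix (Fin m) (Fin m) ℤ)
    (hC : ∀ i j, |C i j| ≤ 1) (y : Fin k → Eu m) :
    (C.det : ℝ) ^ 2 * gd y ≤ (2 * m : ℝ) ^ m * gd (fun i => lin C (y i)) := by
  have hm0 : (1 : ℝ) ≤ m := by exact_mod_cast hm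
  by_cases hy : LinearIndependent ℝ y
  swap
  · have h0 : gd y = 0 := le_antisymm (not_lt.1 fun h => hy ((gd_pos_iff y).1 h)) (gd_nonneg y)
    rw [h0, mul_zero]
    exact mul_nonneg (by positivity) (gd_nonneg _)
  set U := Submodule.span ℝ (Set.range y) with hU
  have hk' : Module.finrank ℝ U = k := by
    rw [hU, finrank_span_eq_card hy, Fintype.card_fin]
  have hn : k + Module.finrank ℝ Uᗮ = Module.finrank ℝ (Eu m) := by
    rw [← hk']; exact U.finrank_add_finrank_orthogonal
  have hn' : k + Module.finrank ℝ Uᗮ = m := by simpa using hn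
  set e := stdOrthonormalBasis ℝ Uᗮ with he
  have h1 : gd (Fin.append y fun j => (e j : Eu m)) = gd y := by
    rw [gd_append]
    have : (fun j => Uᗮ.orthogonalProjectionOnto (e j : Eu m)) = e := by
      funext j; simp
    rw [← hU, this]
    have h : gd e = 1 := by
      unfold gd
      rw [Matrix.gram_eq_one_iff_orthonormal.2 e.orthonormal, Matrix.det_one]
    rw [h, mul_one]
  have h2 := gd_map_full hn (lin C) (Fin.append y fun j => (e j : Eu m))
  have h3 : (fun i => lin C (Fin.append y (fun j => (e j : Eu m)) i)) =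
      Fin.append (fun i => lin C (y i)) fun j => lin C (e j : Eu m) := by
    funext i
    induction i using Fin.addCases <;> simp
  rw [h1, h3, det_lin, gd_append] at h2
  rw [← h2, mul_comm]
  refine mul_le_mul_of_nonneg_right ?_ (gd_nonneg _)
  have ho : Orthonormal ℝ fun j => (e j : Eu m) :=
    (Uᗮ.subtypeₗᵢ.orthonormal_comp_iff).2 e.orthonormal
  have h4 : ∑ j, ‖lin C (e j : Eu m)‖ ^ 2 ≤ (m : ℝ) * m := by
    calc ∑ j, ‖lin C (e j : Eu m)‖ ^ 2 = ∑ j, ∑ i, ‖⟪(e j : Eu m), rv (C i)⟫‖ ^ 2 := by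
          refine Finset.sum_congr rfl fun j _ => ?_
          rw [EuclideanSpace.norm_sq_eq]
          refine Finset.sum_congr rfl fun i _ => ?_
          rw [lin_apply]
          simp [PiLp.inner_apply]
      _ = ∑ i, ∑ j, ‖⟪(e j : Eu m), rv (C i)⟫‖ ^ 2 := Finset.sum_comm
      _ ≤ ∑ _i : Fin m, (m : ℝ) := by
          refine Finset.sum_le_sum fun i _ => (ho.sum_inner_products_le _).trans ?_
          rw [norm_rv_sq]
          calc ∑ j, (C i j : ℝ) ^ 2 ≤ ∑ _j : Fin m, (1 : ℝ) := Finset.sum_le_sum fun j _ => by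
                have : |(C i j : ℝ)| ≤ 1 := by exact_mod_cast hC i j
                rwa [sq_le_one_iff_abs_le_one]
            _ = m := by simp
      _ = _ := by simp
  calc _ ≤ ∏ j, ‖lin C (e j : Eu m)‖ ^ 2 := by
        refine (KInv_hadamard _).trans (Finset.prod_le_prod (fun _ _ => by positivity) fun j _ => ?_)
        gcongr
        exact (Submodule.span ℝ (Set.range fun i => lin C (y i)))ᗮ.norm_starProjection_apply_le _
    _ ≤ (2 * m : ℝ) ^ Module.finrank ℝ Uᗮ := by
        refine KInv_amgm _ (fun _ => by positivity) (by positivity) (h4.trans ?_)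
        have : m ≤ 2 * Module.finrank ℝ Uᗮ := by omega
        have : (m : ℝ) ≤ 2 * Module.finrank ℝ Uᗮ := by exact_mod_cast this
        nlinarith
    _ ≤ _ := pow_le_pow_right₀ (by linarith) (by omega)

end Vale.Agent.P160
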