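import Vale.Agent.P160.KSL
import Vale.Agent.P160.KInv

open Finset Filter
open scoped RealInnerProductSpace

namespace Vale.Agent.P160

open Vale.Agent.RM

/-- From a short family to density: `pts_lower` at `2u`, `u^(r' - θ m) ≤ u^k` for `u ≥ 1`. -/
theorem dense_of {m k : ℕ} (C : Matrix (Fin m) (Fin m) ℤ) (hC : C.det ≠ 0)
    (Λ : AddSubgroup (Fin m → ℤ)) (hΛ : colL C ≤ Λ) (M : Submodule ℝ (Eu m))
    (x : Fin k → Fin m → ℤ) (hx : Ind x) (hxm : ∀ i, x i ∈ Λ ∧ rv (x i) ∈ M)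
    (y : Fin k → Eu m) (hy : ∀ i, lin C (y i) = rv (x i)) {a B : ℝ} (ha : a ≤ k)
    (hB : Real.sqrt (gd y) * ((colL C).relIndex Λ : ℝ) ≤ B) : Dense (M.comap (lin C)) a B := by
  intro u hu
  have h := pts_lower C hC Λ hΛ M x hx hxm y hy (u := 2 * u) (by linarith)
  rw [mul_div_cancel_left₀ u two_ne_zero,
    show 2 * Real.sqrt m * (2 * u) = 4 * Real.sqrt m * u by ring] at h
  calc u ^ a ≤ u ^ (k : ℝ) := Real.rpow_le_rpow_of_exponent_le hu ha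
    _ = u ^ k := Real.rpow_natCast u k
    _ ≤ _ := h
    _ ≤ _ := mul_le_mul_of_nonneg_right hB (Nat.cast_nonneg _)

theorem KKD_bv {m : ℕ} (b : Fin m → Bool) : ‖rv (bv b)‖ ^ 2 ≤ m := by
  rw [norm_rv_sq]
  refine (sum_le_card_nsmul _ _ 1 fun i _ => ?_).trans (by simp)
  unfold bv bz
  split_ifs <;> simp

theorem KKD_mat {m : ℕ} (ω : Om m) (i j : Fin m) : |mat ω i j| ≤ 1 := by
  unfold mat bz
  split_ifs <;> simp

theorem KKD_sqrt {g N B : ℝ} (hg : 0 ≤ g) (hB : 0 ≤ B) (h : N ^ 2 * g ≤ B ^ 2) :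
    Real.sqrt g * N ≤ B :=
  (le_abs_self _).trans (abs_le_of_sq_le_sq' (by rwa [sq_abs, mul_pow, Real.sq_sqrt hg, mul_comm])
    hB).2

/-- The map `x ↦ (x, ψ x)`. -/
noncomputable def KKD_gr {m : ℕ} (ψ : Eu m →ₗ[ℝ] Eu m) : Eu m →ₗ[ℝ] WithLp 2 (Eu m × Eu m) :=
  (WithLp.linearEquiv 2 ℝ (Eu m × Eu m)).symm.toLinearMap ∘ₗ LinearMap.id.prod ψ

theorem KKD_gr_norm {m : ℕ} (ψ : Eu m →ₗ[ℝ] Eu m) (x : Eu m) :
    ‖KKD_gr ψ x‖ ^ 2 = ‖x‖ ^ 2 + ‖ψ x‖ ^ 2 := WithLp.prod_norm_sq_eq_of_L2 _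

/-- Deterministic part. Let `ψ` be the inverse of `lin C` (`lin_injective`, `LinearEquiv.ofInjectiveEndo`).
Case `RichE`: `E = Eu m`, `φ = id`, `T = {b | bv b ∈ Λ}`; `k ≤ r' ≤ m/2`; `relIndex * Λ.index = |det|`
(`AddSubgroup.relIndex_mul_index`, `index_colL`), `gd_inv_le`; so
`√(gd y) * relIndex ≤ (2m)^(m/2) m^(η m/4)/m^(η m) ≤ m^((1/2 - η/2) m)`.
Case `RichG`: `E = WithLp 2 (Eu m × Eu m)`, `φ x = (x, ψ x)`, `Λ = ⊤`; `gd y ≤ gd (φ x)` by `gd_mono`,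
`relIndex = |det| ≤ m^(m/4)`. -/
theorem kp_det {κ η θ ε' : ℝ} (hκ : 0 < κ) (hη : 0 < η) (hη1 : η ≤ 1 / 4) (hθ : 0 < θ)
    (hε' : 0 < ε') : ∀ᶠ m : ℕ in atTop, ∀ r' : ℕ, (r' : ℝ) ≤ κ * m / 8 → 2 * r' ≤ m →
      ∃ 𝓜 : Finset (Submodule ℝ (Eu m)), (𝓜.card : ℝ) ≤ 2 ^ (ε' * (m : ℝ) ^ 2) ∧
        (∀ M ∈ 𝓜, Module.finrank ℝ M = r') ∧
        ∀ ω : Om m, (mat ω).det ≠ 0 → (RichE κ η (mat ω) ∨ RichG κ (mat ω)) →
          ∃ M ∈ 𝓜, Dense (M.comap (lin (mat ω))) (r' - θ * m) ((m : ℝ) ^ ((1 / 2 - η / 2) * m)) := by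
  classical
  filter_upwards [structure_lemma hκ hθ (half_pos hη) hε', KSL_ev (b := 2) (half_pos hη),
    eventually_ge_atTop 1] with m hsl h2 hm r' hr hr2
  obtain ⟨𝓜, hc, hf, hM⟩ := hsl r' hr
  refine ⟨𝓜, hc, hf, fun ω hC hR => ?_⟩
  have hm1 : (1 : ℝ) ≤ m := by exact_mod_cast hm
  have hm0 : (0 : ℝ) < m := by linarith
  set ψ : Eu m →ₗ[ℝ] Eu m :=
    (LinearEquiv.ofInjectiveEndo _ (lin_injective _ hC)).symm.toLinearMap with hψ
  have hψ1 : ∀ v, lin (mat ω) (ψ v) = v := fun v =>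
    (LinearEquiv.ofInjectiveEndo _ (lin_injective _ hC)).apply_symm_apply v
  have hdet : (((colL (mat ω)).index : ℕ) : ℝ) = |((mat ω).det : ℝ)| := by
    rw [index_colL _ hC, Nat.cast_natAbs, Int.cast_abs]
  have hsq : ((m : ℝ) ^ ((1 / 2 - η / 2) * m)) ^ 2 = (m : ℝ) ^ ((1 - η) * m) := by
    rw [pow_two, ← Real.rpow_add hm0]; congr 1; ring
  rcases hR with ⟨Λ, hΛ, hi, hT⟩ | ⟨hd, hT⟩
  · obtain ⟨M, hM𝓜, k, x, hx, hxm, hk, hg⟩ := hM (Eu m) (by simp; omega) LinearMap.id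
      (fun _ => le_rfl) Λ (univ.filter fun b => bv b ∈ Λ)
      (fun b hb => ⟨(mem_filter.1 hb).2, (KKD_bv b).trans (by linarith)⟩) (by rwa [← cnt_eq])
    have hle : colL (mat ω) ≤ Λ := by rintro _ ⟨z, rfl⟩; exact hΛ z
    refine ⟨M, hM𝓜, dense_of _ hC Λ hle M x hx hxm (fun i => ψ (rv (x i))) (fun i => hψ1 _)
      (by linarith) (KKD_sqrt (gd_nonneg _) (by positivity) ?_)⟩
    have hkr : k ≤ r' := by
      rw [← hx.finrank_sp, ← hf M hM𝓜]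
      exact Submodule.finrank_mono (Submodule.span_le.2 (by rintro _ ⟨i, rfl⟩; exact (hxm i).2))
    have h1 := gd_inv_le hm (by omega : 2 * k ≤ m) _ (KKD_mat ω) fun i => ψ (rv (x i))
    simp only [hψ1] at h1
    have h3 : ((colL (mat ω)).relIndex Λ : ℝ) * Λ.index = |((mat ω).det : ℝ)| := by
      rw [← hdet, ← AddSubgroup.relIndex_mul_index hle, Nat.cast_mul]
    have h4 : (2 * m : ℝ) ^ m ≤ (m : ℝ) ^ ((1 + η / 2) * m) := by
      rw [Real.rpow_mul hm0.le, Real.rpow_natCast, Real.rpow_add hm0, Real.rpow_one]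
      exact pow_le_pow_left₀ (by positivity) (by nlinarith) _
    have h5 : ((m : ℝ) ^ (η * m)) ^ 2 ≤ (Λ.index : ℝ) ^ 2 := pow_le_pow_left₀ (by positivity) hi _
    have h6 : 0 ≤ ((colL (mat ω)).relIndex Λ : ℝ) ^ 2 * gd fun i => ψ (rv (x i)) :=
      mul_nonneg (sq_nonneg _) (gd_nonneg _)
    refine le_of_mul_le_mul_right (a := ((m : ℝ) ^ (η * m)) ^ 2) ?_ (by positivity)
    calc _ ≤ (((colL (mat ω)).relIndex Λ : ℝ) ^ 2 * gd fun i => ψ (rv (x i))) *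
          (Λ.index : ℝ) ^ 2 := mul_le_mul_of_nonneg_left h5 h6
      _ = ((mat ω).det : ℝ) ^ 2 * gd fun i => ψ (rv (x i)) := by
          rw [← sq_abs ((mat ω).det : ℝ), ← h3]; ring
      _ ≤ (m : ℝ) ^ ((1 + η / 2) * m) * (m : ℝ) ^ (η / 2 * m) :=
          h1.trans (mul_le_mul h4 hg (gd_nonneg _) (by positivity))
      _ = _ := by
          rw [hsq, pow_two, ← Real.rpow_add hm0, ← Real.rpow_add hm0, ← Real.rpow_add hm0]
          congr 1; ring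
  · have hE : Module.finrank ℝ (WithLp 2 (Eu m × Eu m)) ≤ 2 * m := by
      rw [(WithLp.linearEquiv 2 ℝ (Eu m × Eu m)).finrank_eq, Module.finrank_prod]
      simp; omega
    obtain ⟨M, hM𝓜, k, x, hx, hxm, hk, hg⟩ := hM _ hE (KKD_gr ψ)
      (fun v => abs_le_of_sq_le_sq' (by rw [KKD_gr_norm]; nlinarith [sq_nonneg ‖ψ v‖])
        (norm_nonneg _) |>.2) ⊤ (univ.filter fun b => ∃ y : Fin m → ℝ,
        (∀ i, |y i| ≤ 1) ∧ ∀ i, ∑ j, (mat ω i j : ℝ) * y j = (bv b i : ℝ))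
      (fun b hb => ⟨trivial, by
        obtain ⟨y, hy1, hy2⟩ := (mem_filter.1 hb).2
        have e : ψ (rv (bv b)) = WithLp.toLp 2 y := lin_injective _ hC (by
          rw [hψ1]; ext i; rw [lin_apply]; exact (hy2 i).symm)
        have h1 : ‖(WithLp.toLp 2 y : Eu m)‖ ^ 2 ≤ m := by
          rw [EuclideanSpace.real_norm_sq_eq]
          refine (sum_le_card_nsmul _ _ 1 fun i _ => ?_).trans (by simp)
          exact (sq_le_one_iff_abs_le_one _).2 (hy1 i)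
        rw [KKD_gr_norm, e]
        linarith [KKD_bv b]⟩) (by rwa [← cnt_eq])
    refine ⟨M, hM𝓜, dense_of _ hC ⊤ le_top M x hx hxm (fun i => ψ (rv (x i))) (fun i => hψ1 _)
      (by linarith) (KKD_sqrt (gd_nonneg _) (by positivity) ?_)⟩
    have h1 : (gd fun i => ψ (rv (x i))) ≤ gd fun i => KKD_gr ψ (rv (x i)) :=
      gd_mono _ _ fun w => by
        simp only [← map_smul, ← map_sum]
        exact (abs_le_of_sq_le_sq' (by rw [KKD_gr_norm]; exact le_add_of_nonneg_left (sq_nonneg _))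
          (norm_nonneg _)).2
    rw [AddSubgroup.relIndex_top_right, hdet, hsq]
    calc _ ≤ ((m : ℝ) ^ ((m : ℝ) / 4)) ^ 2 * (m : ℝ) ^ (η / 2 * m) :=
          mul_le_mul (pow_le_pow_left₀ (abs_nonneg _) hd _) (h1.trans hg) (gd_nonneg _)
            (by positivity)
      _ = (m : ℝ) ^ ((1 / 2 + η / 2) * m) := by
          rw [pow_two, ← Real.rpow_add hm0, ← Real.rpow_add hm0]; congr 1; ring
      _ ≤ _ := Real.rpow_le_rpow_of_exponent_le hm1 (by nlinarith)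

end Vale.Agent.P160
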