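import Vale.Agent.P160.KDefs

open Finset Filter
open scoped RealInnerProductSpace

namespace Vale.Agent.P160

open Vale.Agent.RM

theorem KLab_mean {m L : ℕ} (c : Fin L) :
    ∑ ω : Fin m → Fin L, (L : ℝ) / (8 * m) * (univ.filter fun i => ω i = c).card
      ≤ (L : ℝ) ^ m / 8 := by
  rcases m with _ | m
  · simp
  have h : ∑ ω : Fin (m + 1) → Fin L, (univ.filter fun i => ω i = c).card = (m + 1) * L ^ m := by
    simp only [card_filter]
    rw [sum_comm, sum_congr rfl (g := fun _ => L ^ m) fun i _ => ?_]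
    · simp
    · have := Fintype.card_filter_piFinset_const_eq_of_mem univ i (mem_univ c)
      rw [Fintype.piFinset_univ] at this
      simpa [← card_filter] using this
  rw [← mul_sum, ← Nat.cast_sum, h]
  refine le_of_eq ?_
  push_cast
  field_simp
  ring

theorem KLab_exp {m L : ℕ} (c : Fin L) (S : Finset (Fin m)) :
    ∑ ω : Fin m → Fin L, (1 / 2 : ℝ) ^ (S ∩ univ.filter fun i => ω i = c).card
      ≤ (L : ℝ) ^ m * Real.exp (-(S.card / (2 * L))) := by
  have hL : (0 : ℝ) < L := Nat.cast_pos.2 c.pos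
  have h1 : ∀ ω : Fin m → Fin L, (1 / 2 : ℝ) ^ (S ∩ univ.filter fun i => ω i = c).card =
      ∏ i, if i ∈ S ∧ ω i = c then (1 / 2 : ℝ) else 1 := by
    intro ω
    rw [← prod_filter, prod_const]
    refine congrArg _ (congrArg _ (Finset.ext fun i => ?_))
    simp
  have h2 : (L : ℝ) ^ m * Real.exp (-(S.card / (2 * L))) =
      ∏ i : Fin m, (L * if i ∈ S then Real.exp (-(1 / (2 * L))) else 1) := by
    rw [prod_mul_distrib, prod_const, card_univ, Fintype.card_fin, ← prod_filter, prod_const,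
      ← Real.exp_nat_mul, filter_mem_eq_inter, univ_inter]
    ring_nf
  rw [sum_congr rfl fun ω _ => h1 ω, h2, ← Fintype.piFinset_univ,
    ← prod_univ_sum (fun _ => univ) fun i x => if i ∈ S ∧ x = c then (1 / 2 : ℝ) else 1]
  refine prod_le_prod (fun i _ => sum_nonneg fun _ _ => by split_ifs <;> norm_num) fun i _ => ?_
  by_cases hi : i ∈ S
  · have e : ∀ x : Fin L, (if i ∈ S ∧ x = c then (1 / 2 : ℝ) else 1) =
        1 - if x = c then 1 / 2 else 0 := by
      intro x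
      by_cases hx : x = c <;> norm_num [hi, hx]
    rw [sum_congr rfl fun x _ => e x, sum_sub_distrib, if_pos hi]
    simp only [sum_const, card_univ, Fintype.card_fin, nsmul_eq_mul, mul_one, sum_ite_eq', mem_univ,
      if_true]
    refine le_trans (le_of_eq ?_) (mul_le_mul_of_nonneg_left (Real.add_one_le_exp _) hL.le)
    field_simp
    ring
  · simp [hi]

/-- Random labels `ω : Fin m → Fin L`, `I₁ = ω⁻¹ 0`, `I₂ = ω⁻¹ 1`. Markov: `P(#I > 8m/L) ≤ 1/8`.
Chernoff: `E 2^(-#(S ∩ I)) = (1 - 1/(2L))^#S ≤ exp (-r/(2L))` (`Finset.prod_univ_sum`), so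
`P(#(S ∩ I) < r/(2L)) ≤ exp (-(1 - log 2) r/(2L)) ≤ exp (-r/(8L))`. The failure probability is at most
`1/4 + 2 #𝒮 exp (-r/(8L)) ≤ 3/4`. -/
theorem labels {m L : ℕ} (hL : 2 ≤ L) (𝒮 : Finset (Finset (Fin m))) {r : ℝ}
    (hS : ∀ S ∈ 𝒮, r ≤ S.card) (h : 4 * (𝒮.card : ℝ) * Real.exp (-(r / (8 * L))) ≤ 1) :
    ∃ I₁ I₂ : Finset (Fin m), Disjoint I₁ I₂ ∧ (I₁.card : ℝ) ≤ 8 * m / L ∧
      (I₂.card : ℝ) ≤ 8 * m / L ∧
      ∀ S ∈ 𝒮, r / (2 * L) ≤ (S ∩ I₁).card ∧ r / (2 * L) ≤ (S ∩ I₂).card := by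
  have hL0 : (0 : ℝ) < L := Nat.cast_pos.2 (by omega)
  rcases le_or_gt r 0 with hr | hr
  · have : r / (2 * L) ≤ 0 := div_nonpos_of_nonpos_of_nonneg hr (by positivity)
    refine ⟨∅, ∅, disjoint_empty_left _, ?_, ?_, fun S _ => ?_⟩
    · rw [card_empty, Nat.cast_zero]
      positivity
    · rw [card_empty, Nat.cast_zero]
      positivity
    · exact ⟨this.trans (Nat.cast_nonneg _), this.trans (Nat.cast_nonneg _)⟩
  set x := r / (2 * L) with hx
  let I : Fin L → (Fin m → Fin L) → Finset (Fin m) := fun c ω => univ.filter fun i => ω i = c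
  let Φ : Fin L → (Fin m → Fin L) → ℝ := fun c ω =>
    (L : ℝ) / (8 * m) * (I c ω).card + ∑ S ∈ 𝒮, 2 ^ x * (1 / 2 : ℝ) ^ (S ∩ I c ω).card
  have h1 : ∀ c, ∑ ω, Φ c ω ≤ (L : ℝ) ^ m * (3 / 8) := by
    intro c
    have k : ∀ S ∈ 𝒮, ∑ ω, 2 ^ x * (1 / 2 : ℝ) ^ (S ∩ I c ω).card ≤
        (L : ℝ) ^ m * Real.exp (-(r / (8 * L))) := by
      intro S hS'
      rw [← mul_sum]
      refine (mul_le_mul_of_nonneg_left (KLab_exp c S) (by positivity)).trans ?_
      rw [mul_left_comm, Real.rpow_def_of_pos two_pos, ← Real.exp_add]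
      refine mul_le_mul_of_nonneg_left (Real.exp_le_exp.2 ?_) (by positivity)
      have k1 : x ≤ S.card / (2 * L) := div_le_div_of_nonneg_right (hS S hS') (by positivity)
      have k2 : r / (8 * L) = x / 4 := by rw [hx]; field_simp; ring
      have k3 : 0 < x := by positivity
      nlinarith [Real.log_two_lt_d9]
    rw [sum_add_distrib, sum_comm]
    have k' := sum_le_card_nsmul _ _ _ k
    rw [nsmul_eq_mul] at k'
    have := KLab_mean (m := m) c
    have k0 : (0 : ℝ) < (L : ℝ) ^ m := by positivity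
    nlinarith
  have h2 : ∀ c ω, 0 ≤ Φ c ω := fun c ω => by positivity
  have h3 : ∀ c ω, Φ c ω < 1 → ((I c ω).card : ℝ) ≤ 8 * m / L ∧ ∀ S ∈ 𝒮, x ≤ (S ∩ I c ω).card := by
    intro c ω k
    refine ⟨?_, fun S hS' => ?_⟩
    · have k1 : (L : ℝ) / (8 * m) * (I c ω).card < 1 :=
        (le_add_of_nonneg_right (by positivity)).trans_lt k
      rcases m.eq_zero_or_pos with rfl | hm
      · simp [I]
      rw [div_mul_eq_mul_div, div_lt_one (by positivity)] at k1
      rw [le_div_iff₀ hL0]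
      linarith
    · have k1 : 2 ^ x * (1 / 2 : ℝ) ^ (S ∩ I c ω).card < 1 := lt_of_le_of_lt
        (le_add_of_nonneg_of_le (by positivity) (single_le_sum
          (f := fun S => 2 ^ x * (1 / 2 : ℝ) ^ (S ∩ I c ω).card) (fun _ _ => by positivity) hS')) k
      rw [one_div_pow, mul_one_div, div_lt_one (by positivity), ← Real.rpow_natCast,
        Real.rpow_lt_rpow_left_iff one_lt_two] at k1
      exact k1.le
  obtain ⟨ω, -, hω⟩ := exists_lt_of_sum_lt (s := univ)
    (f := fun ω => Φ ⟨0, by omega⟩ ω + Φ ⟨1, by omega⟩ ω) (g := fun _ => (1 : ℝ)) (by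
      rw [sum_add_distrib, sum_const, card_univ, Fintype.card_fun, Fintype.card_fin,
        Fintype.card_fin, nsmul_eq_mul, Nat.cast_pow]
      have k0 : (0 : ℝ) < (L : ℝ) ^ m := by positivity
      linarith [h1 ⟨0, by omega⟩, h1 ⟨1, by omega⟩])
  have h4 := h3 _ ω ((le_add_of_nonneg_right (h2 _ ω)).trans_lt hω)
  have h5 := h3 _ ω ((le_add_of_nonneg_left (h2 _ ω)).trans_lt hω)
  refine ⟨_, _, disjoint_filter.2 fun i _ k k' => ?_, h4.1, h5.1, fun S k => ⟨h4.2 S k, h5.2 S k⟩⟩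
  simpa using k.symm.trans k'

end Vale.Agent.P160
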