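import Vale.Agent.P160.KTp
import Vale.Agent.P160.KConc
import Vale.Agent.P160.KCnt1

open Finset Filter
open scoped RealInnerProductSpace

namespace Vale.Agent.P160

open Vale.Agent.RM

open Classical in
theorem KMB_markov {α ι : Type} [Fintype α] (G : Finset ι) (p : ι → α → Prop) (f : α → ℕ)
    (hf : ∀ a, f a ≤ (G.filter fun i => p i a).card) {N : ℝ} (hN : 0 < N) :
    pr (fun a => N ≤ f a) ≤ (∑ i ∈ G, pr (p i)) / N := by
  unfold pr
  rw [← Finset.sum_div, div_right_comm]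
  refine div_le_div_of_nonneg_right ((le_div_iff₀ hN).2 ?_) (Nat.cast_nonneg _)
  simp only [cnt_eq]
  calc _ = ∑ _a ∈ univ.filter fun a => N ≤ f a, N := by rw [sum_const, nsmul_eq_mul]
    _ ≤ ∑ a ∈ univ.filter fun a => N ≤ f a, ((G.filter fun i => p i a).card : ℝ) :=
        sum_le_sum fun a ha => (mem_filter.1 ha).2.trans (Nat.cast_le.2 (hf a))
    _ ≤ ∑ a, ((G.filter fun i => p i a).card : ℝ) :=
        sum_le_sum_of_subset_of_nonneg (filter_subset _ _) fun _ _ _ => Nat.cast_nonneg _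
    _ = _ := by
        simp only [card_filter, Nat.cast_sum]
        exact sum_comm

/-- First moment bound, explicit form: the expectation of the number of tuples of `goodT ⊤ R k I₁ I₂ ρ` mapped into
`M` is at most `np ⊤ R^k * ρ^(m - #I - r')` (`conc_le`, `tuple_prob`, `np_le`); Markov. Note
`goodT (M.comap (lin C)) ..` is the set of tuples of `goodT ⊤ ..` mapped into `M`. -/
theorem markov_goodT {m k r' : ℕ} (hm : 1 ≤ m) (M : Submodule ℝ (Eu m))
    (hM : Module.finrank ℝ M ≤ r') {I₁ I₂ : Finset (Fin m)} (hI : Disjoint I₁ I₂) {R ρ N : ℝ}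
    (hR : Real.sqrt m ≤ R) (hρ : 0 ≤ ρ) (hρ1 : ρ ≤ 1) (hN : 0 < N) :
    pr (fun ω : Om m => N ≤ (goodT (M.comap (lin (mat ω))) R k I₁ I₂ ρ).card) ≤
      (17 * R / Real.sqrt m) ^ (m * k) * ρ ^ (m - (I₁ ∪ I₂).card - r') / N := by
  classical
  refine (KMB_markov (goodT ⊤ R k I₁ I₂ ρ) (fun z ω => ∀ i, lin (mat ω) (rv (z i)) ∈ M) _
    (fun ω => card_le_card fun z hz => ?_) hN).trans (div_le_div_of_nonneg_right ?_ hN.le)
  · simp only [goodT, mem_filter, Fintype.mem_piFinset, mem_ipts] at hz ⊢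
    exact ⟨⟨fun i => ⟨(hz.1 i).1, trivial⟩, hz.2⟩, fun i => (hz.1 i).2⟩
  · refine (sum_le_card_nsmul _ _ _ fun z hz => tuple_prob M hM _ z hρ hρ1
      (conc_le hI z (mem_filter.1 hz).2.1 (mem_filter.1 hz).2.2)).trans ?_
    rw [nsmul_eq_mul, pow_mul]
    refine mul_le_mul_of_nonneg_right (le_trans ?_
      (pow_le_pow_left₀ (Nat.cast_nonneg _) (np_le hm ⊤ hR) k)) (pow_nonneg hρ _)
    have : (goodT ⊤ R k I₁ I₂ ρ).card ≤ _ := card_filter_le _ _
    rw [Fintype.card_piFinset, prod_const, card_univ, Fintype.card_fin] at this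
    exact (Nat.cast_le.2 this).trans_eq (Nat.cast_pow _ _)

end Vale.Agent.P160
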