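import Vale.Agent.P160.KGrow

open Finset Filter
open scoped RealInnerProductSpace

namespace Vale.Agent.P160

open Vale.Agent.RM

theorem KPb_sum {c : ℝ} (hc : 0 < c) (n : ℕ) :
    ∑ s ∈ Icc (-(n : ℤ)) n, Real.exp (-(8 * c ^ 2 * (s : ℝ) ^ 2)) ≤
      1 + 2 / c * (1 - 1 / (1 + 2 * c * n)) := by
  induction n with
  | zero => simp
  | succ n ih =>
    have hn : (0 : ℝ) ≤ n := Nat.cast_nonneg n
    rw [Nat.cast_add, Nat.cast_one, Finset.Icc_succ_succ, sum_union (by simp),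
      sum_pair (by omega)]
    push_cast
    rw [neg_sq]
    have h1 : Real.exp (-(8 * c ^ 2 * ((n : ℝ) + 1) ^ 2)) ≤
        2 / ((1 + 2 * c * n) * (1 + 2 * c * (n + 1))) := by
      rw [Real.exp_neg, inv_eq_one_div, div_le_div_iff₀ (Real.exp_pos _) (by positivity)]
      have h2 := Real.add_one_le_exp (8 * c ^ 2 * ((n : ℝ) + 1) ^ 2)
      have h3 : (1 + 2 * c * n) ≤ 1 + 2 * c * (n + 1) := by nlinarith
      have h4 : (1 + 2 * c * n) * (1 + 2 * c * (n + 1)) ≤ (1 + 2 * c * (n + 1)) ^ 2 := by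
        rw [pow_two]; gcongr
      nlinarith [sq_nonneg (1 - 2 * c * (n + 1)), sq_nonneg (c * (n + 1))]
    have e : 2 / c * (1 - 1 / (1 + 2 * c * (n + 1))) = 2 / c * (1 - 1 / (1 + 2 * c * n)) +
        2 * (2 / ((1 + 2 * c * n) * (1 + 2 * c * (n + 1)))) := by
      field_simp
      ring
    rw [e]
    linarith

theorem KPb_norm {p θ : ℝ} (h0 : 0 ≤ p) (h1 : p ≤ 1) (hθ : |θ| ≤ Real.pi) :
    ‖(p : ℂ) * Complex.exp (θ * Complex.I) + (1 - p : ℝ)‖ ≤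
      Real.exp (-(p * (1 - p) * (2 / Real.pi ^ 2 * θ ^ 2))) := by
  refine (pow_le_pow_iff_left₀ (norm_nonneg _) (Real.exp_pos _).le two_ne_zero).1 ?_
  have e : ‖(p : ℂ) * Complex.exp (θ * Complex.I) + (1 - p : ℝ)‖ ^ 2 =
      1 - 2 * (p * (1 - p)) * (1 - Real.cos θ) := by
    rw [Complex.sq_norm, Complex.normSq_apply]
    simp only [Complex.add_re, Complex.add_im, Complex.re_ofReal_mul, Complex.im_ofReal_mul,
      Complex.exp_ofReal_mul_I_re, Complex.exp_ofReal_mul_I_im, Complex.ofReal_re,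
      Complex.ofReal_im]
    linear_combination p ^ 2 * Real.cos_sq_add_sin_sq θ
  rw [e, ← Real.exp_nat_mul]
  have h2 := Real.cos_le_one_sub_mul_cos_sq hθ
  have h3 := Real.add_one_le_exp (((2 : ℕ) : ℝ) * -(p * (1 - p) * (2 / Real.pi ^ 2 * θ ^ 2)))
  have h4 : 0 ≤ p * (1 - p) := mul_nonneg h0 (sub_nonneg.2 h1)
  push_cast at h3 ⊢
  nlinarith

theorem KPb_prod {J : ℕ} (p : Fin J → ℝ) (z : ℂ) :
    ∑ ξ : Fin J → Bool, (pbw p ξ : ℂ) * ∏ i, (if ξ i then z else 1) =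
      ∏ i, ((p i : ℂ) * z + (1 - p i : ℝ)) := by
  have := Fintype.prod_sum
    (fun (i : Fin J) (c : Bool) => ((if c then p i else 1 - p i : ℝ) : ℂ) * if c then z else 1)
  simp only [Fintype.sum_bool, if_true, Bool.false_eq_true, if_false, mul_one] at this
  rw [this]
  refine sum_congr rfl fun ξ _ => ?_
  rw [pbw, Complex.ofReal_prod, prod_mul_distrib]

theorem KPb_char {A ι : Type} [AddCommMonoid A] (ψ : AddChar A ℂ) (s : Finset ι) (f : ι → A) :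
    ψ (∑ i ∈ s, f i) = ∏ i ∈ s, ψ (f i) := by
  classical
  induction s using Finset.induction_on with
  | empty => simp
  | insert a s ha ih => rw [sum_insert ha, prod_insert ha, AddChar.map_add_eq_mul, ih]

/-- Anticoncentration of a sum of independent bits modulo `P`. With `e(x) = exp (2 π i x)`:
the left side is `(1/P) ∑_{t < P} e(-a t/P) ∏ (1 - p i + p i e(t/P))`;
`|1 - p + p e(θ)|^2 = 1 - 2 p (1-p) (1 - cos 2πθ) ≤ exp (-2 p (1-p) (1 - cos 2πθ))`;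
`1 - cos x ≥ 2 x^2/π^2` for `|x| ≤ π` (`Real.cos_le_one_sub_mul_cos_sq` or
`Real.cos_quadratic_upper_bound`), so the term `t` is at most `exp (-8 v t'^2/P^2)`, `t' = min t (P - t)`.
Finally `∑_{t ≥ 1} exp (-t^2/u^2) ≤ exp (1/4) ∑ exp (-t/u) ≤ exp (1/4) u` with `u = P/√(8 v)`. -/
theorem pb_mod {J : ℕ} (p : Fin J → ℝ) (hp : ∀ i, 0 ≤ p i ∧ p i ≤ 1) {v : ℝ} (hv : 0 < v)
    (hpv : v ≤ ∑ i, p i * (1 - p i)) {P : ℕ} (hP : 1 ≤ P) (a : ℤ) :
    ∑ ξ, pbw p ξ * (if (P : ℤ) ∣ ∑ i, bz (ξ i) - a then 1 else 0) ≤ 1 / P + 2 / Real.sqrt v := by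
  classical
  have : NeZero P := ⟨by omega⟩
  have hP0 : (0 : ℝ) < P := by exact_mod_cast hP
  set ψ : AddChar (ZMod P) ℂ := ZMod.stdAddChar with hψ
  have key : ∀ n : ℤ, (P : ℂ) * ((if (P : ℤ) ∣ n then 1 else 0 : ℝ) : ℂ) =
      ∑ t : ZMod P, ψ (t * (n : ZMod P)) := fun n => by
    rw [AddChar.sum_mulShift _ (ZMod.isPrimitive_stdAddChar P)]
    simp only [ZMod.intCast_zmod_eq_zero_iff_dvd]
    split_ifs <;> simp
  have e1 : ∀ (t : ZMod P) (ξ : Fin J → Bool), ψ (t * ((∑ i, bz (ξ i) - a : ℤ) : ZMod P)) =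
      ψ (-(t * a)) * ∏ i, (if ξ i then ψ t else 1) := fun t ξ => by
    push_cast
    rw [mul_sub, sub_eq_neg_add, AddChar.map_add_eq_mul, mul_sum, KPb_char]
    congr 1
    refine prod_congr rfl fun i _ => ?_
    cases ξ i <;> simp [bz]
  have e2 : (P : ℂ) * ((∑ ξ, pbw p ξ * (if (P : ℤ) ∣ ∑ i, bz (ξ i) - a then 1 else 0) : ℝ) : ℂ) =
      ∑ t : ZMod P, ψ (-(t * a)) * ∏ i, ((p i : ℂ) * ψ t + (1 - p i : ℝ)) := by
    rw [Complex.ofReal_sum, mul_sum]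
    simp only [Complex.ofReal_mul, mul_left_comm (P : ℂ), key, e1, mul_sum]
    rw [sum_comm]
    refine sum_congr rfl fun t _ => ?_
    rw [← KPb_prod, mul_sum]
    exact sum_congr rfl fun ξ _ => by ring
  set c : ℝ := √v / P with hc
  have hs : 0 < √v := Real.sqrt_pos.2 hv
  have c0 : 0 < c := by positivity
  have e3 : ∀ t : ZMod P, ‖ψ (-(t * a)) * ∏ i, ((p i : ℂ) * ψ t + (1 - p i : ℝ))‖ ≤
      Real.exp (-(8 * c ^ 2 * (t.valMinAbs : ℝ) ^ 2)) := fun t => by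
    have h1 : ψ t = Complex.exp ((2 * Real.pi * t.valMinAbs / P : ℝ) * Complex.I) := by
      conv_lhs => rw [← ZMod.coe_valMinAbs t, hψ, ZMod.stdAddChar_coe]
      congr 1
      push_cast
      ring
    have h2 : |2 * Real.pi * t.valMinAbs / P| ≤ Real.pi := by
      have h := ZMod.valMinAbs_mem_Ioc t
      have h3 : (-(P : ℝ)) ≤ t.valMinAbs * 2 := by exact_mod_cast h.1.le
      have h4 : (t.valMinAbs : ℝ) * 2 ≤ P := by exact_mod_cast h.2
      rw [abs_le, le_div_iff₀ hP0, div_le_iff₀ hP0]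
      constructor <;> nlinarith [Real.pi_pos]
    rw [norm_mul, hψ, ZMod.stdAddChar_apply, Circle.norm_coe, one_mul, norm_prod, ← hψ, h1]
    refine (prod_le_prod (fun _ _ => norm_nonneg _) fun i _ =>
      KPb_norm (hp i).1 (hp i).2 h2).trans ?_
    rw [← Real.exp_sum, Real.exp_le_exp, sum_neg_distrib, ← sum_mul, neg_le_neg_iff]
    have e : 8 * c ^ 2 * (t.valMinAbs : ℝ) ^ 2 =
        v * (2 / Real.pi ^ 2 * (2 * Real.pi * t.valMinAbs / P) ^ 2) := by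
      rw [hc, div_pow, Real.sq_sqrt hv.le]
      field_simp
      ring
    rw [e]
    gcongr
  have e4 : ∑ t : ZMod P, Real.exp (-(8 * c ^ 2 * (t.valMinAbs : ℝ) ^ 2)) ≤
      ∑ s ∈ Icc (-(P : ℤ)) P, Real.exp (-(8 * c ^ 2 * (s : ℝ) ^ 2)) := by
    rw [← sum_image (f := fun s : ℤ => Real.exp (-(8 * c ^ 2 * (s : ℝ) ^ 2)))
      ZMod.injective_valMinAbs.injOn]
    refine sum_le_sum_of_subset_of_nonneg ?_ fun _ _ _ => (Real.exp_pos _).le
    intro s hs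
    obtain ⟨t, -, rfl⟩ := mem_image.1 hs
    have h := ZMod.valMinAbs_mem_Ioc t
    rw [Set.mem_Ioc] at h
    rw [mem_Icc]
    omega
  have e5 : (P : ℝ) * ∑ ξ, pbw p ξ * (if (P : ℤ) ∣ ∑ i, bz (ξ i) - a then 1 else 0) ≤
      1 + 2 / c := by
    have h := congrArg norm e2
    rw [norm_mul, Complex.norm_natCast, Complex.norm_real, Real.norm_eq_abs] at h
    have h2 : 2 / c * (1 - 1 / (1 + 2 * c * P)) ≤ 2 / c :=
      mul_le_of_le_one_right (by positivity) (sub_le_self _ (by positivity))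
    calc _ ≤ (P : ℝ) * |∑ ξ, pbw p ξ * (if (P : ℤ) ∣ ∑ i, bz (ξ i) - a then 1 else 0)| := by
          gcongr; exact le_abs_self _
      _ ≤ _ := by
          rw [h]
          refine (norm_sum_le_of_le _ fun t _ => e3 t).trans (e4.trans ((KPb_sum c0 P).trans ?_))
          linarith
  rw [← le_div_iff₀' hP0] at e5
  refine e5.trans_eq ?_
  rw [hc]
  field_simp

/-- `pb_mod` with `P = ⌈√v⌉₊`. -/
theorem pb_point {J : ℕ} (p : Fin J → ℝ) (hp : ∀ i, 0 ≤ p i ∧ p i ≤ 1) {v : ℝ} (hv : 0 < v)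
    (hpv : v ≤ ∑ i, p i * (1 - p i)) (a : ℤ) :
    ∑ ξ, pbw p ξ * (if ∑ i, bz (ξ i) = a then 1 else 0) ≤ 3 / Real.sqrt v := by
  have hs : 0 < √v := Real.sqrt_pos.2 hv
  have h := pb_mod p hp hv hpv (P := ⌈√v⌉₊) (Nat.ceil_pos.2 hs) a
  have h1 : 1 / (⌈√v⌉₊ : ℝ) ≤ 1 / √v := one_div_le_one_div_of_le hs (Nat.le_ceil _)
  have e : 3 / √v = 1 / √v + 2 / √v := by ring
  rw [e]
  refine le_trans (sum_le_sum fun ξ _ => mul_le_mul_of_nonneg_left ?_ (pb_nonneg hp ξ))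
    (h.trans (by linarith))
  split_ifs with h2 h3
  · rfl
  · exact absurd (by simp [h2]) h3
  · exact zero_le_one
  · rfl

end Vale.Agent.P160
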