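import Vale.Agent.P160.KCnt1

open Finset Filter
open scoped RealInnerProductSpace

namespace Vale.Agent.P160

open Vale.Agent.RM

variable {E : Type} [NormedAddCommGroup E] [InnerProductSpace ℝ E] [FiniteDimensional ℝ E]

theorem KRoA_split {M : Type} [AddCommMonoid M] {m : ℕ} (S : Finset (Fin m)) (F : Fin m → M) :
    ∑ l, F l = ∑ i : Fin S.card, F (S.orderEmbOfFin rfl i) + ∑ l : {l // l ∉ S}, F l := by
  have h1 : ∑ l ∈ S, F l = ∑ i : Fin S.card, F (S.orderEmbOfFin rfl i) := by
    conv_lhs => rw [← S.image_orderEmbOfFin_univ rfl]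
    exact Finset.sum_image fun i _ j _ h => (S.orderEmbOfFin rfl).injective h
  rw [← Finset.sum_add_sum_compl S, h1, Finset.sum_subtype Sᶜ (fun _ => Finset.mem_compl)]

/-- Counting the possible sums. Project `Y` to the coordinates outside `S`: at most
`exp (A/J) (6√J)^(m - #S)` values (`card_int_ball` with `s = √J` on the subtype of `l ∉ S`). In each fibre
enumerate `S` by `f = S.orderEmbOfFin rfl` and use `gsu_card` with `s = 1`, `v = u ∘ f` (independent because
`gd > 0`): at most `exp B * 6^#S/√g` points. -/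
theorem ro_count {m J : ℕ} (hJ : 1 ≤ J) (u : Fin m → E) (hu : ∀ l, ‖u l‖ ≤ 1) (S : Finset (Fin m))
    {g : ℝ} (hg : 0 < g) (hS : g ≤ gd (fun i : Fin S.card => u (S.orderEmbOfFin rfl i)))
    (μ : Fin m → ℝ) (c : E) {A B : ℝ} (Y : Finset (Fin m → ℤ))
    (hY : ∀ y ∈ Y, ∑ l, ((y l : ℝ) - μ l) ^ 2 ≤ A ∧ ‖∑ l, (y l : ℝ) • u l - c‖ ^ 2 ≤ B) :
    (Y.card : ℝ) ≤ Real.exp (A / J) * (6 * Real.sqrt J) ^ (m - S.card) *
      (Real.exp B * 6 ^ S.card / Real.sqrt g) := by
  have hJ' : (1 : ℝ) ≤ J := by exact_mod_cast hJ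
  have hli := (gd_pos_iff _).1 (hg.trans_le hS)
  have h1 : ((Y.image fun y (l : {l // l ∉ S}) => y l).card : ℝ) ≤
      Real.exp (A / J) * (6 * Real.sqrt J) ^ (m - S.card) := by
    have h := card_int_ball (Real.one_le_sqrt.2 hJ') (fun l : {l // l ∉ S} => μ l)
      (Y.image fun y (l : {l // l ∉ S}) => y l) (R := A) fun n hn => by
        obtain ⟨y, hy, rfl⟩ := Finset.mem_image.1 hn
        have h2 := (hY y hy).1
        rw [KRoA_split S] at h2
        exact (le_add_of_nonneg_left (Finset.sum_nonneg fun _ _ => sq_nonneg _)).trans h2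
    rwa [Real.sq_sqrt (Nat.cast_nonneg J), Fintype.card_subtype_compl, Fintype.card_fin,
      Fintype.card_coe] at h
  have h2 : ∀ z : {l // l ∉ S} → ℤ,
      ((Y.filter fun y => (fun l : {l // l ∉ S} => y l) = z).card : ℝ) ≤
        Real.exp B * 6 ^ S.card / Real.sqrt g := by
    intro z
    have hinj : Set.InjOn (fun (y : Fin m → ℤ) (i : Fin S.card) => y (S.orderEmbOfFin rfl i))
        (Y.filter fun y => (fun l : {l // l ∉ S} => y l) = z) := by
      intro y hy y' hy' h
      funext l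
      by_cases hl : l ∈ S
      · obtain ⟨i, rfl⟩ : l ∈ Set.range (S.orderEmbOfFin rfl) := by
          rw [Finset.range_orderEmbOfFin]
          exact hl
        exact congrFun h i
      · exact congrFun ((Finset.mem_filter.1 hy).2.trans (Finset.mem_filter.1 hy').2.symm) ⟨l, hl⟩
    have h := gsu_card _ hli one_pos (fun i => hu _) (∑ l : {l // l ∉ S}, (z l : ℝ) • u l - c)
      ((Y.filter fun y => (fun l : {l // l ∉ S} => y l) = z).image
        fun y i => y (S.orderEmbOfFin rfl i)) (R := B) fun n hn => by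
        obtain ⟨y, hy, rfl⟩ := Finset.mem_image.1 hn
        obtain ⟨hy', rfl⟩ := Finset.mem_filter.1 hy
        have h3 := (hY y hy').2
        rwa [KRoA_split S, add_sub_assoc] at h3
    rw [Finset.card_image_of_injOn hinj, one_pow, div_one, mul_one] at h
    rw [mul_div_assoc]
    refine h.trans (mul_le_mul_of_nonneg_left ?_ (Real.exp_pos _).le)
    exact div_le_div_of_nonneg_left (by positivity) (Real.sqrt_pos.2 hg) (Real.sqrt_le_sqrt hS)
  rw [Finset.card_eq_sum_card_image (fun y (l : {l // l ∉ S}) => y l) Y, Nat.cast_sum]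
  refine (Finset.sum_le_card_nsmul _ _ _ fun z _ => h2 z).trans ?_
  rw [nsmul_eq_mul]
  exact mul_le_mul_of_nonneg_right h1 (by positivity)

end Vale.Agent.P160
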