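import Vale.Agent.P160.KDefs

open Finset Filter
open scoped RealInnerProductSpace

namespace Vale.Agent.P160

open Vale.Agent.RM

/-- Greedy stagnation. By induction on `j ≤ k`: either the conclusion holds, or there is `X` with
values in `T`, equal to `b₀` at the positions `≥ j`, and `#Z(X) ≤ γ^j #(box)` (update position `j`).
At `j = k` the second case contradicts `0 ∈ Z(X)`. -/
theorem stagn {m τ k : ℕ} {γ : ℝ} (hγ : 0 < γ) (hk : ((box m τ).card : ℝ) * γ ^ k < 1)
    (T : Finset (Fin m → Bool)) {b₀ : Fin m → Bool} (hb : b₀ ∈ T) :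
    ∃ X : Fin k → Fin m → Bool, (∀ i, X i ∈ T) ∧ ∀ b ∈ T,
      γ * ((box m τ).filter fun z => ∀ i, z ⬝ᵥ (bv (X i) - bv b₀) = 0).card ≤
        (((box m τ).filter fun z => ∀ i, z ⬝ᵥ (bv (X i) - bv b₀) = 0).filter
          fun z => z ⬝ᵥ (bv b - bv b₀) = 0).card := by
  by_contra hc
  push Not at hc
  have key : ∀ j, j ≤ k → ∃ X : Fin k → Fin m → Bool, (∀ i, X i ∈ T) ∧
      (∀ i, j ≤ i.val → X i = b₀) ∧
      (((box m τ).filter fun z => ∀ i, z ⬝ᵥ (bv (X i) - bv b₀) = 0).card : ℝ) ≤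
        (box m τ).card * γ ^ j := by
    intro j
    induction j with
    | zero => exact fun _ => ⟨fun _ => b₀, fun _ => hb, fun _ _ => rfl, by simp⟩
    | succ j ih =>
      intro hj
      obtain ⟨X, h1, h2, h3⟩ := ih (by omega)
      obtain ⟨b, h4, h5⟩ := hc X h1
      refine ⟨Function.update X ⟨j, hj⟩ b, fun i => ?_, fun i hi => ?_, ?_⟩
      · rw [Function.update_apply]
        split_ifs
        exacts [h4, h1 i]
      · rw [Function.update_of_ne (fun h => by rw [h] at hi; simp at hi), h2 i (by omega)]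
      · rw [pow_succ, ← mul_assoc, mul_comm]
        refine le_trans ?_ (h5.le.trans (mul_le_mul_of_nonneg_left h3 hγ.le))
        refine Nat.cast_le.2 (card_le_card fun z hz => ?_)
        simp only [mem_filter] at hz ⊢
        refine ⟨⟨hz.1, fun i => ?_⟩, by simpa using hz.2 ⟨j, hj⟩⟩
        by_cases h : i = ⟨j, hj⟩
        · rw [h2 i (by rw [h]), sub_self, dotProduct_zero]
        · simpa [h] using hz.2 i
  obtain ⟨X, -, -, h⟩ := key k le_rfl
  have h0 : 0 < ((box m τ).filter fun z => ∀ i, z ⬝ᵥ (bv (X i) - bv b₀) = 0).card :=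
    card_pos.2 ⟨0, by simp [mem_box]⟩
  exact (h.trans_lt hk).not_ge (Nat.one_le_cast.2 h0)

theorem card_box (m τ : ℕ) : (box m τ).card = (2 * τ + 1) ^ m := by
  simp only [box, Fintype.card_piFinset, Int.card_Icc, prod_const, card_univ, Fintype.card_fin]
  congr 1
  omega

/-- Dimension of the closure. Combine `perp_lower`, `fourier_ev` and the bound on `gd α`:
if `r < κ m/8` then `(τ/2)^(m - r) ≤ 33^m 24^m √G' (2τ)^((1-κ/6) m)`, i.e.
`τ^(κ m/24) ≤ C^m m^(ε₂ m/2)`, impossible when `τ ≥ m^ε₁/4` and `ε₂ < κ ε₁/12`. -/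
theorem sl_dim {κ ε₁ ε₂ : ℝ} (hκ : 0 < κ) (hε₁ : 0 < ε₁) (hε₂ : 0 < ε₂) (h : ε₂ < κ * ε₁ / 12) :
    ∀ᶠ m : ℕ in atTop, ∀ (τ r : ℕ) (g z : ℝ), (m : ℝ) ^ ε₁ / 4 ≤ τ → 0 ≤ g →
      g ≤ (m : ℝ) ^ (ε₂ * m) → ((τ : ℝ) / 2) ^ (m - r) ≤ 33 ^ m * Real.sqrt g * z →
      z ≤ 24 ^ m * (2 * τ : ℝ) ^ ((1 - κ / 2 / 3) * m) → κ * m / 8 ≤ r := by
  have hl := Real.tendsto_log_atTop.comp tendsto_natCast_atTop_atTop
  filter_upwards [eventually_gt_atTop 0, (hl.const_mul_atTop hε₁).eventually_ge_atTop (Real.log 8),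
    (hl.const_mul_atTop (half_pos (sub_pos.2 h))).eventually_gt_atTop
      (Real.log 33 + Real.log 24 + Real.log 4 + κ / 24 * Real.log 8)]
    with m hm h1 h2 τ r g z h3 h4 h5 h6 h7
  simp only [Function.comp] at h1 h2
  have m0 : (0 : ℝ) < m := Nat.cast_pos.2 hm
  have h8 := Real.rpow_pos_of_pos m0 ε₁
  have t0 : (0 : ℝ) < τ / 2 := by linarith
  have h9 : ε₁ * Real.log m - Real.log 8 ≤ Real.log (τ / 2) := by
    rw [← Real.log_rpow m0, ← Real.log_div h8.ne' (by norm_num)]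
    exact Real.log_le_log (by positivity) (by linarith)
  have g1 : Real.sqrt g ≤ Real.exp (Real.log m * (ε₂ * m) / 2) := by
    rw [Real.exp_half, ← Real.rpow_def_of_pos m0]
    exact Real.sqrt_le_sqrt h5
  have g2 := h6.trans ((mul_le_mul_of_nonneg_left h7 (by positivity)).trans
    (mul_le_mul_of_nonneg_right (mul_le_mul_of_nonneg_left g1 (by positivity)) (by positivity)))
  have g3 := Real.log_le_log (by positivity) g2
  rw [show (2 * τ : ℝ) = 4 * (τ / 2) by ring] at g3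
  simp (disch := positivity) only [Real.log_mul, Real.log_pow, Real.log_exp, Real.log_rpow] at g3
  have g4 : (m : ℝ) - r ≤ (m - r : ℕ) := by
    rw [sub_le_iff_le_add]
    exact_mod_cast le_tsub_add
  have l4 : 0 < Real.log 4 := Real.log_pos (by norm_num)
  refine le_of_not_gt fun g5 => ?_
  have g6 := mul_le_mul_of_nonneg_right (show (1 - κ / 8) * m ≤ (m - r : ℕ) by linarith)
    (show 0 ≤ Real.log (τ / 2) by linarith)
  have g7 := mul_lt_mul_of_pos_left h2 m0
  have g8 := mul_le_mul_of_nonneg_left h9 (mul_pos m0 hκ).le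
  have g9 := mul_pos (mul_pos m0 hκ) l4
  linarith

end Vale.Agent.P160
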