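import Vale.Agent.P160.KClo
import Vale.Agent.P160.KHn
import Vale.Agent.P160.KFourE
import Vale.Agent.P160.KStag

open Finset Filter
open scoped RealInnerProductSpace

namespace Vale.Agent.P160

open Vale.Agent.RM

theorem KSL_ev {a b : ℝ} (ha : 0 < a) : ∀ᶠ m : ℕ in atTop, b ≤ (m : ℝ) ^ a :=
  ((tendsto_rpow_atTop ha).comp tendsto_natCast_atTop_atTop).eventually_ge_atTop b

theorem KSL_ev2 {a b : ℝ} (ha : 0 < a) : ∀ᶠ m : ℕ in atTop, b ≤ a * (m : ℝ) :=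
  (tendsto_natCast_atTop_atTop.const_mul_atTop ha).eventually_ge_atTop b

theorem KSL_fam {m k₁ : ℕ} {μ : ℝ} (hμ : 1 ≤ μ) (r' : ℕ)
    (p : (Fin m → Bool) × (Fin k₁ → Fin m → Bool)) :
    ∃ M : Submodule ℝ (Eu m), ∃ (r : ℕ) (α : Fin r → Fin m → ℤ),
      NearMin μ (fun i => bv (p.2 i) - bv p.1) α ∧ (r' ≤ r →
        ∃ (j : ℕ) (e : Fin j → Fin m → ℤ), Ind e ∧ gd (rf e) = 1 ∧
          Module.finrank ℝ (sp α ⊓ sp e : Submodule ℝ (Eu m)) = r' ∧ M = sp α ⊓ sp e) := by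
  obtain ⟨r, α, hα⟩ := exists_nearMin hμ (fun i => bv (p.2 i) - bv p.1)
  by_cases h : r' ≤ r
  · obtain ⟨j, e, h1, h2, h3⟩ := cut_fam (sp α) (r' := r') (by rw [hα.1.finrank_sp]; exact h)
    exact ⟨_, r, α, hα, fun _ => ⟨j, e, h1, h2, h3, rfl⟩⟩
  · exact ⟨⊥, r, α, hα, fun h' => absurd h' h⟩

/-- Structure lemma. Parameters: `ε₁ = min ε' 1/10`, `τ = ⌊m^ε₁/3⌋₊`, `k₁ = ⌈6 ε₁ m⌉₊`,
`μ = m^ε₃`, `ε₃ = min (ε/8) (κ ε₁/100)`, `ε₀ = min ε₃ (θ ε₃)`. For a tuple `(b₀, X)` (at most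
`2^(m (k₁+1))` of them) let `α` be a chosen `NearMin μ (bv X - bv b₀)`; if `r' ≤ r` let `e` be given by
`cut_fam` and `M = sp α ⊓ sp e`. `𝓜` is the set of these `M` (image of the tuples under a chosen function,
filtered by `finrank = r'`). Given `T`: `hn` with `(ε₀, κ/2)` gives `a`, `T'` with `#T' ≥ 2^(κ m/2)`; pick
`b₀ ∈ T'`; `stagn` with `γ = m^(-1/5)` gives `X`; `fourier_ev` (with `κ/2`), `perp_lower`, `closure_step`,
`sl_dim` (with `ε₂ = 4 ε₃`) give `r' ≤ r`; `closure_step` gives `x`; `zsp a ≤ Λ`. -/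
theorem structure_lemma {κ θ ε ε' : ℝ} (hκ : 0 < κ) (hθ : 0 < θ) (hε : 0 < ε) (hε' : 0 < ε') :
    ∀ᶠ m : ℕ in atTop, ∀ r' : ℕ, (r' : ℝ) ≤ κ * m / 8 →
      ∃ 𝓜 : Finset (Submodule ℝ (Eu m)), (𝓜.card : ℝ) ≤ 2 ^ (ε' * (m : ℝ) ^ 2) ∧
        (∀ M ∈ 𝓜, Module.finrank ℝ M = r') ∧
        ∀ (E : Type) [NormedAddCommGroup E] [InnerProductSpace ℝ E] [FiniteDimensional ℝ E],
          Module.finrank ℝ E ≤ 2 * m → ∀ (φ : Eu m →ₗ[ℝ] E), Expd φ →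
          ∀ (Λ : AddSubgroup (Fin m → ℤ)) (T : Finset (Fin m → Bool)),
            (∀ b ∈ T, bv b ∈ Λ ∧ ‖φ (rv (bv b))‖ ^ 2 ≤ 2 * m) → (2 : ℝ) ^ (κ * m) ≤ T.card →
            ∃ M ∈ 𝓜, ∃ (k : ℕ) (x : Fin k → Fin m → ℤ), Ind x ∧
              (∀ i, x i ∈ Λ ∧ rv (x i) ∈ M) ∧ (r' : ℝ) ≤ k + θ * m ∧
              gd (fun i => φ (rv (x i))) ≤ (m : ℝ) ^ (ε * m) := by
  classical
  set ε₁ : ℝ := min ε' 1 / 10 with hε₁
  have h1p : 0 < ε₁ := by rw [hε₁]; have := lt_min hε' one_pos; linarith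
  have h1a : ε₁ ≤ 1 / 10 := by rw [hε₁]; have := min_le_right ε' 1; linarith
  have h1b : ε₁ ≤ ε' / 10 := by rw [hε₁]; have := min_le_left ε' 1; linarith
  set ε₃ : ℝ := min (ε / 8) (κ * ε₁ / 100) with hε₃
  have h3p : 0 < ε₃ := lt_min (by linarith) (by positivity)
  have h3a : ε₃ ≤ ε / 8 := min_le_left _ _
  have h3b : ε₃ ≤ κ * ε₁ / 100 := min_le_right _ _
  set ε₀ : ℝ := min ε₃ (θ * ε₃) with hε₀
  have h0p : 0 < ε₀ := lt_min h3p (by positivity)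
  have h0a : ε₀ ≤ ε₃ := min_le_left _ _
  have h0b : ε₀ ≤ θ * ε₃ := min_le_right _ _
  have hκε : 0 < κ * ε₁ := by positivity
  filter_upwards [hn h0p (half_pos hκ), fourier_ev (half_pos hκ),
    sl_dim hκ h1p (show 0 < 4 * ε₃ by linarith) (show 4 * ε₃ < κ * ε₁ / 12 by linarith),
    KSL_ev (b := 12) h1p, KSL_ev (b := 4) h0p, KSL_ev2 (b := 5) hε', eventually_ge_atTop 2]
    with m hhn hfo hsl h12 h4 h5 hm2
  intro r' hr'
  have hm1 : (1 : ℝ) < m := by exact_mod_cast hm2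
  have hm0 : (0 : ℝ) < m := by linarith
  set τ : ℕ := ⌊(m : ℝ) ^ ε₁ / 3⌋₊ with hτ
  have hτ1 : (τ : ℝ) ≤ (m : ℝ) ^ ε₁ / 3 := Nat.floor_le (by positivity)
  have hτ2 : (m : ℝ) ^ ε₁ / 3 < τ + 1 := Nat.lt_floor_add_one _
  have hτ3 : (m : ℝ) ^ ε₁ / 4 ≤ τ := by linarith
  have hτ4 : 2 ≤ τ := by
    have : (2 : ℝ) ≤ τ := by linarith
    exact_mod_cast this
  set k₁ : ℕ := ⌈6 * ε₁ * m⌉₊ with hk₁
  have hk1 : 6 * ε₁ * m ≤ k₁ := Nat.le_ceil _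
  have hk2 : (k₁ : ℝ) < 6 * ε₁ * m + 1 := Nat.ceil_lt_add_one (by positivity)
  set μ : ℝ := (m : ℝ) ^ ε₃ with hμ
  have hμ1 : 1 ≤ μ := Real.one_le_rpow hm1.le h3p.le
  have hμp : ∀ n : ℕ, μ ^ n = (m : ℝ) ^ (ε₃ * n) := fun n => by
    rw [hμ, Real.rpow_mul hm0.le, Real.rpow_natCast]
  have h4' : (4 : ℝ) ≤ (m : ℝ) ^ (ε₀ * m) := h4.trans
    (Real.rpow_le_rpow_of_exponent_le hm1.le (by nlinarith))
  have n1 : ε₀ * m ≤ ε₃ * m := mul_le_mul_of_nonneg_right h0a hm0.le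
  have n2 : ε₀ * m ≤ θ * ε₃ * m := mul_le_mul_of_nonneg_right h0b hm0.le
  have n3 : ε₃ * m ≤ ε / 8 * m := mul_le_mul_of_nonneg_right h3a hm0.le
  have n4 : 0 < ε₁ * m := by positivity
  have n5 : 0 < ε * m := by positivity
  have n6 : ε₁ * m ≤ ε' / 10 * m := mul_le_mul_of_nonneg_right h1b hm0.le
  clear_value ε₀ ε₃ ε₁
  choose Mf hMf using KSL_fam (m := m) (k₁ := k₁) hμ1 r'
  refine ⟨(univ.image Mf).filter fun M : Submodule ℝ (Eu m) => Module.finrank ℝ M = r', ?_, fun M hM =>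
    (mem_filter.1 hM).2, ?_⟩
  · have h1 : ((univ.image Mf).filter fun M : Submodule ℝ (Eu m) => Module.finrank ℝ M = r').card ≤
        2 ^ (m * (k₁ + 1)) := by
      refine (card_filter_le _ _).trans (card_image_le.trans (le_of_eq ?_))
      simp only [card_univ, Fintype.card_prod, Fintype.card_pi, Fintype.card_bool, prod_const,
        Fintype.card_fin]
      rw [← pow_mul, ← pow_add]; congr 1; ring
    have h2 : ((2 ^ (m * (k₁ + 1)) : ℕ) : ℝ) ≤ 2 ^ (ε' * (m : ℝ) ^ 2) := by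
      rw [Nat.cast_pow, Nat.cast_ofNat, ← Real.rpow_natCast]
      refine Real.rpow_le_rpow_of_exponent_le one_le_two ?_
      push_cast
      have : (k₁ : ℝ) + 1 ≤ ε' * m := by linarith
      have := mul_le_mul_of_nonneg_left this hm0.le
      linarith
    exact le_trans (by exact_mod_cast h1) h2
  intro E _ _ _ hE φ hφ Λ T hT hTc
  obtain ⟨r₀, a, ha, haΛ, hG, T', hT'T, hT'c, hT's⟩ := hhn E hE φ hφ Λ T hT
  have hT'2 : (2 : ℝ) ^ (κ / 2 * m) ≤ T'.card := by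
    have h1 : (2 : ℝ) ^ (κ * m) = 2 ^ (κ / 2 * m) * 2 ^ (κ / 2 * m) := by
      rw [← Real.rpow_add two_pos]; congr 1; ring
    have h2 : (0 : ℝ) < 2 ^ (κ / 2 * m) := by positivity
    exact le_of_mul_le_mul_left (by rw [← h1]; exact hTc.trans hT'c) h2
  have hne : T'.Nonempty := by
    rw [← card_pos]
    have : (0 : ℝ) < T'.card := lt_of_lt_of_le (by positivity) hT'2
    exact_mod_cast this
  obtain ⟨b₀, hb₀⟩ := hne
  have hbox : ((box m τ).card : ℝ) * ((m : ℝ) ^ (-(1 / 5) : ℝ)) ^ k₁ < 1 := by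
    rw [card_box]
    push_cast
    have h1 : (2 * (τ : ℝ) + 1) ^ m ≤ (m : ℝ) ^ (ε₁ * m) := by
      rw [Real.rpow_mul hm0.le, Real.rpow_natCast]
      exact pow_le_pow_left₀ (by positivity) (by linarith) _
    have h2 : ((m : ℝ) ^ (-(1 / 5) : ℝ)) ^ k₁ = (m : ℝ) ^ (-(1 / 5) * (k₁ : ℝ)) := by
      rw [Real.rpow_mul hm0.le, Real.rpow_natCast]
    rw [h2]
    calc _ ≤ (m : ℝ) ^ (ε₁ * m) * (m : ℝ) ^ (-(1 / 5) * (k₁ : ℝ)) :=
          mul_le_mul_of_nonneg_right h1 (by positivity)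
      _ = (m : ℝ) ^ (ε₁ * m + -(1 / 5) * (k₁ : ℝ)) := (Real.rpow_add hm0 _ _).symm
      _ < 1 := Real.rpow_lt_one_of_one_lt_of_neg hm1 (by linarith)
  obtain ⟨X, hXT, hXs⟩ := stagn (γ := (m : ℝ) ^ (-(1 / 5) : ℝ)) (by positivity) hbox T' hb₀
  obtain ⟨r, α, hα, hM⟩ := hMf (b₀, X)
  have hZ := hfo τ hτ4 (by
      have : (m : ℝ) ^ ε₁ ≤ (m : ℝ) ^ (1 / 5 : ℝ) :=
        Real.rpow_le_rpow_of_exponent_le hm1.le (by linarith)
      linarith) T' hT'2 b₀ _ (filter_subset _ _) hXs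
  have hP := perp_lower (fun i => bv (X i) - bv b₀) α hα.1 hα.2.1 (τ := τ) (by omega)
  obtain ⟨hgα, -⟩ := closure_step (j := 0) (r' := r') hφ hμ1
    (fun i => bv (X i) - bv b₀) a ha hG (fun i => hT's _ (hXT i) _ hb₀) α hα
  have hgα' : gd (rf α) ≤ (m : ℝ) ^ (4 * ε₃ * m) := by
    refine hgα.trans ?_
    rw [hμp]
    calc _ ≤ (m : ℝ) ^ (ε₀ * m) * (m : ℝ) ^ (ε₀ * m) * (m : ℝ) ^ (ε₃ * ((2 * m : ℕ) : ℝ)) := by
          gcongr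
      _ = (m : ℝ) ^ (ε₀ * m + ε₀ * m + ε₃ * ((2 * m : ℕ) : ℝ)) := by
          rw [Real.rpow_add hm0, Real.rpow_add hm0]
      _ ≤ _ := Real.rpow_le_rpow_of_exponent_le hm1.le (by push_cast; linarith)
  have hr := hsl τ r _ _ hτ3 (gd_nonneg _) hgα' hP hZ
  have hrr : r' ≤ r := by
    have : (r' : ℝ) ≤ r := hr'.trans hr
    exact_mod_cast this
  obtain ⟨j, e, he1, he2, he3, hMe⟩ := hM hrr
  obtain ⟨k, x, hx, hxa, hxM, hk, hgx⟩ := (closure_step (j := j) (r' := r') hφ hμ1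
    (fun i => bv (X i) - bv b₀) a ha hG (fun i => hT's _ (hXT i) _ hb₀) α hα).2 e he1 he2 he3
  refine ⟨Mf (b₀, X), mem_filter.2 ⟨mem_image_of_mem _ (mem_univ _), by rw [hMe]; exact he3⟩,
    k, x, hx, fun i => ⟨?_, by rw [hMe]; exact hxM i⟩, ?_, ?_⟩
  · have : zsp a ≤ Λ.toIntSubmodule := Submodule.span_le.2 (by rintro _ ⟨i, rfl⟩; exact haΛ i)
    exact this (hxa i)
  · rw [hμp, hμp] at hk
    have h1 : (m : ℝ) ^ (ε₃ * ((2 * r' : ℕ) : ℝ)) ≤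
        (m : ℝ) ^ (ε₀ * m + ε₀ * m + ε₃ * ((2 * k : ℕ) : ℝ)) := by
      rw [Real.rpow_add hm0, Real.rpow_add hm0]
      refine hk.trans ?_
      gcongr
    have h2 := (Real.rpow_le_rpow_left_iff hm1).1 h1
    push_cast at h2
    have h3 : ε₃ * (r' : ℝ) ≤ ε₃ * (k + θ * m) := by linarith
    exact le_of_mul_le_mul_left h3 h3p
  · refine hgx.trans ?_
    rw [hμp, pow_two]
    calc _ ≤ (m : ℝ) ^ (ε₀ * m) * ((m : ℝ) ^ (ε₀ * m) * (m : ℝ) ^ (ε₀ * m)) *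
          (m : ℝ) ^ (ε₃ * ((2 * m : ℕ) : ℝ)) := by gcongr
      _ = (m : ℝ) ^ (ε₀ * m + (ε₀ * m + ε₀ * m) + ε₃ * ((2 * m : ℕ) : ℝ)) := by
          rw [Real.rpow_add hm0, Real.rpow_add hm0, Real.rpow_add hm0]
      _ ≤ _ := Real.rpow_le_rpow_of_exponent_le hm1.le (by push_cast; linarith)

end Vale.Agent.P160
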