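import Vale.Agent.P160.KGrW

open Finset Filter
open scoped RealInnerProductSpace

namespace Vale.Agent.P160

open Vale.Agent.RM

/-- The scales. -/
def scl (m i : ℕ) : ℕ := (m ^ 3) ^ 3 ^ i

theorem KScale_log (m i : ℕ) : Real.log (scl m i : ℝ) = 3 * 3 ^ i * Real.log m := by
  unfold scl
  push_cast
  rw [Real.log_pow, Real.log_pow]
  push_cast
  ring

theorem KScale_succ (m i : ℕ) : scl m (i + 1) = scl m i ^ 2 * scl m i := by
  unfold scl
  rw [← pow_succ, pow_succ 3 i, pow_mul (m ^ 3)]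

theorem KScale_ge {m : ℕ} (_hm : 1 ≤ m) (i : ℕ) : m ^ 3 ≤ scl m i :=
  Nat.le_self_pow (by positivity) _

theorem KScale_small {m : ℕ} (U : Submodule ℝ (Eu m)) {ρ : ℝ} (h : ρ < 1) : np U ρ ≤ 1 := by
  unfold np
  have : ipts U ρ ⊆ {0} := fun z hz => by
    rw [mem_singleton]
    funext i
    have h1 := (abs_le_norm_rv z i).trans_lt ((mem_ipts.1 hz).1.trans_lt h)
    have h2 : |z i| < 1 := by exact_mod_cast h1
    exact Int.abs_lt_one_iff.1 h2
  exact_mod_cast (card_le_card this).trans (by simp)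

theorem KScale_a {m r' : ℕ} (hm : 1 ≤ m) (U : Submodule ℝ (Eu m)) (hU : Module.finrank ℝ U ≤ r') :
    Real.log (np U (scl m 0)) ≤ r' * (Real.log 4 + Real.log (scl m 0 : ℝ)) := by
  have h1 : (1 : ℝ) ≤ scl m 0 := by
    exact_mod_cast (Nat.one_le_pow _ _ hm).trans (KScale_ge hm 0)
  have h2 := np_ratio U hU (t := scl m 0 + 1) (by omega) ((scl m 0 : ℝ) / (scl m 0 + 1))
  push_cast at h2
  rw [mul_div_cancel₀ _ (by positivity)] at h2
  have h3 := KScale_small U (ρ := (scl m 0 : ℝ) / (scl m 0 + 1)) (by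
    rw [div_lt_one (by positivity)]; linarith)
  have h4 : np U (scl m 0) ≤ (4 * (scl m 0 : ℝ)) ^ r' :=
    h2.trans ((mul_le_of_le_one_right (by positivity) h3).trans
      (pow_le_pow_left₀ (by positivity) (by linarith) _))
  have h5 := Real.log_le_log (lt_of_lt_of_le one_pos (one_le_np U (by positivity))) h4
  rwa [Real.log_pow, Real.log_mul (by norm_num) (by positivity)] at h5

theorem KScale_c {m : ℕ} (hm : 1 ≤ m) (U : Submodule ℝ (Eu m)) (i : ℕ) :
    Real.log (np U (scl m (i + 1))) ≤ Real.log (np U (scl m i)) +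
      (Module.finrank ℝ (shortSp U (scl m (i + 1))) : ℝ) *
        (Real.log 2 + 2 * Real.log (scl m i : ℝ)) := by
  have h0 : 1 ≤ scl m i := (Nat.one_le_pow _ _ hm).trans (KScale_ge hm i)
  have h1 : (1 : ℝ) ≤ scl m i := by exact_mod_cast h0
  have h2 := np_ratio (shortSp U (scl m (i + 1))) le_rfl (t := scl m i ^ 2)
    (Nat.one_le_pow _ _ h0) (scl m i : ℝ)
  have h3 : ((scl m i ^ 2 : ℕ) : ℝ) * (scl m i : ℝ) = scl m (i + 1) := by
    rw [KScale_succ]; push_cast; ring
  rw [h3] at h2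
  have h4 : np (shortSp U (scl m (i + 1))) (scl m (i + 1)) = np U (scl m (i + 1)) := by
    unfold np; rw [ipts_shortSp]
  rw [h4] at h2
  have h5 := h2.trans (mul_le_mul_of_nonneg_left
    (np_mono (shortSp_le U (scl m (i + 1))) (le_refl (scl m i : ℝ))) (by positivity))
  have hp : 0 < np U (scl m i) := lt_of_lt_of_le one_pos (one_le_np U (by positivity))
  have h6 := Real.log_le_log (lt_of_lt_of_le one_pos (one_le_np U (by positivity))) h5
  rw [Real.log_mul (by positivity) hp.ne', Real.log_pow,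
    Real.log_mul (by norm_num) (by positivity)] at h6
  push_cast at h6
  rw [Real.log_pow] at h6
  push_cast at h6
  linarith

theorem KScale_b {m : ℕ} (hm : 16 ≤ m) (U : Submodule ℝ (Eu m)) {a b : ℝ}
    (h : Dense U a ((m : ℝ) ^ b)) (i : ℕ) :
    a * (Real.log (scl m i : ℝ) - (Real.log 4 + Real.log m / 2)) ≤
      b * Real.log m + Real.log (np U (scl m i)) := by
  have hm' : (16 : ℝ) ≤ m := by exact_mod_cast hm
  have hs : 0 < Real.sqrt m := Real.sqrt_pos.2 (by linarith)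
  have hs2 : Real.sqrt m ≤ m := Real.sqrt_le_iff.2 ⟨by linarith, by nlinarith⟩
  have h1 : (m : ℝ) ^ 3 ≤ scl m i := by exact_mod_cast KScale_ge (by omega) i
  have h2 : 4 * Real.sqrt m ≤ scl m i := by
    have : 4 * (m : ℝ) ≤ (m : ℝ) ^ 3 := by
      have : 4 ≤ (m : ℝ) ^ 2 := by nlinarith
      nlinarith
    linarith
  have h3 := h ((scl m i : ℝ) / (4 * Real.sqrt m)) (by rw [one_le_div (by positivity)]; exact h2)
  rw [mul_div_cancel₀ _ (by positivity)] at h3
  have hsc : (0 : ℝ) < scl m i := lt_of_lt_of_le (by positivity) h2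
  have hp : 0 < np U (scl m i) := lt_of_lt_of_le one_pos (one_le_np U hsc.le)
  have h4 := Real.log_le_log (by positivity) h3
  rw [Real.log_rpow (by positivity), Real.log_mul (by positivity) hp.ne',
    Real.log_rpow (by positivity), Real.log_div hsc.ne' (by positivity),
    Real.log_mul (by norm_num) hs.ne', Real.log_sqrt (by positivity)] at h4
  exact h4

theorem KScale_d {m : ℕ} (hm : 1 ≤ m) (U : Submodule ℝ (Eu m)) {β R : ℝ} (hβ : 0 < β)
    (hR : Real.sqrt m * β ≤ R) :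
    Real.log (np U β) + (Module.finrank ℝ (shortSp U β) : ℝ) *
      (Real.log R - (Real.log 6 + Real.log m / 2) - Real.log β) ≤
      Real.log 3 + Real.log (np (shortSp U β) R) := by
  have hm' : (1 : ℝ) ≤ m := by exact_mod_cast hm
  have hs : 0 < Real.sqrt m := Real.sqrt_pos.2 (by linarith)
  have hR0 : 0 < R := lt_of_lt_of_le (by positivity) hR
  have hp : 0 < np U β := lt_of_lt_of_le one_pos (one_le_np U hβ.le)
  have hq : 0 < np (shortSp U β) R := lt_of_lt_of_le one_pos (one_le_np _ hR0.le)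
  have h4 := Real.log_le_log (by positivity) (np_grow hm U hβ hR)
  rw [Real.log_mul hp.ne' (by positivity), Real.log_pow, Real.log_div hR0.ne' (by positivity),
    Real.log_mul (by positivity) hβ.ne', Real.log_mul (by norm_num) hs.ne',
    Real.log_sqrt (by positivity), Real.log_mul (by norm_num) hq.ne'] at h4
  linarith

theorem KScale_sum (e d : ℕ → ℝ) (x : ℝ) (h : ∀ i, d i ≤ e (i + 1) - e i + x) (T : ℕ) :
    ∑ i ∈ range T, d i ≤ e T - e 0 + T * x := by
  induction T with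
  | zero => simp
  | succ T ih => rw [sum_range_succ]; push_cast; linarith [h T]

/-- Choice of the scale. `L = log m`, `R i = scl m i`, `n i = log (np U (R i))`, `r i = finrank (shortSp U (R i))`,
`e i = r' log (R i) - n i`, `t i = R (i-1)^2`, so `R i = t i * R (i-1)`, `log R (i+1) = 4.5 log (t i)`.
Take `T ≥ max (36/η) (1/c)`, `θ = η/(8 * 3^(T+1))`.
(a) `e 0 ≥ -r' log 4`: `np_ratio` with `t = R 0 + 1` and radius `R 0/t < 1` (only the point `0`).
(b) `e i ≤ E₀ = θ m log (R T) + r' log (4√m) + (1/2-η) m L` for `i ≤ T` (`Dense` at `u = R i/(4√m)`).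
(c) `n i - n (i-1) ≤ r i * log (2 t i)` (`np_ratio` for `shortSp U (R i)`, `ipts_shortSp`, `np_mono`), so
`∑_{i=1}^T (r' - r i) log (t i) ≤ E₀ + r' log 4 + T r' log 2 ≤ m L` eventually. Pick `i` with
`(r' - r i) log (t i) ≤ m L/T`; `log (t i) ≥ 6 L` gives `r i ≥ c m - m/(6T) ≥ c m/2`.
(d) `np_grow`: `log np V R ≥ n i + r i log (R/(6√m R i)) - log 3 ≥ r' log R - E₀ - 4.5 m L/T - r' log (6√m) - 2`,
and `E₀ + 4.5 m L/T + r' log (6 √m) + 2 ≤ (1/2 - η + η/8 + c + η/8 + o(1)) m L`. -/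
theorem scale_sel {η c : ℝ} (hη : 0 < η) (hη1 : η ≤ 1 / 2) (hc : 0 < c) (hcη : c ≤ η / 8) :
    ∃ (T : ℕ) (θ : ℝ), 0 < θ ∧ ∀ᶠ m : ℕ in atTop, ∀ (U : Submodule ℝ (Eu m)) (r' : ℕ),
      Module.finrank ℝ U ≤ r' → c * m ≤ r' → (r' : ℝ) ≤ c * m + 1 →
      Dense U (r' - θ * m) ((m : ℝ) ^ ((1 / 2 - η) * m)) →
      ∃ i : ℕ, 1 ≤ i ∧ i ≤ T ∧ c * m / 2 ≤ Module.finrank ℝ (shortSp U (scl m i)) ∧
        ∀ R : ℝ, Real.sqrt m * scl m i ≤ R → R ≤ (scl m i : ℝ) ^ 3 →
          R ^ r' ≤ (m : ℝ) ^ ((1 / 2 - η / 2) * m) * np (shortSp U (scl m i)) R := by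
  set T : ℕ := ⌈max (36 / η) (1 / c)⌉₊ with hT
  have hT1 : 36 / η ≤ T := (le_max_left _ _).trans (Nat.le_ceil _)
  have hT2 : 1 / c ≤ T := (le_max_right _ _).trans (Nat.le_ceil _)
  have hT0 : (0 : ℝ) < T := lt_of_lt_of_le (by positivity) hT2
  have hT3 : 36 ≤ η * T := by rw [div_le_iff₀ hη] at hT1; linarith
  have hT4 : 1 ≤ c * T := by rw [div_le_iff₀ hc] at hT2; linarith
  clear_value T
  refine ⟨T, η / (8 * 3 ^ (T + 1)), by positivity, ?_⟩
  have hlog := Real.tendsto_log_atTop.comp tendsto_natCast_atTop_atTop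
  filter_upwards [eventually_ge_atTop 16, hlog.eventually_ge_atTop ((T : ℝ) + 4),
    hlog.eventually_ge_atTop (12 / η)] with m hm hL1 hL2
  intro U r' hU hr1 hr2 hD
  simp only [Function.comp] at hL1 hL2
  have hm' : (16 : ℝ) ≤ m := by exact_mod_cast hm
  have hm1 : 1 ≤ m := by omega
  set L := Real.log m with hL
  have hL0 : 0 < L := by linarith
  have hL3 : 12 ≤ η * L := by rw [div_le_iff₀ hη] at hL2; linarith
  have hLm : L ≤ m := (Real.log_le_sub_one_of_pos (by linarith)).trans (by linarith)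
  have l2 : Real.log 2 ≤ 1 := (Real.log_le_sub_one_of_pos two_pos).trans (by norm_num)
  have l2' : 0 ≤ Real.log 2 := Real.log_nonneg one_le_two
  have l4 : Real.log 4 = 2 * Real.log 2 := by
    rw [show (4 : ℝ) = 2 ^ 2 by norm_num, Real.log_pow]; norm_num
  have l3 : Real.log 3 ≤ 2 := (Real.log_le_sub_one_of_pos (by norm_num)).trans (by norm_num)
  have l6 : Real.log 6 ≤ 2 := by
    rw [Real.log_le_iff_le_exp (by norm_num), show (2 : ℝ) = 1 + 1 by norm_num, Real.exp_add]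
    have := Real.exp_one_gt_d9
    nlinarith
  have l6' : 0 ≤ Real.log 6 := Real.log_nonneg (by norm_num)
  have hr0 : (0 : ℝ) ≤ r' := Nat.cast_nonneg _
  have hcm : c * m ≤ η / 8 * m := mul_le_mul_of_nonneg_right hcη (by linarith)
  have hηm : η * m ≤ 1 / 2 * m := mul_le_mul_of_nonneg_right hη1 (by linarith)
  have hr3 : (r' : ℝ) ≤ m / 8 := by linarith
  set ℓ : ℕ → ℝ := fun i => Real.log (scl m i : ℝ) with hℓ
  have hℓ1 : ∀ i, ℓ i = 3 * 3 ^ i * L := fun i => KScale_log m i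
  set n : ℕ → ℝ := fun i => Real.log (np U (scl m i)) with hn
  set r : ℕ → ℝ := fun i => (Module.finrank ℝ (shortSp U (scl m i)) : ℝ) with hr
  have hrr : ∀ i, r i ≤ r' := fun i => by
    have := (Submodule.finrank_mono (shortSp_le U (scl m i))).trans hU
    simp only [hr]; exact_mod_cast this
  have hrn : ∀ i, 0 ≤ r i := fun i => Nat.cast_nonneg _
  set E₀ : ℝ := r' * (Real.log 4 + L / 2) + η * (m * L) / 8 + (1 / 2 - η) * (m * L) with hE₀
  have hb : ∀ i, i ≤ T → r' * ℓ i - n i ≤ E₀ := fun i hi => by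
    have h1 := KScale_b hm U hD i
    have h2 : η / (8 * 3 ^ (T + 1)) * m * ℓ i ≤ η * (m * L) / 8 := by
      rw [hℓ1]
      have h3 : (3 : ℝ) ^ i ≤ 3 ^ T := pow_le_pow_right₀ (by norm_num) hi
      have h4 : η / (8 * 3 ^ (T + 1)) * m * (3 * 3 ^ T * L) = η * (m * L) / 8 := by
        rw [pow_succ]; field_simp
      rw [← h4]
      gcongr
    have h5 : 0 ≤ η / (8 * 3 ^ (T + 1)) * m * (Real.log 4 + L / 2) := by
      rw [l4]; positivity
    change _ * (ℓ i - (Real.log 4 + L / 2)) ≤ _ * L + n i at h1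
    rw [hE₀]
    linarith
  have hsum := KScale_sum (fun i => r' * ℓ i - n i) (fun i => (r' - r (i + 1)) * (2 * ℓ i))
    (r' * Real.log 2) (fun i => by
      have h1 := KScale_c hm1 U i
      change n (i + 1) ≤ n i + r (i + 1) * (Real.log 2 + 2 * ℓ i) at h1
      have h2 : ℓ (i + 1) = 3 * ℓ i := by rw [hℓ1, hℓ1, pow_succ]; ring
      have h3 := mul_le_mul_of_nonneg_right (hrr (i + 1)) l2'
      simp only [h2]
      linarith) T
  have ha := KScale_a hm1 U hU
  change n 0 ≤ r' * (Real.log 4 + ℓ 0) at ha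
  have hmL : 0 < (m : ℝ) * L := by positivity
  have hηmL : 0 < η * ((m : ℝ) * L) := by positivity
  have hrL : (r' : ℝ) * L ≤ m / 8 * L := mul_le_mul_of_nonneg_right hr3 hL0.le
  have hr2' : (r' : ℝ) * Real.log 2 ≤ r' := mul_le_of_le_one_right hr0 l2
  have hsum2 : ∑ i ∈ range T, (r' - r (i + 1)) * (2 * ℓ i) ≤ ∑ _i ∈ range T, m * L / T := by
    rw [sum_const, card_range, nsmul_eq_mul, mul_div_cancel₀ _ hT0.ne']
    have h1 := hb T le_rfl
    have h2 : (T : ℝ) * (r' * Real.log 2) ≤ T * r' := mul_le_mul_of_nonneg_left hr2' hT0.le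
    have h3 : (r' : ℝ) * (T + 4) ≤ m / 8 * L :=
      mul_le_mul hr3 hL1 (by positivity) (by positivity)
    rw [hE₀, l4] at h1
    rw [l4] at ha
    linarith
  obtain ⟨i, hi, hd⟩ := exists_le_of_sum_le (nonempty_range_iff.2 (by
    rintro rfl; simp at hT0)) hsum2
  have hiT : i + 1 ≤ T := mem_range.1 hi
  have hℓi : 3 * L ≤ ℓ i := by
    rw [hℓ1]
    have : (1 : ℝ) ≤ 3 ^ i := one_le_pow₀ (by norm_num)
    nlinarith
  have hdiff : 0 ≤ r' - r (i + 1) := sub_nonneg.2 (hrr _)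
  refine ⟨i + 1, by omega, hiT, ?_, fun R hR1 hR2 => ?_⟩
  · have h1 : (r' - r (i + 1)) * (6 * L) ≤ m * L / T :=
      le_trans (mul_le_mul_of_nonneg_left (by linarith) hdiff) hd
    have h2 : (m : ℝ) * L / T ≤ c * m * L := by
      rw [div_le_iff₀ hT0]
      have := mul_le_mul_of_nonneg_left hT4 hmL.le
      linarith
    have h3 : (r' - r (i + 1)) * 6 ≤ c * m := le_of_mul_le_mul_right (by linarith) hL0
    change _ ≤ r (i + 1)
    have : 0 ≤ c * m := by positivity
    linarith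
  · have hβ : (0 : ℝ) < scl m (i + 1) := by
      have := (Nat.one_le_pow _ _ hm1).trans (KScale_ge hm1 (i + 1))
      exact_mod_cast this
    have hR0 : 0 < R := lt_of_lt_of_le (by positivity) hR1
    have h1 := KScale_d hm1 U hβ hR1
    change n (i + 1) + r (i + 1) * (Real.log R - (Real.log 6 + L / 2) - ℓ (i + 1)) ≤ _ at h1
    have h2 : Real.log R ≤ 3 * ℓ (i + 1) := by
      have := Real.log_le_log hR0 hR2
      rwa [Real.log_pow] at this
    have h3 : ℓ (i + 1) = 3 * ℓ i := by rw [hℓ1, hℓ1, pow_succ]; ring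
    have h4 : (r' - r (i + 1)) * (Real.log R - ℓ (i + 1)) ≤ (r' - r (i + 1)) * (6 * ℓ i) :=
      mul_le_mul_of_nonneg_left (by linarith) hdiff
    have h5 : (m : ℝ) * L / T ≤ η * (m * L) / 36 := by
      rw [div_le_iff₀ hT0]
      have := mul_le_mul_of_nonneg_left hT3 hmL.le
      linarith
    have h6 := hb (i + 1) hiT
    have h7 : r (i + 1) * (Real.log 6 + L / 2) ≤ r' * (2 + L / 2) :=
      mul_le_mul (hrr _) (by linarith) (by positivity) hr0
    have h8 : (r' : ℝ) * L ≤ (η / 8 * m + 1) * L :=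
      mul_le_mul_of_nonneg_right (by linarith) hL0.le
    have h9 : 12 * (m : ℝ) ≤ η * L * m := mul_le_mul_of_nonneg_right hL3 (by linarith)
    have hq : 0 < np (shortSp U (scl m (i + 1))) R := lt_of_lt_of_le one_pos (one_le_np _ hR0.le)
    rw [← Real.log_le_log_iff (by positivity) (by positivity), Real.log_pow,
      Real.log_mul (by positivity) hq.ne', Real.log_rpow (by linarith)]
    rw [hE₀, l4] at h6
    change _ ≤ _ * L + _
    linarith

end Vale.Agent.P160
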