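import Vale.Agent.P160.KExp
import Vale.Agent.P160.KOdl

open Finset Filter
open scoped RealInnerProductSpace

namespace Vale.Agent.P160

open Vale.Agent.RM

theorem KTp_other {m : ℕ} {l j : Fin m} {I : Finset (Fin m)} (hj : j ∉ I) (hjl : j ≠ l) (ω : Om m)
    (b : Fin m → Bool) (v : Eu m) : lin (mat (rowUpd l I ω b)) v j = lin (mat ω) v j := by
  rw [lin_apply, lin_apply]
  refine Finset.sum_congr rfl fun t _ => ?_
  rw [mat_apply, mat_apply, rowUpd_not]
  intro i hi h
  rcases Sym2.eq_iff.1 h with h | h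
  · exact hjl h.1
  · exact hj (h.1 ▸ hi)

theorem KTp_self {m : ℕ} (l : Fin m) (I : Finset (Fin m)) (ω : Om m) (b : Fin m → Bool)
    (z : Fin m → ℤ) : lin (mat (rowUpd l I ω b)) (rv z) l =
      ((∑ t ∈ I, bz (b t) * z t : ℤ) : ℝ) + ∑ t ∈ Iᶜ, (bz (ω s(l, t)) : ℝ) * z t := by
  rw [lin_apply, ← Finset.sum_add_sum_compl I]
  push_cast
  congr 1
  · refine Finset.sum_congr rfl fun t ht => ?_
    rw [mat_apply, rowUpd_mem ω b ht, rv_apply]
  · refine Finset.sum_congr rfl fun t ht => ?_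
    rw [mat_apply, rowUpd_not, rv_apply]
    intro i hi h
    rw [Sym2.congr_right] at h
    exact (mem_compl.1 ht) (h ▸ hi)

/-- Probability that a fixed tuple is mapped into `M`. `coord_set` (transport `M` to `Fin m → ℝ`) with `A = Iᶜ`
gives `J`; `R = Iᶜ \ J`. `Ev l ω`: for all `i` there is `x ∈ M` agreeing with `lin (mat ω) (rv (z i))` on `J` and at `l`.
Rows in `J` and rows `l ≠ l'` of `R` are not changed by `rowUpd l' I`. After resampling row `l` the value at `l` is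
`∑_{t ∈ I} bz (b t) * z i t` plus a term independent of `b`, and it is forced to be one fixed number (two elements of
`M` agreeing on `J` agree at `l`): if the event is nonempty take the targets `a i` from one of its points. -/
theorem tuple_prob {m k r' : ℕ} (M : Submodule ℝ (Eu m)) (hM : Module.finrank ℝ M ≤ r')
    (I : Finset (Fin m)) (z : Fin k → Fin m → ℤ) {ρ : ℝ} (hρ : 0 ≤ ρ) (hρ1 : ρ ≤ 1)
    (h : ∀ a : Fin k → ℤ,
      pr (fun b : Fin m → Bool => ∀ i, ∑ t ∈ I, bz (b t) * z i t = a i) ≤ ρ) :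
    pr (fun ω : Om m => ∀ i, lin (mat ω) (rv (z i)) ∈ M) ≤ ρ ^ (m - I.card - r') := by
  classical
  obtain ⟨J, hJ, hJc, hJ0⟩ := coord_set (M.map (WithLp.linearEquiv 2 ℝ (Fin m → ℝ)).toLinearMap) Iᶜ
  rw [LinearEquiv.finrank_map_eq] at hJc
  replace hJc : J.card ≤ r' := hJc.trans hM
  have hdet : ∀ x ∈ M, ∀ y ∈ M, (∀ j ∈ J, x j = y j) → ∀ l ∈ Iᶜ, x l = y l := by
    intro x hx y hy hxy l hl
    have := hJ0 _ (Submodule.mem_map_of_mem (M.sub_mem hx hy))
      (fun j hj => by simpa [sub_eq_zero] using hxy j hj) l hl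
    simpa [sub_eq_zero] using this
  have hcard : m - I.card - r' ≤ (Iᶜ \ J).card := by
    rw [card_sdiff_of_subset hJ, card_compl, Fintype.card_fin]
    omega
  refine le_trans ?_ (pow_le_pow_of_le_one hρ hρ1 hcard)
  set Ev : Fin m → Om m → Prop := fun l ω => ∀ i, ∃ x ∈ M,
    (∀ j ∈ J, x j = lin (mat ω) (rv (z i)) j) ∧ x l = lin (mat ω) (rv (z i)) l with hEv
  refine le_trans (pr_mono fun ω hω l _ i => ⟨_, hω i, fun _ _ => rfl, rfl⟩)
    (expose (Iᶜ \ J) I Ev hρ ?_ ?_)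
  · intro l hl l' hl' hne ω b
    have e1 : ∀ j ∈ J, ∀ v, lin (mat (rowUpd l' I ω b)) v j = lin (mat ω) v j := fun j hj v =>
      KTp_other (mem_compl.1 (hJ hj)) (fun h : j = l' => (mem_sdiff.1 hl').2 (h ▸ hj)) ω b v
    have e2 : ∀ v, lin (mat (rowUpd l' I ω b)) v l = lin (mat ω) v l := fun v =>
      KTp_other (mem_compl.1 (mem_sdiff.1 hl).1) hne.symm ω b v
    simp only [hEv, e2]
    refine forall_congr' fun i => exists_congr fun x => and_congr_right fun _ =>
      and_congr_left fun _ => forall₂_congr fun j hj => by rw [e1 j hj]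
  · intro l hl ω
    by_cases h0 : ∃ b₀, Ev l (rowUpd l I ω b₀)
    · obtain ⟨b₀, hb₀⟩ := h0
      refine le_trans (pr_mono fun b hb i => ?_) (h fun i => ∑ t ∈ I, bz (b₀ t) * z i t)
      obtain ⟨x, hx, hxJ, hxl⟩ := hb i
      obtain ⟨y, hy, hyJ, hyl⟩ := hb₀ i
      have e1 : ∀ j ∈ J, ∀ c v, lin (mat (rowUpd l I ω c)) v j = lin (mat ω) v j :=
        fun j hj c v =>
          KTp_other (mem_compl.1 (hJ hj)) (fun h : j = l => (mem_sdiff.1 hl).2 (h ▸ hj)) ω c v
      have := hdet x hx y hy (fun j hj => by rw [hxJ j hj, hyJ j hj, e1 j hj, e1 j hj]) l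
        (mem_sdiff.1 hl).1
      rw [hxl, hyl, KTp_self, KTp_self, add_left_inj] at this
      exact Int.cast_injective this
    · refine le_trans (pr_mono (q := fun _ => False) fun b hb => h0 ⟨b, hb⟩) ?_
      simpa [pr, cnt_eq] using hρ

end Vale.Agent.P160
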