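import Vale.Agent.P160.TDefs

open Finset Filter Matrix

namespace Vale.Agent.P160

theorem tadj_cast {n : ℕ} (A : Matrix (Fin n) (Fin n) ℤ) (y : Fin n → ℤ) (hy : A.mulVec y = 0) :
    (fun i => (y i : ℚ)) ∈ LinearMap.ker (A.map (Int.cast : ℤ → ℚ)).mulVecLin := by
  rw [LinearMap.mem_ker]
  funext i
  have h := congrFun hy i
  simp only [mulVec, dotProduct, Pi.zero_apply] at h
  simp only [mulVecLin_apply, mulVec, dotProduct, map_apply, Pi.zero_apply]
  exact_mod_cast h

theorem tadj_ker {n : ℕ} {A : Matrix (Fin n) (Fin n) ℤ} (hr : rk A + 1 = n) {v w : Fin n → ℤ}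
    (hv : A.mulVec v = 0) (hw : w ⬝ᵥ v = 1) {y : Fin n → ℤ} (hy : A.mulVec y = 0) :
    y = (w ⬝ᵥ y) • v := by
  have h1 := LinearMap.finrank_range_add_finrank_ker (A.map (Int.cast : ℤ → ℚ)).mulVecLin
  rw [Module.finrank_fin_fun] at h1
  have h2 : Module.finrank ℚ (LinearMap.ker (A.map (Int.cast : ℤ → ℚ)).mulVecLin) = 1 := by
    unfold rk Matrix.rank at hr
    omega
  have h0 : (⟨_, tadj_cast A v hv⟩ : LinearMap.ker (A.map (Int.cast : ℤ → ℚ)).mulVecLin) ≠ 0 := by
    intro h
    have h3 : v = 0 := by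
      funext i
      have := congrFun (congrArg Subtype.val h) i
      simpa using this
    rw [h3, dotProduct_zero] at hw
    exact zero_ne_one hw
  obtain ⟨q, hq⟩ := (finrank_eq_one_iff_of_nonzero' _ h0).1 h2 ⟨_, tadj_cast A y hy⟩
  have h4 : ∀ i, q * (v i : ℚ) = y i := fun i => congrFun (congrArg Subtype.val hq) i
  have h5 : ((w ⬝ᵥ y : ℤ) : ℚ) = q := by
    have h6 : ((w ⬝ᵥ v : ℤ) : ℚ) = 1 := by rw [hw, Int.cast_one]
    simp only [dotProduct, Int.cast_sum, Int.cast_mul] at h6 ⊢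
    simp only [← h4, mul_left_comm _ q, ← mul_sum, h6, mul_one]
  funext i
  have h7 := h4 i
  rw [← h5] at h7
  rw [Pi.smul_apply, smul_eq_mul]
  exact_mod_cast h7.symm

/-- Corank one: the adjugate is `c v vᵀ` with `v` a primitive kernel vector. The rational kernel
has dimension one; clear denominators and divide by the gcd to get `v` with `w ⬝ v = 1`
(`Finset.gcd_eq_sum_mul` or `Finset.extract_gcd`); every integer kernel vector `y` equals
`(w ⬝ y) • v`. Columns of `adjugate A` are in the kernel (`mul_adjugate`, `det A = 0`), the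
adjugate is symmetric (`adjugate_transpose`), so it is `c v vᵀ` with `c = wᵀ adj w`. `c ≠ 0`:
`M = A + w wᵀ` has trivial kernel (dot with `v`), so `det M ≠ 0`, and `det M = det A + wᵀ adj(A) w`
(or: `adjugate A ≠ 0` since the rank is `m`). Diagonal entries:
`Matrix.adjugate_fin_succ_eq_det_submatrix`. -/
theorem adj_struct {m : ℕ} (A : Matrix (Fin (m + 1)) (Fin (m + 1)) ℤ) (hA : A.IsSymm)
    (hr : rk A + 1 = m + 1) :
    ∃ (v : Fin (m + 1) → ℤ) (c : ℤ), A.mulVec v = 0 ∧ (∃ w : Fin (m + 1) → ℤ, w ⬝ᵥ v = 1) ∧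
      c ≠ 0 ∧ ∀ i : Fin (m + 1), (A.submatrix i.succAbove i.succAbove).det = c * v i ^ 2 := by
  have hd : A.det = 0 := by
    by_contra h
    have h1 : (A.map (Int.cast : ℤ → ℚ)).det ≠ 0 := by
      rw [← Int.cast_det]; exact_mod_cast h
    have h2 := rank_of_det_ne_zero h1
    unfold rk at hr
    rw [Fintype.card_fin] at h2
    omega
  obtain ⟨u, hu0, hu⟩ := exists_mulVec_eq_zero_iff.2 hd
  obtain ⟨v, hv1, hv2⟩ := Finset.extract_gcd u (univ_nonempty (α := Fin (m + 1)))
  have huv : u = univ.gcd u • v := funext fun i => hv1 i (mem_univ i)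
  have hg : univ.gcd u ≠ 0 := fun h => hu0 (by rw [huv, h, zero_smul])
  have hv : A.mulVec v = 0 := by
    rw [huv, mulVec_smul] at hu
    exact (smul_eq_zero.1 hu).resolve_left hg
  obtain ⟨w, hw⟩ := Finset.gcd_eq_sum_mul univ v
  have hw1 : w ⬝ᵥ v = 1 := by rw [dotProduct_comm, ← hv2, hw]; rfl
  have hadj : ∀ x, A.mulVec (A.adjugate.mulVec x) = 0 := fun x => by
    rw [mulVec_mulVec, mul_adjugate, hd, zero_smul, zero_mulVec]
  have hs : A.adjugateᵀ = A.adjugate := by rw [adjugate_transpose, hA.eq]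
  have key : ∀ i : Fin (m + 1), (A.submatrix i.succAbove i.succAbove).det =
      (w ⬝ᵥ A.adjugate.mulVec w) * v i ^ 2 := by
    intro i
    have h1 := congrFun (tadj_ker hr hv hw1 (hadj (Pi.single i 1))) i
    have h2 := congrFun (tadj_ker hr hv hw1 (hadj w)) i
    have h3 : w ⬝ᵥ A.adjugate.mulVec (Pi.single i 1) = A.adjugate.mulVec w i := by
      rw [dotProduct_mulVec, ← mulVec_transpose, hs, dotProduct_single, mul_one]
    rw [h3, h2, mulVec_single_one, col_apply, adjugate_fin_succ_eq_det_submatrix,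
      Even.neg_one_pow ⟨i, rfl⟩, one_mul] at h1
    rw [h1]
    simp only [Pi.smul_apply, smul_eq_mul]
    ring
  refine ⟨v, _, hv, ⟨w, hw1⟩, fun hc => ?_, key⟩
  obtain ⟨i, hi⟩ : ∃ i, v i ≠ 0 := by
    by_contra h
    push Not at h
    rw [show v = 0 from funext h, dotProduct_zero] at hw1
    exact zero_ne_one hw1
  have h1 := key i
  rw [hc, zero_mul] at h1
  obtain ⟨z, hz0, hz⟩ := exists_mulVec_eq_zero_iff.2 h1
  have h2 : ∀ j, A.mulVec (i.insertNth 0 z) (i.succAbove j) = 0 := by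
    intro j
    have := congrFun hz j
    simp only [mulVec, dotProduct, submatrix_apply, Pi.zero_apply] at this
    simp only [mulVec, dotProduct]
    rw [Fin.sum_univ_succAbove _ i]
    simpa using this
  have h3 : A.mulVec (i.insertNth 0 z) i = 0 := by
    have h4 : v ⬝ᵥ A.mulVec (i.insertNth 0 z) = 0 := by
      rw [dotProduct_mulVec, ← mulVec_transpose, hA.eq, hv, zero_dotProduct]
    rw [dotProduct, Fin.sum_univ_succAbove _ i] at h4
    simp only [h2, mul_zero, sum_const_zero, add_zero] at h4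
    exact (mul_eq_zero.1 h4).resolve_left hi
  have h5 : A.mulVec (i.insertNth 0 z) = 0 := funext fun j => Fin.succAboveCases i h3 h2 j
  have h6 := tadj_ker hr hv hw1 h5
  have h7 := congrFun h6 i
  rw [Fin.insertNth_apply_same, Pi.smul_apply, smul_eq_mul] at h7
  rw [(mul_eq_zero.1 h7.symm).resolve_right hi, zero_smul] at h6
  refine hz0 (funext fun j => ?_)
  have := congrFun h6 (i.succAbove j)
  rwa [Fin.insertNth_apply_succAbove] at this

end Vale.Agent.P160
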