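import Vale.Agent.P160.TDefs

open Finset Filter Matrix

namespace Vale.Agent.P160

theorem TAri_den {q : ℚ} {K t : ℤ} (h : (K : ℚ) * q = t) : (q.den : ℤ) ∣ K := by
  rcases eq_or_ne K 0 with rfl | hK
  · exact dvd_zero _
  have e : q = Rat.divInt t K := by
    rw [Rat.divInt_eq_div, ← h, mul_div_cancel_left₀ _ (Int.cast_ne_zero.2 hK)]
  rw [e]
  exact Rat.den_dvd t K

/-- Let `g = gcd d12 d13`, `K = 2 c (d12/g) (d13/g)`. Take `k = d12/g` and `l = (d13/g) l'` with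
`l' * num a13 ≡ num a12 (mod g)`; both `l' = l₀` and `l' = l₀ + g` work and `l₀` is coprime to `g`.
So `d23 ∣ K l₀` and `d23 ∣ K g`, hence `d23 ∣ K`. -/
theorem den_arith {a12 a13 a23 : ℚ} {c : ℕ}
    (h : ∀ l k : ℤ, (∃ t : ℤ, (l : ℚ) * a13 - k * a12 = t) →
      ∃ t : ℤ, 2 * (c : ℚ) * l * k * a23 = t) :
    a23.den * Nat.gcd a12.den a13.den ^ 2 ∣ 2 * c * a12.den * a13.den := by
  obtain ⟨u, hu⟩ := Nat.gcd_dvd_left a12.den a13.den
  obtain ⟨w, hw⟩ := Nat.gcd_dvd_right a12.den a13.den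
  have c1 : IsCoprime a12.num (Nat.gcd a12.den a13.den : ℤ) :=
    (Rat.isCoprime_num_den a12).of_isCoprime_of_dvd_right
      (Int.natCast_dvd_natCast.2 (Nat.gcd_dvd_left _ _))
  obtain ⟨x, y, hxy⟩ : IsCoprime a13.num (Nat.gcd a12.den a13.den : ℤ) :=
    (Rat.isCoprime_num_den a13).of_isCoprime_of_dvd_right
      (Int.natCast_dvd_natCast.2 (Nat.gcd_dvd_right _ _))
  have hg : Nat.gcd a12.den a13.den ≠ 0 := Nat.gcd_ne_zero_left a12.den_ne_zero
  generalize Nat.gcd a12.den a13.den = g at *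
  have hg' : (g : ℚ) ≠ 0 := Nat.cast_ne_zero.2 hg
  have e1 : (g : ℚ) * (u * a12) = a12.num := by
    rw [← mul_assoc, ← Nat.cast_mul, ← hu, Rat.den_mul_eq_num]
  have e2 : (g : ℚ) * (w * a13) = a13.num := by
    rw [← mul_assoc, ← Nat.cast_mul, ← hw, Rat.den_mul_eq_num]
  have e3 : (x : ℚ) * a13.num + y * g = 1 := by exact_mod_cast hxy
  have key : ∀ j : ℤ, (a23.den : ℤ) ∣ 2 * c * u * w * (x * a12.num + j * g) := fun j => by
    obtain ⟨t, ht⟩ := h (w * (x * a12.num + j * g)) u ⟨j * a13.num - y * a12.num,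
      mul_left_cancel₀ hg' (by
        push_cast
        linear_combination ((x : ℚ) * a12.num + j * g) * e2 - e1 + (a12.num : ℚ) * e3)⟩
    refine TAri_den (t := t) ?_
    rw [← ht]
    push_cast
    ring
  obtain ⟨a, b, hab⟩ := IsCoprime.mul_left (⟨a13.num, y, by rwa [mul_comm]⟩ : IsCoprime x g) c1
  have k2 : (a23.den : ℤ) ∣ ((2 * c * u * w : ℕ) : ℤ) := by
    have e : ((2 * c * u * w : ℕ) : ℤ) = 2 * c * u * w * (x * a12.num + 0 * g) * (a - b) +
        2 * c * u * w * (x * a12.num + 1 * g) * b := by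
      push_cast
      linear_combination (-2 * c * u * w : ℤ) * hab
    rw [e]
    exact dvd_add ((key 0).mul_right _) ((key 1).mul_right _)
  rw [hu, hw, show 2 * c * (g * u) * (g * w) = 2 * c * u * w * g ^ 2 by ring]
  exact Nat.mul_dvd_mul_right (Int.natCast_dvd_natCast.1 k2) _

/-- Compare `p`-adic valuations (`Nat.factorization_le_iff_dvd`, `Nat.factorization_gcd`), then
`omega`. -/
theorem tri_arith {x y z c₁ c₂ c₃ N : ℕ} (hN : 0 < N) (h₁ : 0 < c₁) (h₂ : 0 < c₂) (h₃ : 0 < c₃)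
    (hx : x ^ 2 ∣ N) (hy : y ^ 2 ∣ N) (hz : z ^ 2 ∣ N)
    (k₁ : z * Nat.gcd x y ^ 2 ∣ 2 * c₁ * x * y) (k₂ : y * Nat.gcd x z ^ 2 ∣ 2 * c₂ * x * z)
    (k₃ : x * Nat.gcd y z ^ 2 ∣ 2 * c₃ * y * z) : x * y * z ∣ 2 * N * c₁ * c₂ * c₃ := by
  have x0 : x ≠ 0 := by rintro rfl; simp at hx; omega
  have y0 : y ≠ 0 := by rintro rfl; simp at hy; omega
  have z0 : z ≠ 0 := by rintro rfl; simp at hz; omega
  have g1 := Nat.gcd_ne_zero_left (n := y) x0
  have g2 := Nat.gcd_ne_zero_left (n := z) x0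
  have g3 := Nat.gcd_ne_zero_left (n := z) y0
  rw [← Nat.factorization_le_iff_dvd (by positivity) (by positivity)] at hx hy hz k₁ k₂ k₃ ⊢
  intro p
  have a1 := hx p
  have a2 := hy p
  have a3 := hz p
  have a4 := k₁ p
  have a5 := k₂ p
  have a6 := k₃ p
  simp (disch := positivity) only [Nat.factorization_mul, Nat.factorization_pow,
    Nat.factorization_gcd, Finsupp.add_apply, Finsupp.smul_apply, Finsupp.inf_apply,
    smul_eq_mul] at a1 a2 a3 a4 a5 a6 ⊢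
  omega

end Vale.Agent.P160
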