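import Vale.Agent.P160.TDefs

open Finset Filter Matrix

namespace Vale.Agent.P160

theorem TBlk_cnt_prod {α β : Type} [Fintype α] [Fintype β] (P : α → β → Prop) :
    cnt (fun x : α × β => P x.1 x.2) = ∑ a, cnt (P a) := by
  classical
  simp only [cnt_eq, card_filter, Fintype.sum_prod_type]

theorem TBlk_cnt_inj {α β : Type} [Fintype α] [Fintype β] {p : α → Prop} {q : β → Prop}
    (f : α → β) (hf : Function.Injective f) (h : ∀ a, p a → q (f a)) : cnt p ≤ cnt q := by
  classical
  rw [cnt_eq, cnt_eq]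
  exact card_le_card_of_injOn f (fun a ha => by
    simp only [coe_filter, mem_univ, true_and, Set.mem_ofPred_eq] at ha ⊢; exact h a ha) hf.injOn

/-- Resampling a block of coordinates. Use `Equiv.piEquivPiSubtypeProd` for the predicate
`e ∈ Set.range φ` (or the bijection `(ω, y) ↦ (Function.extend φ y ω, ω ∘ φ)` of
`(E → Bool) × (I → Bool)`, which turns the count of `T ω y` into the count of `T ω (ω ∘ φ)`). -/
theorem pr_blk {E I : Type} [Fintype E] [DecidableEq E] [Fintype I] [DecidableEq I]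
    (φ : I → E) (hφ : Function.Injective φ) (T : (E → Bool) → (I → Bool) → Prop)
    (hT : ∀ ω ω' : E → Bool, (∀ e, e ∉ Set.range φ → ω e = ω' e) → ∀ y, T ω y → T ω' y)
    {θ : ℝ} (h : ∀ ω, pr (T ω) ≤ θ) :
    pr (fun ω : E → Bool => T ω (fun i => ω (φ i))) ≤ θ := by
  let f : (E → Bool) × (I → Bool) → (E → Bool) × (I → Bool) :=
    fun x => (Function.extend φ x.2 x.1, fun i => x.1 (φ i))
  have hf : Function.Involutive f := by
    rintro ⟨ω, y⟩
    refine Prod.ext (funext fun e => ?_) (funext fun i => hφ.extend_apply _ _ _)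
    by_cases he : ∃ i, φ i = e
    · obtain ⟨i, rfl⟩ := he
      exact hφ.extend_apply _ _ _
    · simp only [f, Function.extend_apply' _ _ _ he]
  have h1 := TBlk_cnt_inj (p := fun x : (E → Bool) × (I → Bool) => T x.1 fun i => x.1 (φ i))
    (q := fun x : (E → Bool) × (I → Bool) => T x.1 x.2) f hf.injective fun x hx =>
      hT _ _ (fun e he => (Function.extend_apply' _ _ _ he).symm) _ hx
  rw [TBlk_cnt_prod (fun ω (_ : I → Bool) => T ω fun i => ω (φ i)), TBlk_cnt_prod T] at h1
  have hY : (0 : ℝ) < Fintype.card (I → Bool) := by exact_mod_cast Fintype.card_pos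
  have hO : (0 : ℝ) < Fintype.card (E → Bool) := by exact_mod_cast Fintype.card_pos
  have h2 : ∑ ω : E → Bool, cnt (fun _ : I → Bool => T ω fun i => ω (φ i)) =
      cnt (fun ω : E → Bool => T ω fun i => ω (φ i)) * Fintype.card (I → Bool) := by
    classical
    rw [cnt_eq, card_filter, sum_mul]
    refine sum_congr rfl fun ω _ => ?_
    rw [cnt_eq]
    split_ifs with h3 <;> simp [h3]
  rw [h2] at h1
  have h3 : ∀ ω, (cnt (T ω) : ℝ) ≤ θ * Fintype.card (I → Bool) := fun ω =>
    (div_le_iff₀ hY).1 (h ω)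
  have h4 := (Nat.cast_le (α := ℝ)).2 h1
  rw [Nat.cast_mul, Nat.cast_sum] at h4
  have h5 := h4.trans (sum_le_sum fun ω _ => h3 ω)
  rw [sum_const, card_univ, nsmul_eq_mul, ← mul_assoc] at h5
  rw [pr, div_le_iff₀ hO, mul_comm]
  exact le_of_mul_le_mul_right h5 hY

/-- Independence of the rows: `Fintype.card_piFinset`, `Equiv.curry`. -/
theorem pr_pi {J S : Type} [Fintype J] [DecidableEq J] [Fintype S] [DecidableEq S]
    (H : J → (S → Bool) → Prop) :
    pr (fun y : J × S → Bool => ∀ j, H j (fun i => y (j, i))) = ∏ j, pr (H j) := by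
  classical
  have h1 : cnt (fun y : J × S → Bool => ∀ j, H j (fun i => y (j, i))) = ∏ j, cnt (H j) := by
    simp only [cnt_eq]
    rw [← Fintype.card_piFinset]
    exact card_equiv (Equiv.curry J S Bool) fun y => by
      simp only [mem_filter, mem_univ, true_and, Fintype.mem_piFinset]
      rfl
  have h2 : Fintype.card (J × S → Bool) = ∏ _j : J, Fintype.card (S → Bool) := by
    rw [Fintype.card_congr (Equiv.curry J S Bool), Fintype.card_pi]
  simp only [pr]
  rw [h1, h2, prod_div_distrib, Nat.cast_prod, Nat.cast_prod]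

/-- Some unit vector `Pi.single i 1` is not in `Λ`; flipping bit `i` maps the points of `Λ`
injectively to points outside `Λ`. -/
theorem pr_half {S : Type} [Fintype S] [DecidableEq S] (Λ : AddSubgroup (S → ℤ)) (h : Λ ≠ ⊤) :
    pr (fun b : S → Bool => bv b ∈ Λ) ≤ 1 / 2 := by
  classical
  obtain ⟨i, hi⟩ : ∃ i, Pi.single i (1 : ℤ) ∉ Λ := by
    by_contra h1
    refine h ((AddSubgroup.eq_top_iff' _).2 fun x => ?_)
    rw [pi_eq_sum_univ' x]
    exact Λ.sum_mem fun i _ => Λ.zsmul_mem (not_not.1 fun h2 => h1 ⟨i, h2⟩) _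
  let f : (S → Bool) → S → Bool := fun b => Function.update b i (!b i)
  have hf : Function.Involutive f := fun b => by simp [f]
  have h1 := TBlk_cnt_inj (p := fun b => bv b ∈ Λ) (q := fun b => ¬ bv b ∈ Λ) f hf.injective
    fun b hb hb' => hi (by
      have e : bv (f b) - bv b = (bz (!b i) - bz (b i)) • Pi.single i 1 := by
        funext j
        by_cases hj : j = i
        · subst hj; simp [f, bv]
        · simp [f, bv, hj]
      have h2 := Λ.sub_mem hb' hb
      rw [e] at h2
      cases hbi : b i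
      · simpa [hbi, bz] using h2
      · simpa [hbi, bz] using h2)
  have h2 := card_filter_add_card_filter_not (s := univ) fun b : S → Bool => bv b ∈ Λ
  rw [cnt_eq, cnt_eq] at h1
  have hY : (0 : ℝ) < Fintype.card (S → Bool) := by exact_mod_cast Fintype.card_pos
  rw [pr, div_le_iff₀ hY, cnt_eq, ← card_univ, ← h2, Nat.cast_add]
  have := (Nat.cast_le (α := ℝ)).2 h1
  linarith

/-- Number of small subsets: for `0 < x ≤ 1`, it is at most `x^(-δ n) ∑_S x^|S| = x^(-δ n) (1+x)^n`
(`Finset.prod_one_add` / `Finset.sum_pow_of_commute`); take `1 + x ≤ 2^(ε/2)`, then `δ` with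
`x^(-δ) ≤ 2^(ε/2)`. -/
theorem cnt_small_sets {ε : ℝ} (hε : 0 < ε) : ∃ δ > (0 : ℝ), ∀ n : ℕ,
    (cnt (fun S : Finset (Fin n) => (S.card : ℝ) ≤ δ * n) : ℝ) ≤ (2 : ℝ) ^ (ε * n) := by
  classical
  have h1 : (1 : ℝ) < 2 ^ (ε / 2) := Real.one_lt_rpow one_lt_two (by linarith)
  set x : ℝ := min 1 (2 ^ (ε / 2) - 1) with hx
  have hx0 : 0 < x := lt_min one_pos (by linarith)
  have hx1 : x ≤ 1 := min_le_left _ _
  have hx2 : x + 1 ≤ 2 ^ (ε / 2) := by linarith [min_le_right 1 ((2 : ℝ) ^ (ε / 2) - 1)]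
  have hL : 0 ≤ -Real.log x := neg_nonneg.2 (Real.log_nonpos hx0.le hx1)
  have h2 : 0 < Real.log 2 * (ε / 2) := mul_pos (Real.log_pos one_lt_two) (by linarith)
  set δ : ℝ := Real.log 2 * (ε / 2) / (-Real.log x + 1) with hδ
  have hδ0 : 0 < δ := by positivity
  have h3 : x ^ (-δ) ≤ 2 ^ (ε / 2) := by
    rw [Real.rpow_def_of_pos hx0, Real.rpow_def_of_pos two_pos, Real.exp_le_exp]
    have : δ * (-Real.log x + 1) = Real.log 2 * (ε / 2) := by rw [hδ]; field_simp
    nlinarith
  refine ⟨δ, hδ0, fun n => ?_⟩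
  calc (cnt (fun S : Finset (Fin n) => (S.card : ℝ) ≤ δ * n) : ℝ)
      ≤ ∑ S : Finset (Fin n), x ^ S.card * 1 ^ (Fintype.card (Fin n) - S.card) * (x ^ (-δ)) ^ n := by
        rw [cnt_eq, card_filter, Nat.cast_sum]
        refine sum_le_sum fun S _ => ?_
        split_ifs with h4
        · rw [one_pow, mul_one, ← Real.rpow_natCast, ← Real.rpow_natCast, ← Real.rpow_mul hx0.le,
            ← Real.rpow_add hx0, Nat.cast_one]
          exact Real.one_le_rpow_of_pos_of_le_one_of_nonpos hx0 hx1 (by linarith)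
        · rw [Nat.cast_zero]; positivity
    _ = (x + 1) ^ n * (x ^ (-δ)) ^ n := by
        rw [← sum_mul, Fintype.sum_pow_mul_eq_add_pow, Fintype.card_fin]
    _ ≤ (2 ^ (ε / 2)) ^ n * (2 ^ (ε / 2)) ^ n := by gcongr
    _ = (2 : ℝ) ^ (ε * n) := by
        rw [← mul_pow, ← Real.rpow_add two_pos, add_halves, Real.rpow_mul zero_le_two,
          Real.rpow_natCast]

end Vale.Agent.P160
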