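import Vale.Agent.P160.TDefs

open Finset Filter Matrix

namespace Vale.Agent.P160

open Classical in
theorem tbord_ite {α : Type} [Fintype α] (p : α → Prop) :
    pr p = (∑ a, if p a then (1 : ℝ) else 0) / Fintype.card α := by
  rw [pr, cnt_eq, sum_boole]

theorem tbord_bij {α β : Type} [Fintype α] [Fintype β] {f : α → β} (hf : Function.Bijective f)
    (P : β → Prop) : pr (fun a => P (f a)) = pr P := by
  classical
  rw [tbord_ite, tbord_ite, Fintype.card_of_bijective hf,
    hf.sum_comp fun b => if P b then (1 : ℝ) else 0]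

/-- `ω ↦ (del i ω, col i ω, dia i ω)` is a bijection. Injective: every unordered pair is `s(i,i)`,
`s(i, i.succAbove j)` or `s(i.succAbove j, i.succAbove k)` (`Fin.succAboveCases`,
`Fin.exists_succAbove_eq`); surjective: build the symmetric function with `Sym2.lift` and
`Fin.insertNth` or `finSuccEquiv'` (or compare cardinalities, `Sym2.card`). Then
`Finset.card_bij` / `Equiv`. -/
theorem pr_bord {m : ℕ} (i : Fin (m + 1)) (P : Om m → (Fin m → Bool) → Bool → Prop) :
    pr (fun ω : Om (m + 1) => P (del i ω) (col i ω) (dia i ω)) =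
      pr (fun x : Om m × (Fin m → Bool) × Bool => P x.1 x.2.1 x.2.2) := by
  refine tbord_bij (f := fun ω : Om (m + 1) => (del i ω, col i ω, dia i ω)) ⟨?_, ?_⟩
    fun x => P x.1 x.2.1 x.2.2
  · intro ω ω' h
    simp only [Prod.mk.injEq] at h
    obtain ⟨h1, h2, h3⟩ := h
    funext e
    induction e using Sym2.ind with
    | _ j k =>
      induction j using Fin.succAboveCases i with
      | x =>
        induction k using Fin.succAboveCases i with
        | x => exact h3
        | p k => exact congrFun h2 k
      | p j =>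
        induction k using Fin.succAboveCases i with
        | x => rw [Sym2.eq_swap]; exact congrFun h2 j
        | p k => exact congrFun h1 s(j, k)
  · rintro ⟨ω, b, d⟩
    let g : Fin (m + 1) → Fin (m + 1) → Bool := i.insertNth (i.insertNth d b)
      fun j => i.insertNth (b j) fun k => ω s(j, k)
    have hg : ∀ j k, g j k = g k j := by
      intro j k
      induction j using Fin.succAboveCases i with
      | x =>
        induction k using Fin.succAboveCases i with
        | x => rfl
        | p k => simp [g]
      | p j =>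
        induction k using Fin.succAboveCases i with
        | x => simp [g]
        | p k => simp [g, Sym2.eq_swap]
    refine ⟨Sym2.lift ⟨g, hg⟩, Prod.ext ?_ (Prod.ext ?_ ?_)⟩
    · funext e
      induction e using Sym2.ind with
      | _ j k => simp [del, g]
    · funext j
      simp [col, g]
    · simp [dia, g]

/-- Fubini on a product of two finite types. -/
theorem pr_prod {α β : Type} [Fintype α] [Fintype β] (P : α → β → Prop) :
    pr (fun x : α × β => P x.1 x.2) = (∑ a, pr (P a)) / Fintype.card α := by
  simp only [tbord_ite]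
  rw [Fintype.sum_prod_type, ← sum_div, Fintype.card_prod, Nat.cast_mul, div_div, mul_comm]

theorem tbord_col {m : ℕ} (i : Fin (m + 1)) (T : Om m → (Fin m → Bool) → Prop) :
    pr (fun ω : Om (m + 1) => T (del i ω) (col i ω)) =
      (∑ a, pr (T a)) / Fintype.card (Om m) := by
  rw [pr_bord i fun a b _ => T a b,
    pr_prod fun (a : Om m) (y : (Fin m → Bool) × Bool) => T a y.1]
  congr 1
  refine sum_congr rfl fun a _ => ?_
  rw [pr_prod fun (b : Fin m → Bool) (_ : Bool) => T a b, tbord_ite (T a)]
  congr 1
  refine sum_congr rfl fun b _ => ?_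
  rw [tbord_ite]
  split_ifs <;> simp

/-- From `pr_bord`, `pr_prod`: split the sum over `ω'` into `B` (use `pr_le_one`) and `¬ B`. -/
theorem pr_col_le {m : ℕ} (i : Fin (m + 1)) (B : Om m → Prop)
    (T : Om m → (Fin m → Bool) → Prop) {K : ℝ} (hK : 0 ≤ K)
    (h : ∀ ω, ¬ B ω → (cnt (T ω) : ℝ) ≤ K) :
    pr (fun ω : Om (m + 1) => T (del i ω) (col i ω)) ≤ pr B + K / 2 ^ m := by
  classical
  have hc : (0 : ℝ) < Fintype.card (Om m) := by exact_mod_cast Fintype.card_pos
  have h1 : ∀ a, pr (T a) ≤ (if B a then (1 : ℝ) else 0) + K / 2 ^ m := by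
    intro a
    split_ifs with ha
    · exact (pr_le_one _).trans (le_add_of_nonneg_right (by positivity))
    · rw [zero_add, pr]
      simp only [Fintype.card_pi, Fintype.card_bool, prod_const, card_univ, Fintype.card_fin,
        Nat.cast_pow, Nat.cast_ofNat]
      exact div_le_div_of_nonneg_right (h a ha) (by positivity)
  rw [tbord_col, tbord_ite B]
  refine (div_le_div_of_nonneg_right (sum_le_sum fun a _ => h1 a) hc.le).trans (le_of_eq ?_)
  rw [sum_add_distrib, add_div, sum_const, card_univ, nsmul_eq_mul, mul_div_cancel_left₀ _ hc.ne']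

theorem pr_col_ge {m : ℕ} (i : Fin (m + 1)) (G : Om m → Prop)
    (T : Om m → (Fin m → Bool) → Prop) {θ : ℝ} (h : ∀ ω, G ω → θ ≤ pr (T ω)) :
    pr G * θ ≤ pr (fun ω : Om (m + 1) => G (del i ω) ∧ T (del i ω) (col i ω)) := by
  classical
  rw [tbord_col i fun a b => G a ∧ T a b, tbord_ite G, div_mul_eq_mul_div, sum_mul]
  refine div_le_div_of_nonneg_right (sum_le_sum fun a _ => ?_) (by positivity)
  split_ifs with ha
  · rw [one_mul]
    exact (h a ha).trans (pr_mono fun b hb => ⟨ha, hb⟩)
  · rw [zero_mul]
    exact pr_nonneg _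

end Vale.Agent.P160
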