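import Vale.Agent.P160.TDefs

open Finset Filter Matrix

namespace Vale.Agent.P160

/-- Odlyzko's lemma. There is a set `I` of `finrank U` coordinates such that restriction to `I` is
injective on `U` (the coordinate functionals span the dual of `U`: `exists_linearIndepOn_extension`
/ `exists_linearIndependent`), or induct on `m` (`Fin.succ`, split on whether
`Pi.single 0 1 ∈ U`). -/
theorem odlyzko {K : Type} [Field K] {m : ℕ} (U : Submodule K (Fin m → K)) :
    cnt (fun b : Fin m → Bool => (fun i => ((bv b i : ℤ) : K)) ∈ U) ≤ 2 ^ Module.finrank K U := by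
  classical
  let f : Fin m → Module.Dual K U := fun i => (LinearMap.proj i).comp U.subtype
  obtain ⟨κ, a, ha, hsp, hli⟩ := exists_linearIndependent' K f
  have : Fintype κ := Fintype.ofInjective a ha
  have h1 : Fintype.card κ ≤ Module.finrank K U := by
    simpa using hli.fintype_card_le_finrank
  refine le_trans ?_ (Nat.pow_le_pow_right two_pos h1)
  rw [cnt_eq, ← Fintype.card_bool, ← Fintype.card_fun, ← card_univ]
  refine card_le_card_of_injOn (fun b k => b (a k)) (fun _ _ => mem_univ _) fun b hb b' hb' h => ?_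
  simp only [coe_filter, mem_univ, true_and, Set.mem_ofPred_eq] at hb hb'
  funext i
  have h2 : f i ∈ Submodule.span K (Set.range (f ∘ a)) := by
    rw [hsp]; exact Submodule.subset_span ⟨i, rfl⟩
  have h3 : f i ⟨_, U.sub_mem hb hb'⟩ = 0 := by
    refine (Submodule.span_le (p := LinearMap.ker (Module.Dual.eval K U ⟨_, U.sub_mem hb hb'⟩))).2
      ?_ h2
    rintro _ ⟨k, rfl⟩
    have h4 : b (a k) = b' (a k) := congrFun h k
    simp [f, bv, h4]
  simp only [f, LinearMap.comp_apply, Submodule.subtype_apply, LinearMap.proj_apply, Pi.sub_apply,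
    bv, bz] at h3
  revert h3
  cases b i <;> cases b' i <;> simp

/-- Symmetric bordering by a vector `b` outside the column space raises the rank by two: the kernel
of the bordered matrix is `{(0, x) : C x = 0, b ⬝ x = 0}`, and `b ⬝ ·` is not zero on `ker C`
(since `C` is symmetric, the column space is the annihilator of the kernel); rank-nullity. -/
theorem rk_border {m : ℕ} (ω : Om (m + 1))
    (h : (fun j => ((bv (col 0 ω) j : ℤ) : ℚ)) ∉
      LinearMap.range ((mat (del 0 ω)).map (Int.cast : ℤ → ℚ)).mulVecLin) :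
    rk (mat ω) = rk (mat (del 0 ω)) + 2 := by
  set b : Fin m → ℚ := fun j => ((bv (col 0 ω) j : ℤ) : ℚ) with hb
  set C := (mat (del 0 ω)).map (Int.cast : ℤ → ℚ) with hC
  set A := (mat ω).map (Int.cast : ℤ → ℚ) with hA
  have hs : Cᵀ = C := (mat_isSymm _).map _
  have r1 : ∀ (x : Fin (m + 1) → ℚ) (j : Fin m),
      A.mulVec x j.succ = b j * x 0 + C.mulVec (fun k => x k.succ) j := fun x j => by
    simp only [mulVec, dotProduct, Fin.sum_univ_succ, hA, hC, hb, map_apply, mat_del, bv_col,
      submatrix_apply, Fin.succAbove_zero, mat_symm ω 0]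
  have r0 : ∀ x : Fin (m + 1) → ℚ,
      A.mulVec x 0 = A 0 0 * x 0 + b ⬝ᵥ fun k => x k.succ := fun x => by
    simp only [mulVec, dotProduct, Fin.sum_univ_succ, hA, hb, map_apply, bv_col,
      Fin.succAbove_zero]
  obtain ⟨φ, hφ, hφ'⟩ := Submodule.exists_dual_map_eq_bot_of_notMem h inferInstance
  obtain ⟨y, rfl⟩ := (dotProductEquiv ℚ (Fin m)).surjective φ
  have hy : y ⬝ᵥ b ≠ 0 := hφ
  have hy0 : C.mulVec y = 0 := by
    refine dotProduct_eq_zero _ fun z => ?_
    have : y ⬝ᵥ C.mulVec z ∈ (⊥ : Submodule ℚ ℚ) := hφ' ▸ ⟨_, ⟨z, rfl⟩, rfl⟩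
    rwa [Submodule.mem_bot, dotProduct_mulVec, ← mulVec_transpose, hs] at this
  let P : Submodule ℚ (Fin m → ℚ) :=
    LinearMap.ker C.mulVecLin ⊓ LinearMap.ker (dotProductEquiv ℚ (Fin m) b)
  have hP : ∀ x, x ∈ P ↔ C.mulVec x = 0 ∧ b ⬝ᵥ x = 0 := fun x => Iff.rfl
  rw [dotProduct_comm] at hy
  have k1 : LinearMap.ker C.mulVecLin = P ⊔ Submodule.span ℚ {y} := by
    refine le_antisymm (fun x hx => ?_) (sup_le inf_le_left ((Submodule.span_singleton_le_iff_mem
      _ _).2 hy0))
    have hx : C.mulVec x = 0 := hx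
    refine Submodule.mem_sup.2 ⟨x - (b ⬝ᵥ x / b ⬝ᵥ y) • y, (hP _).2 ⟨?_, ?_⟩,
      (b ⬝ᵥ x / b ⬝ᵥ y) • y, Submodule.smul_mem _ _ (Submodule.mem_span_singleton_self y), by simp⟩
    · rw [mulVec_sub, mulVec_smul, hx, hy0, smul_zero, sub_zero]
    · rw [dotProduct_sub, dotProduct_smul, smul_eq_mul, div_mul_cancel₀ _ hy, sub_self]
  let ι : (Fin m → ℚ) →ₗ[ℚ] (Fin (m + 1) → ℚ) := LinearMap.vecCons 0 LinearMap.id
  have hι : Function.Injective ι := fun x x' hx => funext fun j => congrFun hx j.succ
  have k2 : LinearMap.ker A.mulVecLin = P.map ι := by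
    ext x
    constructor
    · intro hx
      have hx : A.mulVec x = 0 := hx
      have h0 : x 0 = 0 := by
        by_contra h0
        refine h ⟨(-(x 0)⁻¹) • fun k => x k.succ, funext fun j => ?_⟩
        have := r1 x j
        rw [hx, Pi.zero_apply] at this
        rw [mulVecLin_apply, mulVec_smul, Pi.smul_apply, smul_eq_mul]
        field_simp
        linarith
      refine ⟨fun k => x k.succ, (hP _).2 ⟨funext fun j => ?_, ?_⟩, funext fun j => ?_⟩
      · simpa [hx, h0] using (r1 x j).symm
      · simpa [hx, h0] using (r0 x).symm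
      · exact Fin.cases h0.symm (fun _ => rfl) j
    · rintro ⟨z, hz, rfl⟩
      obtain ⟨z1, z2⟩ := (hP _).1 hz
      refine funext fun j => Fin.cases ?_ (fun j => ?_) j
      · exact (r0 _).trans ((congrArg₂ (· + ·) (mul_zero _) z2).trans (add_zero _))
      · exact (r1 _ j).trans ((congrArg₂ (· + ·) (mul_zero _) (congrFun z1 j)).trans (add_zero _))
  have d1 := LinearMap.finrank_range_add_finrank_ker C.mulVecLin
  have d2 := LinearMap.finrank_range_add_finrank_ker A.mulVecLin
  rw [k1, Submodule.finrank_sup_span_singleton fun h1 => hy ((hP _).1 h1).2] at d1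
  rw [k2, ← (Submodule.equivMapOfInjective ι hι P).finrank_eq] at d2
  simp only [Module.finrank_fin_fun] at d1 d2
  change Module.finrank ℚ (LinearMap.range A.mulVecLin) =
    Module.finrank ℚ (LinearMap.range C.mulVecLin) + 2
  omega

end Vale.Agent.P160
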