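import Vale.Agent.P160.TBord
import Vale.Agent.P160.TOdl

open Finset Filter Matrix

namespace Vale.Agent.P160

theorem rk_lt_of_det {m : ℕ} {A : Matrix (Fin m) (Fin m) ℤ} (h : A.det = 0) : rk A < m := by
  have h0 : (A.map (Int.cast : ℤ → ℚ)).det = 0 := by rw [← Int.cast_det, h, Int.cast_zero]
  obtain ⟨v, hv0, hv⟩ := exists_mulVec_eq_zero_iff.2 h0
  have h1 := LinearMap.finrank_range_add_finrank_ker (A.map (Int.cast : ℤ → ℚ)).mulVecLin
  rw [Module.finrank_fin_fun] at h1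
  have h2 : Module.finrank ℚ (LinearMap.ker (A.map (Int.cast : ℤ → ℚ)).mulVecLin) ≠ 0 := by
    rw [Ne, Submodule.finrank_eq_zero, Submodule.eq_bot_iff]
    exact fun h3 => hv0 (h3 v hv)
  unfold rk Matrix.rank
  omega

theorem tcork_not {α : Type} [Fintype α] [Nonempty α] (p : α → Prop) :
    1 - pr p ≤ pr fun a => ¬ p a := by
  have h1 := (pr_mono (p := fun _ : α => True) fun a _ => em (p a)).trans
    (pr_or_le p fun a => ¬ p a)
  have h2 : pr (fun _ : α => True) = 1 := by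
    have hc : (Fintype.card α : ℝ) ≠ 0 := by exact_mod_cast Fintype.card_ne_zero
    rw [pr, cnt_eq, filter_true, card_univ, div_self hc]
  linarith

/-- `pr_col_ge 0` with `T ω' b` = `b` is outside the column space, `odlyzko` (the column space has
dimension `m - h - 1 ≤ m - 2`), `rk_border`. -/
theorem pc_step {m h : ℕ} (hh : 1 ≤ h) : pc m (h + 1) * (3 / 4) ≤ pc (m + 1) h := by
  refine (pr_col_ge 0 (fun ω : Om m => rk (mat ω) + (h + 1) = m)
    (fun ω b => (fun j => ((bv b j : ℤ) : ℚ)) ∉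
      LinearMap.range ((mat ω).map (Int.cast : ℤ → ℚ)).mulVecLin) fun ω hω => ?_).trans
    (pr_mono fun ω hω => ?_)
  · refine le_trans ?_ (tcork_not _)
    have h1 := odlyzko (LinearMap.range ((mat ω).map (Int.cast : ℤ → ℚ)).mulVecLin)
    have h2 : 2 ^ rk (mat ω) * 4 ≤ 2 ^ m := by
      rw [show 4 = 2 ^ 2 from rfl, ← pow_add]
      exact Nat.pow_le_pow_right two_pos (by omega)
    have h3 : (cnt fun b : Fin m → Bool => (fun i => ((bv b i : ℤ) : ℚ)) ∈
        LinearMap.range ((mat ω).map (Int.cast : ℤ → ℚ)).mulVecLin : ℝ) * 4 ≤ 2 ^ m := by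
      exact_mod_cast (Nat.mul_le_mul_right 4 h1).trans h2
    rw [pr, le_sub_comm, div_le_iff₀ (by exact_mod_cast Fintype.card_pos)]
    simp only [Fintype.card_pi, Fintype.card_bool, prod_const, card_univ, Fintype.card_fin,
      Nat.cast_pow, Nat.cast_ofNat]
    linarith
  · have := rk_border ω hω.2
    have := hω.1
    omega

/-- `pc m (h+1) ≤ (4/3)^h pc (m+h) 1 ≤ x^m`, and `q01 m ≤ ∑_{h < m} pc m (h+1)`
(`pr_exists_le`). -/
theorem q01_le {x : ℝ} (hx : 0 ≤ x) (hx1 : x ≤ 3 / 4) {m₀ : ℕ}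
    (h : ∀ n, m₀ ≤ n → pc n 1 ≤ x ^ n) {m : ℕ} (hm : m₀ ≤ m) : q01 m ≤ m * x ^ m := by
  have key : ∀ k n, m₀ ≤ n → pc n (k + 1) ≤ x ^ n := by
    intro k
    induction k with
    | zero => exact h
    | succ k ih =>
      intro n hn
      have h1 := (pc_step (m := n) (Nat.succ_pos k)).trans (ih (n + 1) (by omega))
      rw [pow_succ] at h1
      linarith [mul_le_mul_of_nonneg_left hx1 (pow_nonneg hx n)]
  refine (pr_mono (q := fun ω : Om m => ∃ k ∈ range m, rk (mat ω) + (k + 1) = m)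
    fun ω hω => ?_).trans ((pr_exists_le _ _).trans ?_)
  · have := rk_lt_of_det hω
    exact ⟨m - rk (mat ω) - 1, mem_range.2 (by omega), by omega⟩
  · refine (sum_le_card_nsmul _ _ _ fun k _ => key k m hm).trans (le_of_eq ?_)
    rw [card_range, nsmul_eq_mul]

end Vale.Agent.P160
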