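import Vale.Agent.P160.TDefs

open Finset Filter Matrix

namespace Vale.Agent.P160

theorem tdiv_binom (n k : ℕ) {x : ℝ} (h0 : 0 < x) (h1 : x ≤ 1) :
    (∑ j ∈ range (k + 1), (n.choose j : ℝ)) * x ^ k ≤ (1 + x) ^ n := by
  have e : (1 + x) ^ n = ∑ j ∈ range (n + k + 1), x ^ j * (n.choose j : ℝ) := by
    rw [add_comm, add_pow]
    simp only [one_pow, mul_one]
    refine sum_subset (range_subset_range.2 (by omega)) fun j _ hj => ?_
    rw [Nat.choose_eq_zero_of_lt (by simpa using hj), Nat.cast_zero, mul_zero]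
  rw [e, sum_mul]
  refine le_trans (sum_le_sum fun j hj => ?_) (sum_le_sum_of_subset_of_nonneg
    (range_subset_range.2 (by omega : k + 1 ≤ n + k + 1)) fun j _ _ => by positivity)
  rw [mul_comm]
  exact mul_le_mul_of_nonneg_right
    (pow_le_pow_of_le_one h0.le h1 (Nat.lt_succ_iff.1 (mem_range.1 hj))) (by positivity)

theorem tdiv_prod (n : ℕ) (hn : n ≠ 0) : (n.primeFactorsList : Multiset ℕ).prod = n := by
  rw [Multiset.prod_coe, Nat.prod_primeFactorsList hn]

theorem tdiv_card_le {N : ℕ} (hN : 0 < N) {T : Multiset ℕ}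
    (hT : T ≤ (N.primeFactorsList : Multiset ℕ)) {y : ℕ} (hy : ∀ p ∈ T, y ≤ p) :
    y ^ T.card ≤ N := by
  refine (Multiset.pow_card_le_prod hy).trans (Nat.le_of_dvd hN ?_)
  have := Multiset.prod_dvd_prod_of_le hT
  rwa [tdiv_prod N hN.ne'] at this

/-- the combinatorial part -/
theorem tdiv_comb {m N : ℕ} (hm : 1 ≤ m) (hN : 0 < N) (hNm : N ≤ m ^ m) (k : ℕ) :
    ∃ (G : Finset ℕ) (n : ℕ), n ≤ 2 * m ∧
      G.card ≤ (m ^ 2 + 1) ^ (Nat.sqrt m + 1) + ∑ j ∈ range (k + 1), n.choose j ∧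
      ∀ d : ℕ, d ∣ N → ∃ P ∈ G, P ∣ d ∧ (d ≤ P ^ 2 ∨ m ^ k ≤ P ^ 2) := by
  classical
  set Y := Nat.sqrt m with hY
  set M : Multiset ℕ := (N.primeFactorsList : Multiset ℕ) with hM
  have hmY : m ≤ (Y + 1) ^ 2 := (Nat.lt_succ_sqrt' m).le
  have hY1 : 1 < Y + 1 := Nat.succ_lt_succ (Nat.sqrt_pos.2 hm)
  have hcard : M.card ≤ m ^ 2 := by
    have h1 := tdiv_card_le hN le_rfl (y := 2) fun p hp =>
      (Nat.prime_of_mem_primeFactorsList (Multiset.mem_coe.1 hp)).two_le
    have h2 : m ^ m ≤ 2 ^ (m ^ 2) := by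
      rw [pow_two, pow_mul]
      exact Nat.pow_le_pow_left Nat.lt_two_pow_self.le m
    exact (Nat.pow_le_pow_iff_right one_lt_two).1 (h1.trans (hNm.trans h2))
  refine ⟨(Iic (M.filter fun p => ¬ Y < p)).image Multiset.prod ∪
    (range (k + 1)).biUnion fun j =>
      (((M.filter fun p => Y < p).powersetCard j).map Multiset.prod).toFinset,
    (M.filter fun p => Y < p).card, ?_, ?_, fun d hd => ?_⟩
  · have h1 := tdiv_card_le hN (Multiset.filter_le (fun p => Y < p) M) (y := Y + 1)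
      fun p hp => (Multiset.mem_filter.1 hp).2
    have h2 : m ^ m ≤ (Y + 1) ^ (2 * m) := by
      rw [pow_mul]; exact Nat.pow_le_pow_left hmY m
    exact (Nat.pow_le_pow_iff_right hY1).1 (h1.trans (hNm.trans h2))
  · refine (card_union_le _ _).trans (add_le_add ?_ ?_)
    · refine card_image_le.trans ?_
      rw [Multiset.card_Iic]
      refine (prod_le_pow_card _ _ (m ^ 2 + 1) fun p _ => ?_).trans
        (Nat.pow_le_pow_right (Nat.succ_pos _) ?_)
      · exact Nat.succ_le_succ ((Multiset.count_le_card _ _).trans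
          ((Multiset.card_le_card (Multiset.filter_le _ _)).trans hcard))
      · refine (card_le_card fun p hp => ?_).trans (card_range (Y + 1)).le
        have := (Multiset.mem_filter.1 (Multiset.mem_toFinset.1 hp)).2
        exact mem_range.2 (by omega)
    · refine card_biUnion_le.trans (sum_le_sum fun j _ => ?_)
      refine (Multiset.toFinset_card_le _).trans ?_
      rw [Multiset.card_map, Multiset.card_powersetCard]
  · have hd0 : d ≠ 0 := fun h => hN.ne' (Nat.eq_zero_of_zero_dvd (h ▸ hd))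
    set D : Multiset ℕ := (d.primeFactorsList : Multiset ℕ) with hD
    have hDM : D ≤ M := Multiset.coe_le.2 (Nat.primeFactorsList_sublist_of_dvd hd hN.ne').subperm
    have hdv : ∀ T ≤ D, T.prod ∣ d := fun T hT => by
      have := Multiset.prod_dvd_prod_of_le hT
      rwa [tdiv_prod d hd0] at this
    have mem2 : ∀ T ≤ D.filter fun p => Y < p, T.card ≤ k → T.prod ∈
        (Iic (M.filter fun p => ¬ Y < p)).image Multiset.prod ∪ (range (k + 1)).biUnion fun j =>
          (((M.filter fun p => Y < p).powersetCard j).map Multiset.prod).toFinset :=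
      fun T hT hk => mem_union_right _ (mem_biUnion.2 ⟨T.card, mem_range.2 (by omega),
        Multiset.mem_toFinset.2 (Multiset.mem_map_of_mem _ (Multiset.mem_powersetCard.2
          ⟨hT.trans (Multiset.filter_le_filter _ hDM), rfl⟩))⟩)
    by_cases hk : (D.filter fun p => Y < p).card ≤ k
    · have e : (D.filter fun p => Y < p).prod * (D.filter fun p => ¬ Y < p).prod = d := by
        rw [Multiset.prod_filter_mul_prod_filter_not, tdiv_prod d hd0]
      rcases le_total (D.filter fun p => Y < p).prod (D.filter fun p => ¬ Y < p).prod with h | h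
      · refine ⟨_, mem_union_left _ (mem_image_of_mem _ (mem_Iic.2
          (Multiset.filter_le_filter _ hDM))), hdv _ (Multiset.filter_le _ _), Or.inl ?_⟩
        rw [pow_two]
        exact e.symm.le.trans (Nat.mul_le_mul_right _ h)
      · refine ⟨_, mem2 _ le_rfl hk, hdv _ (Multiset.filter_le _ _), Or.inl ?_⟩
        rw [pow_two]
        exact e.symm.le.trans (Nat.mul_le_mul_left _ h)
    · obtain ⟨T, hT⟩ : ∃ T, T ∈ (D.filter fun p => Y < p).powersetCard k := by
        refine Multiset.card_pos_iff_exists_mem.1 ?_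
        rw [Multiset.card_powersetCard]
        exact Nat.choose_pos (by omega)
      obtain ⟨h1, h2⟩ := Multiset.mem_powersetCard.1 hT
      refine ⟨_, mem2 T h1 h2.le, hdv _ (h1.trans (Multiset.filter_le _ _)), Or.inr ?_⟩
      have h3 : (Y + 1) ^ T.card ≤ T.prod := Multiset.pow_card_le_prod
        fun p hp => (Multiset.mem_filter.1 (Multiset.mem_of_le h1 hp)).2
      rw [h2] at h3
      refine (Nat.pow_le_pow_left hmY k).trans ?_
      rw [← pow_mul, mul_comm, pow_mul]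
      exact Nat.pow_le_pow_left h3 2

theorem tdiv_smooth {a : ℝ} (ha : 0 < a) : ∀ᶠ m : ℕ in atTop,
    (((m ^ 2 + 1) ^ (Nat.sqrt m + 1) : ℕ) : ℝ) ≤ Real.exp (a * m) := by
  have h := (isLittleO_log_rpow_atTop (r := 1 / 2) (by norm_num)).def (c := a / 6) (by positivity)
  filter_upwards [tendsto_natCast_atTop_atTop.eventually h, eventually_ge_atTop 2] with m h1 h2
  have m2 : (2 : ℝ) ≤ m := by exact_mod_cast h2
  have l0 : 0 ≤ Real.log m := Real.log_nonneg (by linarith)
  rw [Real.norm_of_nonneg l0, ← Real.sqrt_eq_rpow, Real.norm_of_nonneg (Real.sqrt_nonneg _)] at h1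
  have s1 : (Nat.sqrt m : ℝ) ≤ √(m : ℝ) := Real.nat_sqrt_le_real_sqrt
  have s2 : 1 ≤ √(m : ℝ) := Real.one_le_sqrt.2 (by linarith)
  have s3 : √(m : ℝ) * √(m : ℝ) = m := Real.mul_self_sqrt (by linarith)
  have b1 : (m : ℝ) ^ 2 + 1 ≤ Real.exp (3 * Real.log m) := by
    rw [show (3 : ℝ) * Real.log m = (3 : ℕ) * Real.log m by norm_num, Real.exp_nat_mul,
      Real.exp_log (by linarith)]
    nlinarith [mul_le_mul_of_nonneg_right m2 (sq_nonneg (m : ℝ))]
  push_cast
  refine (pow_le_pow_left₀ (by positivity) b1 _).trans ?_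
  rw [← Real.exp_nat_mul]
  refine Real.exp_le_exp.2 ?_
  push_cast
  have b2 := mul_le_mul (by linarith : (Nat.sqrt m : ℝ) + 1 ≤ 2 * √(m : ℝ))
    (by linarith : 3 * Real.log m ≤ a / 2 * √(m : ℝ)) (by positivity) (by positivity)
  nlinarith

/-- Few divisors cover all large divisors. Let `Y = Nat.sqrt m`, `W P` = number of prime factors
`> Y` of `P` with multiplicity, `F = {P ∣ N : m^(s' m) ≤ P, W P ≤ δ m + 1}`.
Size: `|F| ≤ x^(-δ m - 1) ∑_{P ∣ N} x^(W P) ≤ x^(-δ m - 1) (1 + x)^(W N) (log₂ N + 1)^(Y + 1)`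
(induct on `N` with `Nat.recOnPosPrimePosCoprime`, or inject divisors into exponent vectors) and
`W N ≤ 2 m` because `(Y+1)^(W N) ≤ N ≤ m^m`. Covering: `d = d₁ d₂` (`Y`-smooth part and rough
part); if `d₁ ≥ m^(s m/2)` take `P = d₁`; else take `P = d₂` if `W d₂ ≤ δ m + 1`, or the product
of `⌈δ m⌉` of the prime factors of `d₂` (`List.take` of `primeFactorsList`), which is
`≥ m^(δ m/2)`. So `s' = min (s/2) (δ/2)`. -/
theorem div_family {ε s : ℝ} (hε : 0 < ε) (hs : 0 < s) : ∃ s' > (0 : ℝ), ∀ᶠ m : ℕ in atTop,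
    ∀ N : ℕ, 0 < N → N ≤ m ^ m → ∃ F : Finset ℕ, (F.card : ℝ) ≤ (2 : ℝ) ^ (ε * m) ∧
      (∀ P ∈ F, P ∣ N ∧ (m : ℝ) ^ (s' * m) ≤ P) ∧
      ∀ d : ℕ, d ∣ N → (m : ℝ) ^ (s * m) ≤ d → ∃ P ∈ F, P ∣ d := by
  classical
  obtain ⟨a, ha⟩ : ∃ a, a = Real.log 2 * ε := ⟨_, rfl⟩
  have ha0 : 0 < a := ha ▸ mul_pos (Real.log_pos one_lt_two) hε
  obtain ⟨x, x0, x1, x2⟩ : ∃ x : ℝ, 0 < x ∧ x < 1 ∧ x ≤ a / 8 :=
    ⟨min (a / 8) (1 / 2), by positivity, (min_le_right _ _).trans_lt (by norm_num),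
      min_le_left _ _⟩
  obtain ⟨L, hL⟩ : ∃ L, L = -Real.log x := ⟨_, rfl⟩
  have L0 : 0 < L := hL ▸ neg_pos.2 (Real.log_neg x0 x1)
  have hx : x = Real.exp (-L) := by rw [hL, neg_neg, Real.exp_log x0]
  refine ⟨min s (a / (4 * L)) / 2, by positivity, ?_⟩
  filter_upwards [tdiv_smooth (a := a / 2) (by positivity), eventually_ge_atTop 1,
    tendsto_natCast_atTop_atTop.eventually_ge_atTop (2 * (L + 1) / a)] with m h1 h2 h3 N hN hNm
  have m1 : (1 : ℝ) ≤ m := by exact_mod_cast h2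
  obtain ⟨G, n, hn, hG, hc⟩ := tdiv_comb h2 hN hNm ⌈a / (4 * L) * m⌉₊
  set k := ⌈a / (4 * L) * m⌉₊ with hk
  have k1 : a / (4 * L) * m ≤ k := Nat.le_ceil _
  have k2 : (k : ℝ) ≤ a / (4 * L) * m + 1 := (Nat.ceil_lt_add_one (by positivity)).le
  refine ⟨G.filter fun P => P ∣ N ∧ (m : ℝ) ^ (min s (a / (4 * L)) / 2 * m) ≤ P, ?_,
    fun P hP => (mem_filter.1 hP).2, fun d hd hd' => ?_⟩
  · have b1 : (∑ j ∈ range (k + 1), (n.choose j : ℝ)) ≤ Real.exp (a / 2 * m + L) := by
      have c1 := tdiv_binom n k x0 x1.le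
      have c2 : (1 + x) ^ n ≤ Real.exp (a / 4 * m) := by
        refine (pow_le_pow_left₀ (by positivity) (by linarith [Real.add_one_le_exp x] :
          1 + x ≤ Real.exp x) n).trans ?_
        rw [← Real.exp_nat_mul]
        have : (n : ℝ) ≤ 2 * m := by exact_mod_cast hn
        exact Real.exp_le_exp.2 (by
          nlinarith [mul_le_mul this x2 x0.le (by positivity : (0 : ℝ) ≤ 2 * m)])
      have c3 : x ^ k = (Real.exp (k * L))⁻¹ := by
        rw [hx, ← Real.exp_nat_mul, ← Real.exp_neg, mul_neg]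
      rw [c3, mul_inv_le_iff₀ (Real.exp_pos _)] at c1
      refine c1.trans ((mul_le_mul_of_nonneg_right c2 (Real.exp_pos _).le).trans ?_)
      rw [← Real.exp_add]
      refine Real.exp_le_exp.2 ?_
      have c4 := mul_le_mul_of_nonneg_right k2 L0.le
      have c5 : (a / (4 * L) * m + 1) * L = a / 4 * m + L := by field_simp
      linarith
    have b2 : ((G.filter fun P => P ∣ N ∧
        (m : ℝ) ^ (min s (a / (4 * L)) / 2 * m) ≤ P).card : ℝ) ≤
        (((m ^ 2 + 1) ^ (Nat.sqrt m + 1) : ℕ) : ℝ) + ∑ j ∈ range (k + 1), (n.choose j : ℝ) := by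
      exact_mod_cast (card_filter_le _ _).trans hG
    have b3 : Real.exp (a / 2 * m) ≤ Real.exp (a / 2 * m + L) := Real.exp_le_exp.2 (by linarith)
    have b4 : Real.exp 1 * Real.exp (a / 2 * m + L) ≤ (2 : ℝ) ^ (ε * m) := by
      rw [Real.rpow_def_of_pos two_pos, ← mul_assoc, ← ha, ← Real.exp_add]
      rw [div_le_iff₀ ha0] at h3
      exact Real.exp_le_exp.2 (by linarith)
    have b5 := mul_le_mul_of_nonneg_right (Real.add_one_le_exp 1)
      (Real.exp_pos (a / 2 * m + L)).le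
    linarith
  · obtain ⟨P, hP, hPd, hP2⟩ := hc d hd
    refine ⟨P, mem_filter.2 ⟨hP, hPd.trans hd, ?_⟩, hPd⟩
    refine le_of_pow_le_pow_left₀ two_ne_zero (Nat.cast_nonneg _) ?_
    rw [← Real.rpow_natCast, ← Real.rpow_mul (by positivity)]
    have e : min s (a / (4 * L)) / 2 * m * (2 : ℕ) = min s (a / (4 * L)) * m := by
      push_cast; ring
    rw [e]
    rcases hP2 with h | h
    · refine le_trans (Real.rpow_le_rpow_of_exponent_le m1
        (mul_le_mul_of_nonneg_right (min_le_left _ _) (by positivity))) (hd'.trans ?_)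
      exact_mod_cast h
    · refine le_trans (Real.rpow_le_rpow_of_exponent_le m1
        ((mul_le_mul_of_nonneg_right (min_le_right _ _) (by positivity)).trans k1)) ?_
      rw [Real.rpow_natCast]
      exact_mod_cast h

end Vale.Agent.P160
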