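import Vale.Agent.P160.TTri
import Vale.Agent.P160.TDiv

open Finset Filter Matrix

namespace Vale.Agent.P160

theorem cov_union {α : Type} [Fintype α] {p : α → Prop} (F : Finset ℕ) (q : ℕ → α → Prop)
    {B : ℝ} (h : ∀ a, p a → ∃ P ∈ F, q P a) (hB : ∀ P ∈ F, (cnt (q P) : ℝ) ≤ B) :
    (cnt p : ℝ) ≤ F.card * B := by
  classical
  have h1 : cnt p ≤ ∑ P ∈ F, cnt (q P) := by
    simp only [cnt_eq]
    refine (card_le_card fun a ha => ?_).trans card_biUnion_le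
    obtain ⟨P, hP, hq⟩ := h a (mem_filter.1 ha).2
    exact mem_biUnion.2 ⟨P, hP, mem_filter.2 ⟨mem_univ _, hq⟩⟩
  have h2 : (cnt p : ℝ) ≤ ∑ P ∈ F, (cnt (q P) : ℝ) := by exact_mod_cast h1
  simpa using h2.trans (sum_le_card_nsmul _ _ _ hB)

theorem cov_two (κ : ℝ) (m : ℕ) :
    (2 : ℝ) ^ (κ * m) * (2 : ℝ) ^ (κ * m) = (2 : ℝ) ^ (2 * κ * m) := by
  rw [← Real.rpow_add two_pos]; congr 1; ring

/-- `div_family` with `ε = κ` for `N = |det C|`; `lat C N ≤ lat C P` for `P ∣ N`; each `lat C P`,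
`P ∈ F`, contains the columns and has index `≥ P ≥ m^(η m)` (`lat_index`), so it has fewer than
`2^(κ m)` cube points. -/
theorem cnt_big {κ s : ℝ} (hκ : 0 < κ) (hs : 0 < s) : ∃ η > (0 : ℝ), ∀ᶠ m : ℕ in atTop,
    ∀ C : Matrix (Fin m) (Fin m) ℤ, C.det ≠ 0 → C.det.natAbs ≤ m ^ m → ¬ RichE κ η C →
      (cnt (fun b : Fin m → Bool => Big s C (bv b)) : ℝ) ≤ (2 : ℝ) ^ (2 * κ * m) := by
  obtain ⟨η, η0, h⟩ := div_family hκ hs
  refine ⟨η, η0, h.mono fun m hm C hC hle hR => ?_⟩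
  obtain ⟨F, h1, h2, h3⟩ := hm _ (Int.natAbs_pos.2 hC) hle
  refine (cov_union F (fun P b => bv b ∈ lat C P) (B := (2 : ℝ) ^ (κ * m)) ?_ fun P hP => ?_).trans
    ((mul_le_mul_of_nonneg_right h1 (by positivity)).trans (cov_two κ m).le)
  · rintro b ⟨N, k1, k2, y, z, e⟩
    obtain ⟨P, hP, t, rfl⟩ := h3 N k1 k2
    exact ⟨P, hP, (t : ℤ) • y, z, by rw [e, smul_smul, Nat.cast_mul]⟩
  · refine le_of_not_ge fun hc => hR ⟨lat C P, fun z => ⟨0, z, by simp⟩, (h2 P hP).2.trans ?_, hc⟩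
    exact_mod_cast lat_index C hC (h2 P hP).1

/-- `div_family` with `ε = κ`, `s = 1/50` for `N = |r|`; if `P ∈ F` divides the gcd then
`bv b ∈ dlat v P`, which contains the columns (`C z ⬝ v = r (z ⬝ b₀)`) and has index `P`
(`dlat_index`). -/
theorem cnt_nbhd {κ : ℝ} (hκ : 0 < κ) : ∃ η > (0 : ℝ), ∀ᶠ m : ℕ in atTop,
    ∀ C : Matrix (Fin m) (Fin m) ℤ, C.IsSymm → C.det ≠ 0 → C.det.natAbs ≤ m ^ m →
      ¬ RichE κ η C → ∀ (b₀ v : Fin m → ℤ) (c : ℕ) (r : ℤ), Iso C b₀ c r v →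
      (cnt (fun b : Fin m → Bool => (m : ℝ) ^ (1 / 50 * (m : ℝ)) ≤ Int.gcd (bv b ⬝ᵥ v) r) : ℝ)
        ≤ (2 : ℝ) ^ (2 * κ * m) := by
  obtain ⟨η, η0, h⟩ := div_family hκ (show (0 : ℝ) < 1 / 50 by norm_num)
  refine ⟨η, η0, h.mono fun m hm C hs hC hle hR b₀ v c r ⟨i1, ⟨w, w₀, i2⟩, i3, _⟩ => ?_⟩
  have d0 : 0 < c * r.natAbs ^ 2 := i3 ▸ Int.natAbs_pos.2 hC
  have r0 : 0 < r.natAbs := Nat.pos_of_ne_zero fun e => by simp [e] at d0
  have r1 : r.natAbs ≤ m ^ m :=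
    (Nat.le_of_dvd d0 (Dvd.dvd.mul_left (dvd_pow_self _ two_ne_zero) c)).trans (i3 ▸ hle)
  obtain ⟨F, h1, h2, h3⟩ := hm _ r0 r1
  refine (cov_union F (fun P b => bv b ∈ dlat v P) (B := (2 : ℝ) ^ (κ * m)) ?_ fun P hP => ?_).trans
    ((mul_le_mul_of_nonneg_right h1 (by positivity)).trans (cov_two κ m).le)
  · intro b hb
    obtain ⟨P, hP, hd⟩ := h3 _ (Nat.gcd_dvd_right _ _) hb
    exact ⟨P, hP, (Int.natCast_dvd_natCast.2 hd).trans (Int.gcd_dvd_left _ _)⟩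
  · obtain ⟨t, ht⟩ : (P : ℤ) ∣ r := Int.natCast_dvd.2 (h2 P hP).1
    refine le_of_not_ge fun hc => hR ⟨dlat v P, fun z => ?_, (h2 P hP).2.trans ?_, hc⟩
    · rw [mem_dlat, dotProduct_comm, dotProduct_mulVec, ← mulVec_transpose, hs.eq, i1,
        smul_dotProduct, ht, smul_eq_mul, mul_assoc]
      exact dvd_mul_right _ _
    · rw [dlat_index v ⟨w, w₀ * t, by rw [← i2, ht]; ring⟩]

/-- Let `N = |det C|`, `M = m^(m/100)`; choose data `(c, r, v)` for every `b` in the set `T`. Call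
`b` near `b'` if `den(pq b r' v')^3 ≤ 2 N M^3`; this is symmetric (`pq_symm`), reflexive
(denominator `1`), and among three points two are near (`triple`). So `T` is covered by the points
near `b₀` and those near `b₁` (`b₁` not near `b₀` if there is one). If `b` is near `b₀` then
`g = gcd (b ⬝ v₀) r₀ = |r₀| / den` (`pq_den_mul`) has `g^6 ≥ (N/M)^3 / (4 N² M^6) ≥ m^(0.16 m)/4`,
so `g ≥ m^(m/50)` for large `m`; `cnt_nbhd`. -/
theorem cnt_sm {κ : ℝ} (hκ : 0 < κ) : ∃ η > (0 : ℝ), ∀ᶠ m : ℕ in atTop,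
    ∀ C : Matrix (Fin m) (Fin m) ℤ, C.IsSymm → C.det ≠ 0 → C.det.natAbs ≤ m ^ m →
      (m : ℝ) ^ ((m : ℝ) / 4) ≤ |(C.det : ℝ)| → ¬ RichE κ η C →
      (cnt (fun b : Fin m → Bool => Sm C (bv b)) : ℝ) ≤ 2 * (2 : ℝ) ^ (2 * κ * m) := by
  obtain ⟨η, η0, h⟩ := cnt_nbhd hκ
  refine ⟨η, η0, ?_⟩
  filter_upwards [h, eventually_ge_atTop 100] with m hm m100 C hs hC hle hge hR
  have m1 : (100 : ℝ) ≤ m := by exact_mod_cast m100
  set M : ℝ := (m : ℝ) ^ ((m : ℝ) / 100) with hM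
  have M2 : 2 ≤ M := by
    have := Real.rpow_le_rpow_of_exponent_le (x := m) (by linarith)
      (show (1 : ℝ) ≤ m / 100 by linarith)
    rw [Real.rpow_one] at this
    linarith
  have e1 : (m : ℝ) ^ ((m : ℝ) / 4) = M ^ 25 := by
    rw [hM, ← Real.rpow_natCast, ← Real.rpow_mul (by positivity)]; congr 1; push_cast; ring
  have e2 : (m : ℝ) ^ (1 / 50 * (m : ℝ)) = M ^ 2 := by
    rw [hM, ← Real.rpow_natCast, ← Real.rpow_mul (by positivity)]; congr 1; push_cast; ring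
  set N : ℝ := (C.det.natAbs : ℝ) with hN
  have eN : |(C.det : ℝ)| = N := by rw [hN, Nat.cast_natAbs, Int.cast_abs]
  rw [e1, eN] at hge
  have N0 : 0 < N := lt_of_lt_of_le (by positivity) hge
  have near : ∀ (b₀ v : Fin m → ℤ) (c : ℕ) (r : ℤ), Iso C b₀ c r v → (c : ℝ) ≤ M →
      (cnt (fun b : Fin m → Bool => ((pq (bv b) r v).den : ℝ) ^ 3 ≤ 2 * N * M ^ 3) : ℝ) ≤
        (2 : ℝ) ^ (2 * κ * m) := by
    intro b₀ v c r hI hc
    refine le_trans (Nat.cast_le.2 (cnt_mono fun b hb => ?_)) (hm C hs hC hle hR b₀ v c r hI)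
    have i3 : N = c * (r.natAbs : ℝ) ^ 2 := by rw [hN, hI.2.2.1]; push_cast; rfl
    have r0 : r ≠ 0 := fun e => by simp [e] at i3; exact N0.ne' i3
    have k : ((pq (bv b) r v).den : ℝ) * (Int.gcd (bv b ⬝ᵥ v) r : ℝ) = (r.natAbs : ℝ) := by
      exact_mod_cast pq_den_mul (bv b) v r0
    generalize ((pq (bv b) r v).den : ℝ) = d at hb k
    rw [e2]
    refine le_of_not_gt fun hg => ?_
    have g0 : (0 : ℝ) ≤ (Int.gcd (bv b ⬝ᵥ v) r : ℝ) := Nat.cast_nonneg _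
    generalize (Int.gcd (bv b ⬝ᵥ v) r : ℝ) = g at hg k g0
    have d0 : 0 ≤ d ^ 3 := by
      have : 0 < d * g := by rw [k]; exact_mod_cast Int.natAbs_pos.2 r0
      exact pow_nonneg (pos_of_mul_pos_left this g0).le 3
    have k1 : N ≤ M * (d * g) ^ 2 := by
      rw [k, i3]; exact mul_le_mul_of_nonneg_right hc (by positivity)
    have k2 : N ^ 3 ≤ M ^ 3 * ((d ^ 3) ^ 2 * g ^ 6) :=
      (pow_le_pow_left₀ N0.le k1 3).trans_eq (by ring)
    have k3 : (d ^ 3) ^ 2 * g ^ 6 ≤ (2 * N * M ^ 3) ^ 2 * (M ^ 2) ^ 6 :=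
      mul_le_mul (pow_le_pow_left₀ d0 hb 2) (pow_le_pow_left₀ g0 hg.le 6) (by positivity)
        (by positivity)
    have k4 : N ^ 2 * N ≤ N ^ 2 * (4 * M ^ 21) := by
      have := k2.trans (mul_le_mul_of_nonneg_left k3 (by positivity))
      linarith
    have k5 : M ^ 21 * M ^ 4 ≤ M ^ 21 * 4 := by
      have := hge.trans (le_of_mul_le_mul_left k4 (by positivity))
      linarith
    have k6 := le_of_mul_le_mul_left k5 (by positivity)
    have k7 := pow_le_pow_left₀ (by norm_num) M2 4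
    linarith
  have p0 : (0 : ℝ) < (2 : ℝ) ^ (2 * κ * m) := by positivity
  by_cases h0 : ∃ b₀, Sm C (bv b₀)
  swap
  · have : cnt (fun b : Fin m → Bool => Sm C (bv b)) = 0 := by
      classical
      rw [cnt_eq, card_eq_zero, filter_eq_empty_iff]
      exact fun b _ hb => h0 ⟨b, hb⟩
    rw [this]; simpa using p0.le
  obtain ⟨b₀, c₀, r₀, v₀, I₀, hc₀⟩ := h0
  by_cases h1 : ∀ b, Sm C (bv b) → ((pq (bv b) r₀ v₀).den : ℝ) ^ 3 ≤ 2 * N * M ^ 3
  · have := (Nat.cast_le.2 (cnt_mono h1)).trans (near _ _ _ _ I₀ hc₀)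
    linarith
  push Not at h1
  obtain ⟨b₁, ⟨c₁, r₁, v₁, I₁, hc₁⟩, far⟩ := h1
  refine (cov_union {0, 1} (fun P b => ((pq (bv b) (if P = 0 then r₀ else r₁)
    (if P = 0 then v₀ else v₁)).den : ℝ) ^ 3 ≤ 2 * N * M ^ 3) (B := (2 : ℝ) ^ (2 * κ * m))
    ?_ fun P _ => ?_).trans (by simp)
  · rintro b ⟨c, r, v, I, hc⟩
    by_contra hn
    push Not at hn
    have n0 := hn 0 (by simp)
    have n1 := hn 1 (by simp)
    simp only [if_true, one_ne_zero, if_false] at n0 n1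
    have t : ((pq (bv b) r₁ v₁).den : ℝ) * (pq (bv b) r₀ v₀).den * (pq (bv b₁) r₀ v₀).den ≤
        2 * N * c * c₁ * c₀ := by rw [hN]; exact_mod_cast triple hs hC I I₁ I₀
    have t2 : 2 * N * c * c₁ * c₀ ≤ 2 * N * M * M * M := by gcongr
    have t3 := pow_le_pow_left₀ (by positivity) (t.trans t2) 3
    have K0 : 0 < 2 * N * M ^ 3 := by positivity
    have t4 := mul_lt_mul'' (mul_lt_mul'' n1 n0 K0.le K0.le) far (by positivity) K0.le
    rw [mul_pow, mul_pow] at t3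
    linarith
  · by_cases e : P = 0
    · simpa only [if_pos e] using near _ _ _ _ I₀ hc₀
    · simpa only [if_neg e] using near _ _ _ _ I₁ hc₁

end Vale.Agent.P160
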