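import Vale.Agent.P160.Defs

/-! P160, block T (top level): definitions. -/

open Finset Filter Matrix

namespace Vale.Agent.P160

/-- The sample with the index `i` deleted. -/
def del {m : ℕ} (i : Fin (m + 1)) (ω : Om (m + 1)) : Om m := fun e => ω (e.map i.succAbove)

/-- The off-diagonal bits of row `i`. -/
def col {m : ℕ} (i : Fin (m + 1)) (ω : Om (m + 1)) : Fin m → Bool :=
  fun j => ω s(i, i.succAbove j)

/-- The diagonal bit of row `i`. -/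
def dia {m : ℕ} (i : Fin (m + 1)) (ω : Om (m + 1)) : Bool := ω s(i, i)

/-- The symmetric sign matrix of a sample. -/
def smat {m : ℕ} (ω : Om m) : Matrix (Fin m) (Fin m) ℤ :=
  fun i j => if ω s(i, j) then 1 else -1

/-- Rank over the rationals. -/
noncomputable def rk {m : ℕ} (A : Matrix (Fin m) (Fin m) ℤ) : ℕ :=
  (A.map (Int.cast : ℤ → ℚ)).rank

/-- Singularity probability, `0/1` model. -/
noncomputable def q01 (m : ℕ) : ℝ := pr fun ω : Om m => (mat ω).det = 0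

/-- Singularity probability, sign model. -/
noncomputable def qs (m : ℕ) : ℝ := pr fun ω : Om m => (smat ω).det = 0

/-- Probability of corank exactly `h`, `0/1` model. -/
noncomputable def pc (m h : ℕ) : ℝ := pr fun ω : Om m => rk (mat ω) + h = m

/-- There is a prime `p` and a nonzero kernel vector mod `p` with support of size `≤ γ n`. -/
def Spk {n : ℕ} (γ : ℝ) (A : Matrix (Fin n) (Fin n) ℤ) : Prop :=
  ∃ p : ℕ, p.Prime ∧ ∃ u : Fin n → ℤ, (∃ i, ¬ (p : ℤ) ∣ u i) ∧ (∀ j, (p : ℤ) ∣ A.mulVec u j) ∧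
    (cnt (fun i => ¬ (p : ℤ) ∣ u i) : ℝ) ≤ γ * n

/-- The lattice `P ℤ^m + C ℤ^m`. -/
def lat {m : ℕ} (C : Matrix (Fin m) (Fin m) ℤ) (P : ℕ) : AddSubgroup (Fin m → ℤ) where
  carrier := {x | ∃ y z : Fin m → ℤ, x = (P : ℤ) • y + C.mulVec z}
  zero_mem' := ⟨0, 0, by simp⟩
  add_mem' := by
    rintro _ _ ⟨y, z, rfl⟩ ⟨y', z', rfl⟩
    exact ⟨y + y', z + z', by rw [smul_add, mulVec_add]; abel⟩
  neg_mem' := by
    rintro _ ⟨y, z, rfl⟩
    exact ⟨-y, -z, by rw [smul_neg, mulVec_neg]; abel⟩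

/-- The lattice of all `x` with `P ∣ x ⬝ v`. -/
def dlat {m : ℕ} (v : Fin m → ℤ) (P : ℕ) : AddSubgroup (Fin m → ℤ) where
  carrier := {x | (P : ℤ) ∣ x ⬝ᵥ v}
  zero_mem' := by simp
  add_mem' := by
    intro x y hx hy
    simp only [Set.mem_setOf_eq, add_dotProduct] at *
    exact dvd_add hx hy
  neg_mem' := by
    intro x hx
    simp only [Set.mem_setOf_eq, neg_dotProduct] at *
    exact hx.neg_right

/-- `C⁻¹ b = v / r` in lowest terms, `|det C| = c r²`, and `bᵀ C⁻¹ b` is an integer. -/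
def Iso {m : ℕ} (C : Matrix (Fin m) (Fin m) ℤ) (b : Fin m → ℤ) (c : ℕ) (r : ℤ)
    (v : Fin m → ℤ) : Prop :=
  C.mulVec v = r • b ∧ (∃ (w : Fin m → ℤ) (w₀ : ℤ), w ⬝ᵥ v + w₀ * r = 1) ∧
    C.det.natAbs = c * r.natAbs ^ 2 ∧ r ∣ b ⬝ᵥ v

/-- `b` lies in `N ℤ^m + C ℤ^m` for a large divisor `N` of the determinant. -/
def Big {m : ℕ} (s : ℝ) (C : Matrix (Fin m) (Fin m) ℤ) (b : Fin m → ℤ) : Prop :=
  ∃ N : ℕ, N ∣ C.det.natAbs ∧ (m : ℝ) ^ (s * m) ≤ N ∧ b ∈ lat C N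

/-- `b` is isotropic with a small cofactor. -/
def Sm {m : ℕ} (C : Matrix (Fin m) (Fin m) ℤ) (b : Fin m → ℤ) : Prop :=
  ∃ (c : ℕ) (r : ℤ) (v : Fin m → ℤ), Iso C b c r v ∧ (c : ℝ) ≤ (m : ℝ) ^ ((m : ℝ) / 100)

/-- `b` lies in the image of the cube `[-1, 1]^m`. -/
def Bx {m : ℕ} (C : Matrix (Fin m) (Fin m) ℤ) (b : Fin m → ℤ) : Prop :=
  ∃ y : Fin m → ℝ, (∀ i, |y i| ≤ 1) ∧ ∀ i, ∑ j, (C i j : ℝ) * y j = (b i : ℝ)

theorem mem_lat {m : ℕ} {C : Matrix (Fin m) (Fin m) ℤ} {P : ℕ} {x : Fin m → ℤ} :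
    x ∈ lat C P ↔ ∃ y z : Fin m → ℤ, x = (P : ℤ) • y + C.mulVec z := Iff.rfl

theorem mem_dlat {m : ℕ} {v : Fin m → ℤ} {P : ℕ} {x : Fin m → ℤ} :
    x ∈ dlat v P ↔ (P : ℤ) ∣ x ⬝ᵥ v := Iff.rfl

theorem mat_del {m : ℕ} (i : Fin (m + 1)) (ω : Om (m + 1)) :
    mat (del i ω) = (mat ω).submatrix i.succAbove i.succAbove := by
  ext j k; simp [mat, del]

theorem bv_col {m : ℕ} (i : Fin (m + 1)) (ω : Om (m + 1)) (j : Fin m) :
    bv (col i ω) j = mat ω i (i.succAbove j) := rfl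

theorem bz_dia {m : ℕ} (i : Fin (m + 1)) (ω : Om (m + 1)) : bz (dia i ω) = mat ω i i := rfl

theorem mat_isSymm {m : ℕ} (ω : Om m) : (mat ω).IsSymm :=
  Matrix.IsSymm.ext fun i j => mat_symm ω j i

theorem abs_bz_le (b : Bool) : |bz b| ≤ 1 := by cases b <;> simp [bz]

theorem natAbs_det_mat_le {m : ℕ} (ω : Om m) : (mat ω).det.natAbs ≤ m ^ m := by
  have h := Matrix.det_le (abv := AbsoluteValue.abs) (A := mat ω) (x := 1)
    fun i j => abs_bz_le _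
  simp only [Fintype.card_fin, one_pow, nsmul_eq_mul, mul_one, AbsoluteValue.abs_apply] at h
  have h2 : (m.factorial : ℤ) ≤ (m : ℤ) ^ m := by exact_mod_cast Nat.factorial_le_pow m
  have h3 : ((mat ω).det.natAbs : ℤ) ≤ (m : ℤ) ^ m := by
    rw [Int.natCast_natAbs]; exact h.trans h2
  exact_mod_cast h3

theorem pr_le_one {α : Type} [Fintype α] (p : α → Prop) : pr p ≤ 1 := by
  classical
  unfold pr
  refine div_le_one_of_le₀ ?_ (by positivity)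
  rw [cnt_eq]
  exact_mod_cast card_filter_le _ _

end Vale.Agent.P160
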