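import Vale.Agent.P160.TDefs

open Finset Filter Matrix

namespace Vale.Agent.P160

theorem tidx_inj {m : ℕ} {C : Matrix (Fin m) (Fin m) ℤ} (hC : C.det ≠ 0) :
    Function.Injective C.mulVecLin := by
  rw [← LinearMap.ker_eq_bot, LinearMap.ker_eq_bot']
  intro x hx
  by_contra h
  exact hC (exists_mulVec_eq_zero_iff.1 ⟨x, h, hx⟩)

/-- The index of `C ℤ^m` is `|det C|` (`AddSubgroup.index_eq_natAbs_det`,
`Submodule.natAbs_det_equiv`). -/
theorem range_index {m : ℕ} (C : Matrix (Fin m) (Fin m) ℤ) (hC : C.det ≠ 0) :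
    (LinearMap.range C.mulVecLin).toAddSubgroup.index = C.det.natAbs := by
  have h := Submodule.natAbs_det_equiv (LinearMap.range C.mulVecLin)
    (LinearEquiv.ofInjective C.mulVecLin (tidx_inj hC))
  rw [← LinearMap.det_toLin' C]
  exact h.symm

/-- The lattice has full rank; a basis matrix `M` of it is `P • U + C * V`, so
`P ∣ det M` (reduce mod `P`: `RingHom.map_det`), and `|det M|` is the index (`range_index`). -/
theorem lat_index {m : ℕ} (C : Matrix (Fin m) (Fin m) ℤ) (hC : C.det ≠ 0) {P : ℕ}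
    (hP : P ∣ C.det.natAbs) : P ≤ (lat C P).index := by
  have hle : (LinearMap.range C.mulVecLin).toAddSubgroup ≤ lat C P := by
    rintro _ ⟨z, rfl⟩
    exact ⟨0, z, by simp⟩
  have h0 : (lat C P).index ≠ 0 := by
    intro h
    have := AddSubgroup.index_dvd_of_le hle
    rw [h, range_index C hC, zero_dvd_iff, Int.natAbs_eq_zero] at this
    exact hC this
  have hf : Finite ((Fin m → ℤ) ⧸ (lat C P).toIntSubmodule) := Nat.finite_of_card_ne_zero h0
  have hr := (Submodule.finiteQuotient_iff _).1 hf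
  rw [Module.finrank_fin_fun] at hr
  let b : Module.Basis (Fin m) ℤ (lat C P) := Module.finBasisOfFinrankEq ℤ
    (lat C P).toIntSubmodule hr
  choose y z hyz using fun j => mem_lat.1 (b j).2
  refine Nat.le_of_dvd (Nat.pos_of_ne_zero h0) ?_
  rw [AddSubgroup.index_eq_natAbs_det (Pi.basisFun ℤ (Fin m)) _ b, Pi.basisFun_det_apply,
    ← Int.natCast_dvd, ← ZMod.intCast_zmod_eq_zero_iff_dvd]
  have e : (Matrix.of fun j => (b j : Fin m → ℤ)).map (Int.cast : ℤ → ZMod P) =
      (Matrix.of z * Cᵀ).map (Int.cast : ℤ → ZMod P) := by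
    ext j i
    simp only [map_apply, of_apply, hyz j, Pi.add_apply, Pi.smul_apply, smul_eq_mul, mul_apply,
      transpose_apply, mulVec, dotProduct, Int.cast_add, Int.cast_mul, Int.cast_natCast,
      ZMod.natCast_self, zero_mul, zero_add, mul_comm (z _ _)]
  rw [Int.cast_det, e, ← Int.cast_det, det_mul, det_transpose, Int.cast_mul,
    (ZMod.intCast_zmod_eq_zero_iff_dvd _ _).2 (Int.natCast_dvd.2 hP), mul_zero]

/-- Kernel of the surjective map `x ↦ x ⬝ v` to `ZMod P` (`AddSubgroup.index_ker`). -/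
theorem dlat_index {m : ℕ} (v : Fin m → ℤ) {P : ℕ}
    (h : ∃ (w : Fin m → ℤ) (w₀ : ℤ), w ⬝ᵥ v + w₀ * P = 1) : (dlat v P).index = P := by
  obtain ⟨w, w₀, hw⟩ := h
  let φ : (Fin m → ℤ) →+ ZMod P :=
    { toFun := fun x => ((x ⬝ᵥ v : ℤ) : ZMod P)
      map_zero' := by simp
      map_add' := fun x y => by simp [add_dotProduct] }
  have hk : dlat v P = φ.ker := by
    ext x
    exact (ZMod.intCast_zmod_eq_zero_iff_dvd _ _).symm
  have hs : φ.range = ⊤ := by
    rw [eq_top_iff]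
    intro a _
    obtain ⟨k, rfl⟩ := ZMod.intCast_surjective a
    refine ⟨k • w, ?_⟩
    change (((k • w) ⬝ᵥ v : ℤ) : ZMod P) = k
    rw [smul_dotProduct, smul_eq_mul, eq_sub_of_add_eq hw]
    simp
  rw [hk, AddSubgroup.index_ker, hs, AddSubgroup.card_top, Nat.card_zmod]

/-- `L₀ = ℤ b + C ℤ^m ≤ L₁ = dlat v |r|`. `k • b ∈ C ℤ^m ↔ r ∣ k` (`C` is injective, `k v = r y`,
dot with `w`), so `C ℤ^m` has relative index `|r|` in `L₀`, `L₀` has index `c |r|`, and relative
index `c` in `L₁` (`AddSubgroup.relIndex_mul_index`, `AddSubgroup.nsmul_relIndex_mem`). -/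
theorem perp_mul {m : ℕ} {C : Matrix (Fin m) (Fin m) ℤ} (hs : C.IsSymm) (hC : C.det ≠ 0)
    {b v : Fin m → ℤ} {c : ℕ} {r : ℤ} (h : Iso C b c r v) {z : Fin m → ℤ} (hz : r ∣ z ⬝ᵥ v) :
    ∃ (k : ℤ) (y : Fin m → ℤ), (c : ℤ) • z = k • b + C.mulVec y := by
  obtain ⟨h1, ⟨w, w₀, hw⟩, h3, h4⟩ := h
  set R := (LinearMap.range C.mulVecLin).toAddSubgroup with hR
  have hr0 : r.natAbs ≠ 0 := by
    intro h0
    rw [h0, zero_pow two_ne_zero, mul_zero, Int.natAbs_eq_zero] at h3
    exact hC h3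
  have i1 : (dlat v r.natAbs).index = r.natAbs := by
    refine dlat_index v ⟨w, w₀ * r.sign, ?_⟩
    rw [mul_assoc, Int.sign_mul_natAbs, hw]
  have hle : AddSubgroup.zmultiples b ⊔ R ≤ dlat v r.natAbs := by
    refine sup_le (AddSubgroup.zmultiples_le_of_mem ?_) ?_
    · exact mem_dlat.2 (Int.natAbs_dvd.2 h4)
    · rintro _ ⟨y, rfl⟩
      refine mem_dlat.2 (Int.natAbs_dvd.2 ?_)
      rw [mulVecLin_apply, dotProduct_comm, dotProduct_mulVec, ← mulVec_transpose, hs.eq, h1,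
        smul_dotProduct, smul_eq_mul]
      exact dvd_mul_right _ _
  have hcom : R.comap (zmultiplesHom _ b) = AddSubgroup.zmultiples r := by
    ext k
    rw [AddSubgroup.mem_comap, Int.mem_zmultiples_iff]
    constructor
    · rintro ⟨y, hy⟩
      have e1 : C.mulVecLin (k • v) = C.mulVecLin (r • y) := by
        rw [map_smul, map_smul, hy, mulVecLin_apply, h1, smul_comm]
        rfl
      have e2 := congrArg (fun x => w ⬝ᵥ x) (tidx_inj hC e1)
      simp only [dotProduct_smul, smul_eq_mul] at e2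
      exact ⟨w ⬝ᵥ y + k * w₀, by linear_combination e2 - k * hw⟩
    · rintro ⟨j, rfl⟩
      refine ⟨j • v, ?_⟩
      rw [map_smul, mulVecLin_apply, h1, smul_smul, mul_comm]
      rfl
  have i2 : R.relIndex (AddSubgroup.zmultiples b ⊔ R) = r.natAbs := by
    rw [AddSubgroup.relIndex_sup_right, ← AddSubgroup.range_zmultiplesHom,
      ← AddSubgroup.index_comap, hcom, Int.index_zmultiples]
  have i3 := AddSubgroup.relIndex_mul_index (le_sup_right : R ≤ AddSubgroup.zmultiples b ⊔ R)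
  have i4 := AddSubgroup.relIndex_mul_index hle
  rw [i2, range_index C hC, h3, ← i4, i1, pow_two, mul_comm, mul_assoc] at i3
  have i5 := Nat.eq_of_mul_eq_mul_right (Nat.mul_pos (Nat.pos_of_ne_zero hr0)
    (Nat.pos_of_ne_zero hr0)) i3
  have i6 := (AddSubgroup.zmultiples b ⊔ R).nsmul_relIndex_mem
    (mem_dlat.2 (Int.natAbs_dvd.2 hz))
  rw [i5] at i6
  obtain ⟨_, ⟨k, rfl⟩, _, ⟨y, rfl⟩, e⟩ := AddSubgroup.mem_sup.1 i6
  exact ⟨k, y, by rw [natCast_zsmul, ← e]; rfl⟩

end Vale.Agent.P160
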