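import Vale.Agent.P160.TDefs

open Finset Filter Matrix

namespace Vale.Agent.P160

/-- Few rows span all rows, and they contain a basis when there is no kernel vector. -/
theorem spA_rows {K ι S : Type} [Field K] [Fintype ι] [Fintype S] [DecidableEq S]
    (v : ι → S → K) :
    (∃ R : Finset ι, R.card ≤ Fintype.card S ∧
      ∀ u : S → K, (∀ j ∈ R, v j ⬝ᵥ u = 0) → ∀ j, v j ⬝ᵥ u = 0) ∧
    ((∃ f : S → ι, (Matrix.of fun a => v (f a)).det ≠ 0) ∨ ∃ u ≠ 0, ∀ j, v j ⬝ᵥ u = 0) := by
  classical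
  obtain ⟨κ, a, ha, hs, hl⟩ := exists_linearIndependent' K v
  have : Fintype κ := Fintype.ofInjective a ha
  constructor
  · refine ⟨univ.image a, card_image_le.trans ?_, fun u hu j => ?_⟩
    · simpa using hl.fintype_card_le_finrank
    · have hj : v j ∈ Submodule.span K (Set.range (v ∘ a)) := hs ▸ Submodule.subset_span ⟨j, rfl⟩
      generalize v j = x at hj
      induction hj using Submodule.span_induction with
      | mem x hx => obtain ⟨k, rfl⟩ := hx; exact hu _ (mem_image_of_mem _ (mem_univ k))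
      | zero => simp
      | add x y _ _ h1 h2 => simp [h1, h2]
      | smul c x _ h => simp [h]
  · by_cases ht : Submodule.span K (Set.range v) = ⊤
    · left
      have hc := finrank_span_eq_card hl
      rw [hs, ht, finrank_top, Module.finrank_fintype_fun_eq_card] at hc
      let e := Fintype.equivOfCardEq hc
      refine ⟨fun s => a (e s), ?_⟩
      have : IsUnit (Matrix.of fun s => v (a (e s))) :=
        Matrix.linearIndependent_rows_iff_isUnit.1 (hl.comp e e.injective)
      exact ((Matrix.isUnit_iff_isUnit_det _).1 this).ne_zero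
    · right
      obtain ⟨φ, h0, hφ⟩ := Submodule.exists_le_ker_of_lt_top _ (lt_top_iff_ne_top.2 ht)
      have key : ∀ x : S → K, x ⬝ᵥ (fun s => φ (Pi.single s 1)) = φ x := fun x => by
        rw [LinearMap.pi_apply_eq_sum_univ φ x]
        refine sum_congr rfl fun s _ => ?_
        rw [smul_eq_mul]
        exact congrArg (fun y => x s * φ y) (funext fun t => by simp [Pi.single_apply, eq_comm])
      refine ⟨fun s => φ (Pi.single s 1), fun h => h0 ?_, fun j => ?_⟩
      · refine LinearMap.ext fun x => ?_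
        rw [← key, h]; simp
      · rw [key]; exact hφ (Submodule.subset_span ⟨j, rfl⟩)

/-- The vectors orthogonal mod `p` to all kernel vectors mod `p`. -/
def spAL {ι S : Type} [Fintype S] (Y : ι → S → ℤ) (p : ℕ) : AddSubgroup (S → ℤ) where
  carrier := {x | ∀ u : S → ℤ, (∀ j, (p : ℤ) ∣ Y j ⬝ᵥ u) → (p : ℤ) ∣ x ⬝ᵥ u}
  zero_mem' := by simp
  add_mem' := fun hx hy u hu => by rw [add_dotProduct]; exact dvd_add (hx u hu) (hy u hu)
  neg_mem' := fun hx u hu => by rw [neg_dotProduct]; exact (hx u hu).neg_right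

open Classical in
/-- A nonzero maximal minor. -/
noncomputable def spAD {ι S : Type} [Fintype S] [DecidableEq S] (Y : ι → S → ℤ) : ℤ :=
  if h : ∃ f : S → ι, (Matrix.of fun a => Y (f a)).det ≠ 0 then
    (Matrix.of fun a => Y (h.choose a)).det else 1

theorem spA_cast {S : Type} [Fintype S] (p : ℕ) (x u : S → ℤ) :
    (fun i => (x i : ZMod p)) ⬝ᵥ (fun i => (u i : ZMod p)) = 0 ↔ (p : ℤ) ∣ x ⬝ᵥ u := by
  rw [← ZMod.intCast_zmod_eq_zero_iff_dvd]
  simp [dotProduct]

theorem spA_card {ι S : Type} [Fintype S] [DecidableEq S] (Y : ι → S → ℤ)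
    (h : ∀ j i, |Y j i| ≤ 1) : (spAD Y).natAbs.primeFactors.card ≤ Fintype.card S ^ 2 := by
  unfold spAD
  split_ifs with hf
  · set D := (Matrix.of fun a => Y (hf.choose a)).det with hD
    have D0 : D ≠ 0 := hf.choose_spec
    have h1 := Matrix.det_le (abv := AbsoluteValue.abs) (A := Matrix.of fun a => Y (hf.choose a))
      (x := 1) fun i j => h _ _
    simp only [one_pow, nsmul_eq_mul, mul_one, AbsoluteValue.abs_apply] at h1
    have h2 : D.natAbs ≤ (Fintype.card S).factorial := by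
      have : (D.natAbs : ℤ) ≤ (Fintype.card S).factorial := by rw [Int.natCast_natAbs]; exact h1
      exact_mod_cast this
    have h3 : 2 ^ D.natAbs.primeFactors.card ≤ ∏ p ∈ D.natAbs.primeFactors, p :=
      pow_card_le_prod _ _ _ fun p hp => (Nat.prime_of_mem_primeFactors hp).two_le
    have h4 := Nat.le_of_dvd (Int.natAbs_pos.2 D0) D.natAbs.prod_primeFactors_dvd
    have h5 : Fintype.card S ^ Fintype.card S ≤ (2 ^ Fintype.card S) ^ Fintype.card S :=
      Nat.pow_le_pow_left Nat.lt_two_pow_self.le _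
    rw [← pow_mul, ← sq] at h5
    exact (Nat.pow_le_pow_iff_right one_lt_two).1
      (h3.trans (h4.trans (h2.trans ((Nat.factorial_le_pow _).trans h5))))
  · simp

/-- A short list of proper lattices read off from few rows. Let `Y j = if j ∈ R then X j else 0`,
`D Y` = the determinant of `fun a => Y (f a)` for a chosen `f : S → ι` making it nonzero (`1` if
there is none), `L p Y = closure (range Y) ⊔ p ℤ^S`, and
`F R X = ((insert 2 (D Y).natAbs.primeFactors).image (L · Y)).filter (· ≠ ⊤)`.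
Size: `2^(number of prime factors) ≤ |D| ≤ k! ≤ k^k ≤ 2^(k²)` (`Matrix.det_le`).
Covering: if some `f` has `det (X ∘ f) ≠ 0` put its range into `R`; then `p ∣ D Y` (`u` is a nonzero
kernel vector mod `p`). Otherwise all maximal minors vanish mod `2`, so there is a nonzero kernel
vector mod `2`: replace `(p, u)` by it. Add to `R` at most `k` rows spanning all rows over
`ZMod p` (`exists_linearIndependent`). `L p Y ≠ ⊤` because `p ∣ x ⬝ u` on it. -/
theorem sp_family (ι S : Type) [Fintype ι] [DecidableEq ι] [Fintype S] [DecidableEq S] :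
    ∃ F : Finset ι → (ι → S → ℤ) → Finset (AddSubgroup (S → ℤ)),
      (∀ R X, ∀ Λ ∈ F R X, Λ ≠ ⊤) ∧
      (∀ R X X', (∀ j ∈ R, X j = X' j) → F R X = F R X') ∧
      (∀ R X, (∀ j i, |X j i| ≤ 1) → (F R X).card ≤ Fintype.card S ^ 2 + 1) ∧
      ∀ (X : ι → S → ℤ) (p : ℕ), p.Prime → ∀ u : S → ℤ, (∃ i, ¬ (p : ℤ) ∣ u i) →
        (∀ j, (p : ℤ) ∣ X j ⬝ᵥ u) →
        ∃ R : Finset ι, R.card ≤ 2 * Fintype.card S ∧ ∃ Λ ∈ F R X, ∀ j, X j ∈ Λ := by
  classical
  set res : Finset ι → (ι → S → ℤ) → ι → S → ℤ := fun R X j => if j ∈ R then X j else 0 with hres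
  refine ⟨fun R X => ((insert 2 (spAD (res R X)).natAbs.primeFactors).image
    (spAL (res R X))).filter (· ≠ ⊤), fun R X Λ h => (mem_filter.1 h).2, fun R X X' h => ?_,
    fun R X h => ?_, ?_⟩
  · have : res R X = res R X' := funext fun j => by
      simp only [hres]
      split_ifs with hj
      exacts [h j hj, rfl]
    simp only [this]
  · refine (card_filter_le _ _).trans (card_image_le.trans ((card_insert_le _ _).trans
      (Nat.succ_le_succ (spA_card _ fun j i => ?_))))
    simp only [hres]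
    split_ifs
    exacts [h j i, by simp]
  have dv : ∀ (R : Finset ι) (X : ι → S → ℤ) (p : ℕ) (u : S → ℤ), (∀ j, (p : ℤ) ∣ X j ⬝ᵥ u) →
      ∀ j, (p : ℤ) ∣ res R X j ⬝ᵥ u := fun R X p u h j => by
    simp only [hres]
    split_ifs
    exacts [h j, by simp]
  have main : ∀ (X : ι → S → ℤ) (p : ℕ), p.Prime → ∀ u : S → ℤ, (∃ i, ¬ (p : ℤ) ∣ u i) →
      (∀ j, (p : ℤ) ∣ X j ⬝ᵥ u) → ∃ R₀ : Finset ι, R₀.card ≤ Fintype.card S ∧ ∀ R, R₀ ⊆ R →
        spAL (res R X) p ≠ ⊤ ∧ ∀ j, X j ∈ spAL (res R X) p := by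
    intro X p hp u ⟨i, hi⟩ hu
    have := Fact.mk hp
    obtain ⟨R₀, h1, h2⟩ := (spA_rows (K := ZMod p) fun j i => (X j i : ZMod p)).1
    refine ⟨R₀, h1, fun R hR => ⟨fun ht => hi ?_, fun j w hw => ?_⟩⟩
    · have : Pi.single i 1 ∈ spAL (res R X) p := ht ▸ AddSubgroup.mem_top _
      simpa using this u (dv R X p u hu)
    · refine (spA_cast p _ _).1 (h2 _ (fun j hj => (spA_cast p _ _).2 ?_) j)
      simpa only [hres, if_pos (hR hj)] using hw j
  intro X p hp u hi hu
  rcases (spA_rows (K := ZMod 2) fun j i => (X j i : ZMod 2)).2 with ⟨f, hf⟩ | ⟨w, w0, hw⟩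
  · obtain ⟨R₀, h1, h2⟩ := main X p hp u hi hu
    refine ⟨R₀ ∪ univ.image f, (card_union_le _ _).trans ?_, _, mem_filter.2
      ⟨mem_image_of_mem _ (mem_insert_of_mem ?_), (h2 _ subset_union_left).1⟩,
      (h2 _ subset_union_left).2⟩
    · have := card_image_le (s := univ) (f := f)
      rw [card_univ] at this
      omega
    set Y := res (R₀ ∪ univ.image f) X with hY
    have ex : ∃ f : S → ι, (Matrix.of fun a => Y (f a)).det ≠ 0 := by
      refine ⟨f, fun h => hf ?_⟩
      have e : (Matrix.of fun a => Y (f a)) = Matrix.of fun a => X (f a) := by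
        ext a b; simp [hY, hres]
      have := congrArg (Int.cast : ℤ → ZMod 2) (e ▸ h)
      rw [Int.cast_det, Int.cast_zero] at this
      exact this
    have := Fact.mk hp
    rw [spAD, dif_pos ex]
    refine Nat.mem_primeFactors.2 ⟨hp, ?_, Int.natAbs_ne_zero.2 ex.choose_spec⟩
    rw [← Int.natCast_dvd, ← ZMod.intCast_zmod_eq_zero_iff_dvd, Int.cast_det,
      ← Matrix.exists_mulVec_eq_zero_iff]
    obtain ⟨i, hi⟩ := hi
    exact ⟨fun i => (u i : ZMod p),
      fun h => hi ((ZMod.intCast_zmod_eq_zero_iff_dvd _ _).1 (congrFun h i)),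
      funext fun a => (spA_cast p _ _).2 (dv _ X p u hu _)⟩
  · have e : (fun i => (((w i).val : ℤ) : ZMod 2)) = w := funext fun i => by simp
    obtain ⟨R₀, h1, h2⟩ := main X 2 Nat.prime_two (fun i => ((w i).val : ℤ)) (by
      by_contra hc
      push Not at hc
      refine w0 (funext fun i => ?_)
      rw [← e]
      exact (ZMod.intCast_zmod_eq_zero_iff_dvd _ _).2 (hc i))
      fun j => (spA_cast 2 _ _).1 (by rw [e]; exact hw j)
    exact ⟨R₀, by omega, _, mem_filter.2 ⟨mem_image_of_mem _ (mem_insert_self _ _),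
      (h2 _ subset_rfl).1⟩, (h2 _ subset_rfl).2⟩

end Vale.Agent.P160
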