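import Vale.Agent.P160.TBlk
import Vale.Agent.P160.TSpA

open Finset Filter Matrix

namespace Vale.Agent.P160

/-- Fixed support `S` and fixed rows `R`. Fresh rows: `J = {j // j ∉ S ∧ j ∉ R}`,
`φ (j, i) = s(j, i)` for `j ∈ J`, `i ∈ S` is injective, and the pairs `s(a, i)`, `a ∈ R`, `i ∈ S`
are outside its range. `pr_blk` with `T ω y = ∃ Λ ∈ F R (X ω), ∀ j : J, bv (y (j, ·)) ∈ Λ`,
`pr_exists_le`, `pr_pi`, `pr_half`. -/
theorem sp_fixed {n : ℕ} (S R : Finset (Fin n))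
    (F : (Fin n → S → ℤ) → Finset (AddSubgroup (S → ℤ))) (M : ℕ)
    (h1 : ∀ X, ∀ Λ ∈ F X, Λ ≠ ⊤) (h2 : ∀ X X', (∀ j ∈ R, X j = X' j) → F X = F X')
    (h3 : ∀ X, (∀ j i, |X j i| ≤ 1) → (F X).card ≤ M) :
    pr (fun ω : Om n => ∃ Λ ∈ F (fun j i => mat ω j i), ∀ j, (fun i : S => mat ω j i) ∈ Λ)
      ≤ M * (1 / 2 : ℝ) ^ (n - S.card - R.card) := by
  classical
  have hc : n - S.card - R.card ≤ Fintype.card {j : Fin n // j ∉ S ∪ R} := by
    rw [Fintype.card_subtype_compl, Fintype.card_fin, Fintype.card_coe]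
    have := card_union_le S R
    omega
  refine le_trans (pr_mono fun ω hω => ?_) (pr_blk
    (fun p : {j : Fin n // j ∉ S ∪ R} × S => s((p.1 : Fin n), (p.2 : Fin n))) ?_
    (fun ω y => ∃ Λ ∈ F (fun j i => mat ω j i), ∀ j, bv (fun i => y (j, i)) ∈ Λ) ?_ fun ω => ?_)
  · obtain ⟨Λ, hΛ, h⟩ := hω
    exact ⟨Λ, hΛ, fun j => h j⟩
  · rintro ⟨j, i⟩ ⟨j', i'⟩ h
    rcases Sym2.eq_iff.1 h with ⟨a, b⟩ | ⟨a, -⟩
    · exact Prod.ext (Subtype.ext a) (Subtype.ext b)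
    · exact absurd (mem_union_left R (a ▸ i'.2)) j.2
  · rintro ω ω' h y ⟨Λ, hΛ, hy⟩
    refine ⟨Λ, ?_, hy⟩
    rwa [← h2 (fun j i => mat ω j i) _ fun a ha => funext fun i => ?_]
    rw [mat_apply, mat_apply, h]
    rintro ⟨⟨j, i'⟩, e⟩
    rcases Sym2.eq_iff.1 e with ⟨b, -⟩ | ⟨b, -⟩
    · exact j.2 (mem_union_right S (b ▸ ha))
    · exact j.2 (mem_union_left R (b ▸ i.2))
  · refine (pr_exists_le _ _).trans ((sum_le_card_nsmul _ _
      ((1 / 2 : ℝ) ^ (n - S.card - R.card)) fun Λ hΛ => ?_).trans ?_)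
    · rw [pr_pi fun (_ : {j : Fin n // j ∉ S ∪ R}) (b : S → Bool) => bv b ∈ Λ, prod_const,
        card_univ]
      exact (pow_le_pow_left₀ (pr_nonneg _) (pr_half Λ (h1 _ Λ hΛ)) _).trans
        (pow_le_pow_of_le_one (by norm_num) (by norm_num) hc)
    · rw [nsmul_eq_mul]
      exact mul_le_mul_of_nonneg_right (by exact_mod_cast h3 _ fun j i => abs_bz_le _)
        (by positivity)

theorem spb_poly {ε : ℝ} (hε : 0 < ε) :
    ∀ᶠ n : ℕ in atTop, ((n ^ 2 + 1 : ℕ) : ℝ) ≤ (2 : ℝ) ^ (ε * n) := by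
  have h := tendsto_pow_const_div_const_pow_of_one_lt 2 (Real.one_lt_rpow one_lt_two hε)
  filter_upwards [h.eventually_le_const (show (0 : ℝ) < 1 / 2 by norm_num),
    eventually_ge_atTop 1] with n h1 h2
  have h3 : (1 : ℝ) ≤ (n : ℝ) ^ 2 := one_le_pow₀ (by exact_mod_cast h2)
  rw [div_le_iff₀ (by positivity), ← Real.rpow_mul_natCast two_pos.le] at h1
  push_cast
  linarith

/-- Union over `S` (the support, `|S| ≤ γ n`) and `R` (`|R| ≤ 2 γ n`): `cnt_small_sets`,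
`sp_family`, `sp_fixed`; total `≤ 2^(2 ε n) (n² + 1) 2^(-(1 - 3γ) n)`. -/
theorem spk_prob {x : ℝ} (hx : 1 / 2 < x) : ∃ γ > (0 : ℝ), ∀ᶠ n : ℕ in atTop,
    pr (fun ω : Om n => Spk γ (mat ω)) ≤ x ^ n := by
  classical
  obtain ⟨ε, hε, hεx⟩ : ∃ ε : ℝ, 0 < ε ∧ (2 : ℝ) ^ (6 * ε - 1) = x := by
    refine ⟨Real.logb 2 (2 * x) / 6, div_pos (Real.logb_pos one_lt_two (by linarith))
      (by norm_num), ?_⟩
    rw [mul_div_cancel₀ _ (by norm_num), Real.rpow_sub_one two_ne_zero,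
      Real.rpow_logb two_pos (by norm_num) (by linarith)]
    ring
  obtain ⟨δ, hδ, hs⟩ := cnt_small_sets hε
  obtain ⟨γ, g0, g1, g2⟩ : ∃ γ : ℝ, 0 < γ ∧ γ ≤ δ / 2 ∧ γ ≤ ε :=
    ⟨min (δ / 2) ε, by positivity, min_le_left _ _, min_le_right _ _⟩
  refine ⟨γ, g0, ?_⟩
  filter_upwards [spb_poly hε] with n hn
  have n0 : (0 : ℝ) ≤ n := Nat.cast_nonneg n
  choose F f1 f2 f3 f4 using fun S : Finset (Fin n) => sp_family (Fin n) S
  have hcard : ∀ c : ℝ, c ≤ δ → ((univ.filter fun S : Finset (Fin n) =>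
      (S.card : ℝ) ≤ c * n).card : ℝ) ≤ (2 : ℝ) ^ (ε * n) := by
    intro c hc
    refine le_trans ?_ (hs n)
    rw [← cnt_eq]
    exact_mod_cast cnt_mono fun S h => le_trans h (mul_le_mul_of_nonneg_right hc n0)
  refine (pr_mono (q := fun ω : Om n =>
    ∃ S ∈ univ.filter fun S : Finset (Fin n) => (S.card : ℝ) ≤ γ * n,
      ∃ R ∈ univ.filter fun R : Finset (Fin n) => (R.card : ℝ) ≤ 2 * γ * n,
        ∃ Λ ∈ F S R (fun j i => mat ω j i), ∀ j, (fun i : S => mat ω j i) ∈ Λ)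
    fun ω hω => ?_).trans ((pr_exists_le _ _).trans ?_)
  · obtain ⟨p, hp, u, ⟨i, hi⟩, hu, hc⟩ := hω
    rw [cnt_eq] at hc
    set S := univ.filter fun i => ¬ (p : ℤ) ∣ u i with hS
    obtain ⟨R, hR, h⟩ := f4 S (fun j i => mat ω j i) p hp (fun i => u i)
      ⟨⟨i, mem_filter.2 ⟨mem_univ _, hi⟩⟩, hi⟩ fun j => by
        have h1 := hu j
        rw [mulVec, dotProduct, ← sum_filter_add_sum_filter_not univ fun i => (p : ℤ) ∣ u i] at h1
        rw [dotProduct, sum_coe_sort S fun i => mat ω j i * u i]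
        exact (dvd_add_right (dvd_sum fun i hi => (mem_filter.1 hi).2.mul_left _)).1 h1
    refine ⟨S, mem_filter.2 ⟨mem_univ _, hc⟩, R, mem_filter.2 ⟨mem_univ _, ?_⟩, h⟩
    rw [Fintype.card_coe] at hR
    have : (R.card : ℝ) ≤ 2 * S.card := by exact_mod_cast hR
    linarith
  · have hb : ∀ S ∈ univ.filter fun S : Finset (Fin n) => (S.card : ℝ) ≤ γ * n,
        ∀ R ∈ univ.filter fun R : Finset (Fin n) => (R.card : ℝ) ≤ 2 * γ * n,
          pr (fun ω : Om n => ∃ Λ ∈ F S R (fun j i => mat ω j i),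
            ∀ j, (fun i : S => mat ω j i) ∈ Λ) ≤
              (2 : ℝ) ^ (ε * n) * (2 : ℝ) ^ ((3 * ε - 1) * n) := by
      intro S hS R hR
      have a1 := (mem_filter.1 hS).2
      have a2 := (mem_filter.1 hR).2
      refine (sp_fixed S R (F S R) (n ^ 2 + 1) (f1 S R) (f2 S R) fun X hX =>
        (f3 S R X hX).trans ?_).trans (mul_le_mul hn ?_ (by positivity) (by positivity))
      · rw [Fintype.card_coe]
        exact Nat.succ_le_succ (Nat.pow_le_pow_left (by simpa using card_le_univ S) 2)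
      · rw [one_div, inv_pow, ← Real.rpow_natCast, ← Real.rpow_neg two_pos.le]
        refine Real.rpow_le_rpow_of_exponent_le one_le_two ?_
        have a3 : (n : ℝ) ≤ (n - S.card - R.card : ℕ) + S.card + R.card := by
          exact_mod_cast (by omega : n ≤ n - S.card - R.card + S.card + R.card)
        nlinarith [mul_le_mul_of_nonneg_right g2 n0]
    refine (sum_le_card_nsmul _ _ ((2 : ℝ) ^ (ε * n) * ((2 : ℝ) ^ (ε * n) *
      (2 : ℝ) ^ ((3 * ε - 1) * n))) fun S hS => ?_).trans ?_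
    · refine (pr_exists_le _ _).trans ((sum_le_card_nsmul _ _ _ (hb S hS)).trans ?_)
      rw [nsmul_eq_mul]
      exact mul_le_mul_of_nonneg_right (hcard _ (by linarith)) (by positivity)
    · rw [nsmul_eq_mul]
      refine (mul_le_mul_of_nonneg_right (hcard _ (by linarith)) (by positivity)).trans
        (le_of_eq ?_)
      rw [← hεx, ← Real.rpow_mul_natCast two_pos.le, ← Real.rpow_add two_pos,
        ← Real.rpow_add two_pos, ← Real.rpow_add two_pos]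
      congr 1
      ring

end Vale.Agent.P160
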