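import Vale.Agent.P160.TAdj

open Finset Filter Matrix

namespace Vale.Agent.P160

/-- Averaging. With `N i = ∏ p^(v_p c)` over the primes `p ∣ c` with `¬ p ∣ v i`, one has
`∏ i, N i = ∏ p, p^(v_p(c) * cnt) ≥ c^(γ n)`; take `i` maximising `N i`. -/
theorem coprime_part {n : ℕ} (hn : 0 < n) (v : Fin n → ℤ) {c : ℕ} (hc : 0 < c) {γ : ℝ}
    (hγ : 0 < γ)
    (h : ∀ p : ℕ, p.Prime → p ∣ c → γ * n ≤ (cnt (fun i => ¬ (p : ℤ) ∣ v i) : ℝ)) :
    ∃ (i : Fin n) (N : ℕ), N ∣ c ∧ IsCoprime (v i) (N : ℤ) ∧ (c : ℝ) ^ γ ≤ N := by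
  classical
  let N : Fin n → ℕ := fun i =>
    ∏ p ∈ c.primeFactors.filter (fun p : ℕ => ¬ (p : ℤ) ∣ v i), p ^ c.factorization p
  have hcp : ∏ p ∈ c.primeFactors, p ^ c.factorization p = c :=
    Nat.factorization_prod_pow_eq_self hc.ne'
  have hp0 : ∀ p ∈ c.primeFactors, ((p : ℝ) ^ c.factorization p) ≠ 0 := fun p hp =>
    pow_ne_zero _ (Nat.cast_ne_zero.2 (Nat.prime_of_mem_primeFactors hp).ne_zero)
  have hN : ∀ i, Real.log (N i) = ∑ p ∈ c.primeFactors,
      if ¬ (p : ℤ) ∣ v i then Real.log ((p : ℝ) ^ c.factorization p) else 0 := fun i => by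
    simp only [N, Nat.cast_prod, Nat.cast_pow]
    rw [Real.log_prod fun p hp => hp0 p (mem_filter.1 hp).1, sum_filter]
  have hlc : Real.log c = ∑ p ∈ c.primeFactors, Real.log ((p : ℝ) ^ c.factorization p) := by
    conv_lhs => rw [← hcp]
    simp only [Nat.cast_prod, Nat.cast_pow]
    exact Real.log_prod hp0
  have hsum : ∑ _i : Fin n, Real.log c * γ ≤ ∑ i, Real.log (N i) := by
    simp only [hN]
    rw [sum_comm, sum_const, card_univ, Fintype.card_fin, nsmul_eq_mul, hlc, sum_mul, mul_sum]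
    refine sum_le_sum fun p hp => ?_
    have h1 := h p (Nat.prime_of_mem_primeFactors hp) (Nat.dvd_of_mem_primeFactors hp)
    have h2 : 0 ≤ Real.log ((p : ℝ) ^ c.factorization p) := Real.log_nonneg
      (one_le_pow₀ (by exact_mod_cast (Nat.prime_of_mem_primeFactors hp).one_le))
    rw [← sum_filter, sum_const, nsmul_eq_mul, ← cnt_eq]
    nlinarith
  have : Nonempty (Fin n) := ⟨⟨0, hn⟩⟩
  obtain ⟨i, -, hi⟩ := exists_le_of_sum_le univ_nonempty hsum
  have hd : N i ∣ c := by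
    conv_rhs => rw [← hcp]
    exact prod_dvd_prod_of_subset _ _ _ (filter_subset _ _)
  refine ⟨i, N i, hd, ?_, ?_⟩
  · simp only [N, Nat.cast_prod, Nat.cast_pow]
    refine IsCoprime.prod_right fun p hp => IsCoprime.pow_right ?_
    rw [mem_filter] at hp
    exact ((Nat.prime_iff_prime_int.1
      (Nat.prime_of_mem_primeFactors hp.1)).coprime_iff_not_dvd.2 hp.2).symm
  · have h3 : (0 : ℝ) < N i := by exact_mod_cast Nat.pos_of_dvd_of_pos hd hc
    rw [Real.rpow_def_of_pos (by exact_mod_cast hc), ← Real.exp_log h3]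
    exact Real.exp_le_exp.2 hi

/-- Take `v, c` from `adj_struct`; let `C = mat (del i ω)`, `b = bv (col i ω)`,
`v' = v ∘ i.succAbove`; `A v = 0` reads `C v' + v i • b = 0` and `b ⬝ v' + A i i * v i = 0`
(`Fin.sum_univ_succAbove`). If `|c| ≥ m^(m/100)`: `coprime_part` (use `¬ Spk` with `u = v`),
`N > 1` forces `v i ≠ 0`, Bezout gives `b ∈ lat C N`. Otherwise take `i` maximising `|v i|`,
`Iso C b |c| (v i) (-v')` and `y = -v' / v i`. -/
theorem one_split {m : ℕ} (hm : 2 ≤ m) {γ : ℝ} (hγ : 0 < γ) (ω : Om (m + 1))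
    (hr : rk (mat ω) + 1 = m + 1) (hs : ¬ Spk γ (mat ω)) :
    ∃ i : Fin (m + 1), (mat (del i ω)).det ≠ 0 ∧
      (Big (γ / 100) (mat (del i ω)) (bv (col i ω)) ∨
        (Sm (mat (del i ω)) (bv (col i ω)) ∧ Bx (mat (del i ω)) (bv (col i ω)))) := by
  obtain ⟨v, c, hv, ⟨w, hw⟩, hc, hdet⟩ := adj_struct (mat ω) (mat_isSymm ω) hr
  simp only [← mat_del] at hdet
  have e1 : ∀ i, (mat (del i ω)).mulVec (-fun j => v (i.succAbove j)) = v i • bv (col i ω) := by
    intro i
    funext j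
    have := congrFun hv (i.succAbove j)
    simp only [mulVec, dotProduct, Fin.sum_univ_succAbove _ i, Pi.zero_apply] at this
    simp only [mat_del, Pi.neg_apply, Pi.smul_apply, bv_col, smul_eq_mul, mulVec,
      dotProduct, submatrix_apply, mat_symm ω i, mul_neg, sum_neg_distrib]
    linarith
  have e2 : ∀ i, bv (col i ω) ⬝ᵥ (-fun j => v (i.succAbove j)) = v i * mat ω i i := by
    intro i
    have := congrFun hv i
    simp only [mulVec, dotProduct, Fin.sum_univ_succAbove _ i, Pi.zero_apply] at this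
    simp only [dotProduct, bv_col, Pi.neg_apply, mul_neg, sum_neg_distrib]
    linarith
  have e3 : ∀ i, (mat (del i ω)).det.natAbs = c.natAbs * (v i).natAbs ^ 2 := fun i => by
    rw [hdet, Int.natAbs_mul, Int.natAbs_pow]
  have hm1 : (1 : ℝ) < m := by exact_mod_cast hm
  rcases le_total ((m : ℝ) ^ ((m : ℝ) / 100)) c.natAbs with hb | hb
  · obtain ⟨i, N, h1, h2, h3⟩ := coprime_part m.succ_pos v (Int.natAbs_pos.2 hc) hγ
      fun p hp _ => by
        by_contra h4
        refine hs ⟨p, hp, v, ?_, fun j => by simp [hv], (not_le.1 h4).le⟩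
        by_contra h5
        have h6 : (p : ℤ) ∣ w ⬝ᵥ v :=
          dvd_sum fun i _ => (not_not.1 fun h7 => h5 ⟨i, h7⟩).mul_left _
        rw [hw] at h6
        exact hp.one_lt.ne' (by exact_mod_cast Int.eq_one_of_dvd_one (by positivity) h6)
    have h4 : (m : ℝ) ^ (γ / 100 * m) ≤ N := by
      rw [show γ / 100 * m = m / 100 * γ by ring, Real.rpow_mul (by positivity)]
      exact (Real.rpow_le_rpow (by positivity) hb hγ.le).trans h3
    have h5 : (1 : ℝ) < N := (Real.one_lt_rpow hm1 (by positivity)).trans_le h4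
    have h6 : v i ≠ 0 := fun h7 => by
      rw [h7, isCoprime_zero_left, Int.isUnit_iff_natAbs_eq, Int.natAbs_natCast] at h2
      simp [h2] at h5
    refine ⟨i, by rw [hdet]; positivity, Or.inl ⟨N, by rw [e3]; exact h1.mul_right _, h4, ?_⟩⟩
    obtain ⟨a, b, hab⟩ := h2
    refine ⟨b • bv (col i ω), a • (-fun j => v (i.succAbove j)), ?_⟩
    rw [mulVec_smul, e1, smul_smul, smul_smul, ← add_smul, add_comm, mul_comm _ b, hab, one_smul]
  · obtain ⟨i, -, hi⟩ := exists_max_image univ (fun i => |v i|) univ_nonempty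
    have h6 : v i ≠ 0 := fun h7 => by
      have : v = 0 := funext fun j => by simpa [h7] using hi j (mem_univ _)
      simp [this] at hw
    refine ⟨i, by rw [hdet]; positivity, Or.inr ⟨⟨c.natAbs, v i, _, ⟨e1 i,
      ⟨-fun j => w (i.succAbove j), w i, ?_⟩, e3 i, ⟨_, e2 i⟩⟩, hb⟩,
      fun j => -(v (i.succAbove j) : ℝ) / v i, fun j => ?_, fun j => ?_⟩⟩
    · rw [neg_dotProduct_neg, ← hw, add_comm]
      simp only [dotProduct, Fin.sum_univ_succAbove _ i]
    · rw [abs_div, abs_neg]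
      exact div_le_one_of_le₀ (by exact_mod_cast hi _ (mem_univ _)) (abs_nonneg _)
    · have h7 : (v i : ℝ) ≠ 0 := by exact_mod_cast h6
      have := congrArg (Int.cast : ℤ → ℝ) (congrFun (e1 i) j)
      simp only [mulVec, dotProduct, Pi.neg_apply, Pi.smul_apply, smul_eq_mul, Int.cast_sum,
        Int.cast_mul, Int.cast_neg] at this
      simp only [← mul_div_assoc, ← sum_div, this]
      exact mul_div_cancel_left₀ _ h7

end Vale.Agent.P160
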