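import Vale.Agent.P160.TBord
import Vale.Agent.P160.TSpB
import Vale.Agent.P160.TCov
import Vale.Agent.P160.TSplit

open Finset Filter Matrix

namespace Vale.Agent.P160

theorem RichE.mono {m : ℕ} (hm : 1 ≤ m) {κ η η' : ℝ} (h : η ≤ η') {C : Matrix (Fin m) (Fin m) ℤ}
    (hC : RichE κ η' C) : RichE κ η C := by
  obtain ⟨Λ, h1, h2, h3⟩ := hC
  exact ⟨Λ, h1, (Real.rpow_le_rpow_of_exponent_le (by exact_mod_cast hm)
    (mul_le_mul_of_nonneg_right h (Nat.cast_nonneg m))).trans h2, h3⟩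

theorem TOne_geo {x y : ℝ} (hy : 0 ≤ y) (h : y < x) (a b : ℝ) :
    ∀ᶠ m : ℕ in atTop, (a + b * m) * y ^ m ≤ x ^ (m + 1) := by
  have hx : 0 < x := hy.trans_lt h
  have h0 : 0 ≤ y / x := div_nonneg hy hx.le
  have h1 : y / x < 1 := (div_lt_one hx).2 h
  have h2 := ((tendsto_pow_atTop_nhds_zero_of_lt_one h0 h1).const_mul a).add
    ((tendsto_self_mul_const_pow_of_lt_one h0 h1).const_mul b)
  rw [mul_zero, mul_zero, add_zero] at h2
  filter_upwards [h2.eventually (gt_mem_nhds hx)] with m hm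
  rw [← mul_assoc, ← add_mul, div_pow, ← mul_div_assoc, div_lt_iff₀ (pow_pos hx m)] at hm
  rw [pow_succ']
  exact hm.le

theorem TOne_or {α : Type} [Fintype α] (p q : α → Prop) :
    (cnt (fun a => p a ∨ q a) : ℝ) ≤ cnt p + cnt q := by
  classical
  rw [cnt_eq, cnt_eq, cnt_eq, filter_or]
  exact_mod_cast card_union_le _ _

theorem TOne_cnt {κ s : ℝ} (hκ : 0 < κ) (hs : 0 < s) : ∃ η > (0 : ℝ), ∀ᶠ m : ℕ in atTop,
    ∀ ω : Om m, ¬ ((mat ω).det ≠ 0 ∧ (RichE κ η (mat ω) ∨ RichG κ (mat ω))) →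
      (cnt (fun b : Fin m → Bool => (mat ω).det ≠ 0 ∧ (Big s (mat ω) (bv b) ∨
        (Sm (mat ω) (bv b) ∧ Bx (mat ω) (bv b)))) : ℝ) ≤ 3 * (2 : ℝ) ^ (2 * κ * m) := by
  obtain ⟨η₁, h1, h1'⟩ := cnt_big hκ hs
  obtain ⟨η₂, h2, h2'⟩ := cnt_sm hκ
  refine ⟨min η₁ η₂, lt_min h1 h2, ?_⟩
  filter_upwards [h1', h2', eventually_ge_atTop 1] with m h3 h4 hm ω hB
  have h0 : (0 : ℝ) < 2 ^ (2 * κ * m) := by positivity
  by_cases hd : (mat ω).det = 0
  · simp only [hd, ne_eq, not_true, false_and, cnt_eq, filter_false, card_empty, Nat.cast_zero]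
    positivity
  rw [not_and, not_or] at hB
  obtain ⟨hE, hG⟩ := hB hd
  have h5 := h3 _ hd (natAbs_det_mat_le ω) fun h => hE (h.mono hm (min_le_left _ _))
  have h6 : (cnt (fun b : Fin m → Bool => Sm (mat ω) (bv b) ∧ Bx (mat ω) (bv b)) : ℝ) ≤
      2 * (2 : ℝ) ^ (2 * κ * m) := by
    rcases le_total ((m : ℝ) ^ ((m : ℝ) / 4)) |((mat ω).det : ℝ)| with h7 | h7
    · exact (Nat.cast_le.2 (cnt_mono fun b hb => hb.1)).trans (h4 _ (mat_isSymm ω) hd
        (natAbs_det_mat_le ω) h7 fun h => hE (h.mono hm (min_le_right _ _)))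
    · have h8 := (Nat.cast_le.2 (cnt_mono (p := fun b : Fin m → Bool =>
        Sm (mat ω) (bv b) ∧ Bx (mat ω) (bv b)) fun b hb => hb.2)).trans
          (not_le.1 fun h => hG ⟨h7, h⟩).le
      have h9 : (2 : ℝ) ^ (κ * m) ≤ 2 ^ (2 * κ * m) := Real.rpow_le_rpow_of_exponent_le one_le_two
        (mul_le_mul_of_nonneg_right (by linarith) (Nat.cast_nonneg m))
      linarith
  refine ((Nat.cast_le.2 (cnt_mono fun b hb => hb.2)).trans (TOne_or _ _)).trans ?_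
  linarith

/-- `n = m + 1`. `one_split`, `pr_or_le`, `pr_exists_le`, `spk_prob` (with `1/2 < y < x`), and
`pr_col_le i` with `B` the event of `KP` (`η` the minimum of the two, `RichE.mono`) and
`K = 3 * 2^(2 κ m)` (`cnt_big`, `cnt_sm`, and `¬ RichG` when the determinant is small), where
`2^(2κ - 1) < x`. Total: `y^(m+1) + (m+1) (2^(-m) + 3 * 2^((2κ-1) m))`. -/
theorem pc_one (hKP : KP) {x : ℝ} (hx : 1 / 2 < x) : ∀ᶠ n : ℕ in atTop, pc n 1 ≤ x ^ n := by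
  obtain ⟨y, hy, hyx⟩ := exists_between hx
  obtain ⟨γ, hγ, h1⟩ := spk_prob hy
  obtain ⟨κ, hκ, h2⟩ : ∃ κ : ℝ, 0 < κ ∧ ∀ m : ℕ, (2 : ℝ) ^ (2 * κ * m) = 2 ^ m * y ^ m := by
    refine ⟨Real.logb 2 (2 * y) / 2, half_pos (Real.logb_pos one_lt_two (by linarith)),
      fun m => ?_⟩
    rw [mul_div_cancel₀ _ two_ne_zero, Real.rpow_mul_natCast zero_le_two,
      Real.rpow_logb two_pos (by norm_num) (by linarith), mul_pow]
  obtain ⟨η, hη, h3⟩ := TOne_cnt hκ (div_pos hγ (by norm_num : (0 : ℝ) < 100))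
  rw [← map_add_atTop_eq_nat 1, eventually_map]
  filter_upwards [(tendsto_add_atTop_nat 1).eventually h1, h3, hKP κ η hκ hη,
    TOne_geo (by linarith) hyx (y + 4) 4, eventually_ge_atTop 2] with m h4 h5 h6 h7 hm
  have h8 : (2 : ℝ) ^ (-(m : ℝ)) ≤ y ^ m := by
    rw [Real.rpow_neg zero_le_two, Real.rpow_natCast, ← inv_pow]
    exact pow_le_pow_left₀ (by norm_num) (by linarith) m
  have h9 : ∀ i ∈ (univ : Finset (Fin (m + 1))), pr (fun ω : Om (m + 1) =>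
      (mat (del i ω)).det ≠ 0 ∧ (Big (γ / 100) (mat (del i ω)) (bv (col i ω)) ∨
        (Sm (mat (del i ω)) (bv (col i ω)) ∧ Bx (mat (del i ω)) (bv (col i ω))))) ≤ 4 * y ^ m := by
    intro i _
    refine (pr_col_le i _ _ (by positivity) h5).trans ?_
    rw [h2, mul_left_comm, mul_div_cancel_left₀ _ (by positivity)]
    linarith
  have h10 := (pr_exists_le _ _).trans (sum_le_sum h9)
  refine ((pr_mono fun ω hω => ?_).trans ((pr_or_le _ _).trans (add_le_add h4 h10))).trans ?_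
  · refine or_iff_not_imp_left.2 fun hs => ?_
    obtain ⟨i, hi⟩ := one_split hm hγ ω hω hs
    exact ⟨i, mem_univ i, hi⟩
  · rw [sum_const, card_univ, Fintype.card_fin, nsmul_eq_mul, pow_succ]
    push_cast
    linarith

end Vale.Agent.P160
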