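import Vale.Agent.P160.TBord

open Finset Filter Matrix

namespace Vale.Agent.P160

/-- the sign of a bit -/
def TSign_sg (b : Bool) : ℤ := if b then 1 else -1

/-- the change of variables -/
def TSign_phi {m : ℕ} (c : Fin m → Bool) (d : Bool) (ω : Om m) : Om m := fun e =>
  xor (ω e) (Sym2.lift ⟨fun j k => xor d (xor (c j) (c k)), fun _ _ =>
    congrArg (xor d) (Bool.xor_comm _ _)⟩ e)

theorem TSign_inv {m : ℕ} (c : Fin m → Bool) (d : Bool) :
    Function.Involutive (TSign_phi c d) := fun ω => by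
  funext e
  simp [TSign_phi]

theorem TSign_ne (b : Bool) : TSign_sg b ≠ 0 := by cases b <;> simp [TSign_sg]

theorem TSign_sq (b : Bool) : TSign_sg b * TSign_sg b = 1 := by cases b <;> simp [TSign_sg]

theorem TSign_alg (x y z w : Bool) : TSign_sg x - TSign_sg y * TSign_sg w * TSign_sg z =
    -2 * TSign_sg w * TSign_sg y * (TSign_sg z * bz (xor x (xor w (xor y z)))) := by
  cases x <;> cases y <;> cases z <;> cases w <;> simp [TSign_sg, bz]

theorem TSign_det {m : ℕ} (ω : Om (m + 1)) :
    (smat ω).det = 0 ↔ (mat (TSign_phi (col 0 ω) (dia 0 ω) (del 0 ω))).det = 0 := by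
  set a := TSign_sg (dia 0 ω) with ha
  set c : Fin m → ℤ := fun j => TSign_sg (col 0 ω j) with hc
  set M := mat (TSign_phi (col 0 ω) (dia 0 ω) (del 0 ω)) with hM
  let e : Fin (m + 1) → ℤ := Fin.cons 0 fun j => c j * a
  let B : Matrix (Fin (m + 1)) (Fin (m + 1)) ℤ := fun i j => smat ω i j - e i * smat ω 0 j
  have h1 : (smat ω).det = B.det :=
    det_eq_of_forall_row_eq_smul_add_const e 0 rfl fun i j => by simp [B, e]
  have h2 : ∀ j : Fin m, B j.succ 0 = 0 := fun j => by
    have e1 : smat ω j.succ 0 = c j := congrArg (fun e => TSign_sg (ω e)) Sym2.eq_swap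
    have e2 : smat ω 0 0 * a = 1 := TSign_sq _
    simp only [B, e, Fin.cons_succ, e1]
    linear_combination (-c j) * e2
  have h3 : B.submatrix Fin.succ Fin.succ =
      of fun j k => (-2 * a * c j) * (of fun j k => c k * M j k) j k := by
    ext j k
    exact TSign_alg (ω s(j.succ, k.succ)) (ω s(0, j.succ)) (ω s(0, k.succ)) (ω s(0, 0))
  have h4 : B 0 0 = a := by
    simp only [B, e, Fin.cons_zero, zero_mul, sub_zero]
    rfl
  rw [h1, det_succ_column_zero, Fin.sum_univ_succ]
  simp only [h2, mul_zero, zero_mul, sum_const_zero, add_zero, Fin.succAbove_zero, h3, h4,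
    det_mul_column, det_mul_row]
  have h5 : a ≠ 0 := TSign_ne _
  have h6 : ∀ j, c j ≠ 0 := fun j => TSign_ne _
  simp [h5, h6, prod_eq_zero_iff]

theorem TSign_pr_equiv {α : Type} [Fintype α] (p : α → Prop) (f : α ≃ α) :
    pr (fun a => p (f a)) = pr p := by
  classical
  rw [pr, pr, cnt_eq, cnt_eq, card_equiv f (t := univ.filter p) fun a => by simp]

/-- Let `A = smat ω`, `a = A 0 0`, `d j = a * A 0 (succ j)`. Subtracting `A (succ j) 0 * a` times
row `0` from row `succ j` (or `Matrix.det_fromBlocks₁₁` after `finSuccEquiv`) gives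
`det A = a * det S`, `S j k = A (succ j) (succ k) - a * A 0 (succ j) * A 0 (succ k)
= d j * d k * (-2 a) * mat (Φ ω') j k`, where `Φ ω' e = xor (ω' e) (pattern e)` and the pattern
depends only on `col 0 ω` and `dia 0 ω` (symmetric in `j, k`; `Sym2.lift`). For a fixed pattern
`Φ` is an involution of `Om m`; finish with `pr_bord 0`, `pr_prod` (or a bijection of the triple
product). -/
theorem qs_succ (m : ℕ) : qs (m + 1) = q01 m := by
  classical
  let f : Om m × (Fin m → Bool) × Bool → Om m × (Fin m → Bool) × Bool :=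
    fun x => (TSign_phi x.2.1 x.2.2 x.1, x.2)
  have hf : Function.Involutive f := fun x => Prod.ext (TSign_inv _ _ _) rfl
  have h1 := pr_bord (m := m) 0 fun ω c d => (mat (TSign_phi c d ω)).det = 0
  have h2 := TSign_pr_equiv (fun x : Om m × (Fin m → Bool) × Bool => (mat x.1).det = 0) hf.toPerm
  have h3 := pr_prod fun (ω : Om m) (_ : (Fin m → Bool) × Bool) => (mat ω).det = 0
  simp only [qs, TSign_det]
  rw [h1]
  refine h2.trans (h3.trans ?_)
  rw [q01, pr, cnt_eq, card_filter, Nat.cast_sum]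
  congr 1
  refine sum_congr rfl fun ω _ => ?_
  rw [pr, cnt_eq]
  split_ifs with h <;> simp [h]

/-- If `col 0 ω` and `dia 0 ω` vanish then row `0` is zero (`Matrix.det_eq_zero_of_row_eq_zero`);
`pr_bord 0`. -/
theorem q01_low (m : ℕ) : (1 / 2 : ℝ) ^ (m + 1) ≤ q01 (m + 1) := by
  classical
  have h1 := pr_bord (m := m) 0 fun _ c d => (c, d) = (fun _ => false, false)
  have h2 := pr_prod fun (_ : Om m) (y : (Fin m → Bool) × Bool) => y = (fun _ => false, false)
  have h3 : pr (fun y : (Fin m → Bool) × Bool => y = (fun _ => false, false)) =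
      (1 / 2 : ℝ) ^ (m + 1) := by
    rw [pr, cnt_eq, filter_eq' univ]
    simp [pow_succ, mul_comm]
  have h4 : (Fintype.card (Om m) : ℝ) ≠ 0 := by exact_mod_cast Fintype.card_ne_zero
  rw [h3, sum_const, card_univ, nsmul_eq_mul, mul_div_cancel_left₀ _ h4] at h2
  refine ((h1.trans h2).symm.le).trans (pr_mono fun ω h => ?_)
  rw [Prod.mk.injEq] at h
  refine det_eq_zero_of_row_eq_zero 0 fun j => ?_
  refine Fin.cases ?_ (fun j => ?_) j
  · rw [← bz_dia, h.2]; rfl
  · have := bv_col 0 ω j
    rw [Fin.succAbove_zero] at this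
    rw [← this, h.1]; rfl

end Vale.Agent.P160
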