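import Vale.Agent.P160.TOne
import Vale.Agent.P160.TSign
import Vale.Agent.P160.TCork

open Finset Filter Matrix

namespace Vale.Agent.P160

/-- `tendsto_order`; take `n`-th roots (`Real.rpow_le_rpow`, `Real.pow_rpow_inv_natCast`). -/
theorem root_tendsto (q : ℕ → ℝ) (h₁ : ∀ᶠ n : ℕ in atTop, (1 / 2 : ℝ) ^ n ≤ q n)
    (h₂ : ∀ x : ℝ, 1 / 2 < x → ∀ᶠ n : ℕ in atTop, q n ≤ x ^ n) :
    Tendsto (fun n : ℕ => q n ^ (1 / (n : ℝ))) atTop (nhds (1 / 2)) := by
  have h0 : ∀ (x : ℝ) (n : ℕ), 0 ≤ x → 1 ≤ n → (x ^ n) ^ (1 / (n : ℝ)) = x := fun x n hx hn => by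
    rw [one_div, Real.pow_rpow_inv_natCast hx (by omega)]
  refine tendsto_order.2 ⟨fun a ha => ?_, fun a ha => ?_⟩
  · filter_upwards [h₁, eventually_ge_atTop 1] with n h hn
    refine ha.trans_le ((h0 _ n (by norm_num) hn).symm.trans_le ?_)
    exact Real.rpow_le_rpow (by positivity) h (by positivity)
  · obtain ⟨x, hx, hxa⟩ := exists_between ha
    filter_upwards [h₁, h₂ x hx, eventually_ge_atTop 1] with n h h' hn
    refine lt_of_le_of_lt (le_of_le_of_eq ?_ (h0 x n (by linarith) hn)) hxa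
    exact Real.rpow_le_rpow (le_trans (by positivity) h) h' (by positivity)

/-- `qs_succ`, `q01_low`, `q01_le`, `pc_one`; `m y^m ≤ x^(m+1)` eventually for `y < x`. -/
theorem top (hKP : KP) :
    Tendsto (fun n : ℕ => qs n ^ (1 / (n : ℝ))) atTop (nhds (1 / 2)) := by
  refine root_tendsto qs ?_ fun x hx => ?_
  · rw [← map_add_atTop_eq_nat 2, eventually_map]
    refine Eventually.of_forall fun m => ?_
    rw [qs_succ (m + 1)]
    exact (pow_le_pow_of_le_one (by norm_num) (by norm_num) (by omega)).trans (q01_low m)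
  · obtain ⟨y, hy, hyx⟩ := exists_between (lt_min hx (by norm_num : (1 / 2 : ℝ) < 3 / 4))
    obtain ⟨m₀, h⟩ := eventually_atTop.1 (pc_one hKP hy)
    rw [← map_add_atTop_eq_nat 1, eventually_map]
    filter_upwards [TOne_geo (by linarith) (hyx.trans_le (min_le_left _ _)) 0 1,
      eventually_ge_atTop m₀] with m h1 hm
    rw [zero_add, one_mul] at h1
    rw [qs_succ]
    exact (q01_le (by linarith) (hyx.le.trans (min_le_right _ _)) h hm).trans h1

end Vale.Agent.P160
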