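import Vale.Agent.P160.TIdx
import Vale.Agent.P160.TAri

open Finset Filter Matrix

namespace Vale.Agent.P160

/-- The pairing `bᵀ C⁻¹ b'` when `C⁻¹ b' = v / r`. -/
def pq {m : ℕ} (b : Fin m → ℤ) (r : ℤ) (v : Fin m → ℤ) : ℚ := ((b ⬝ᵥ v : ℤ) : ℚ) / r

theorem TTri_symm {m : ℕ} {C : Matrix (Fin m) (Fin m) ℤ} (hs : C.IsSymm) (x y : Fin m → ℤ) :
    C.mulVec x ⬝ᵥ y = x ⬝ᵥ C.mulVec y := by
  rw [dotProduct_mulVec, ← mulVec_transpose, hs.eq]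

theorem TTri_ne {m : ℕ} {C : Matrix (Fin m) (Fin m) ℤ} (hC : C.det ≠ 0) {b v : Fin m → ℤ} {c : ℕ}
    {r : ℤ} (h : Iso C b c r v) : r ≠ 0 ∧ 0 < c := by
  have h1 := Int.natAbs_ne_zero.2 hC
  rw [h.2.2.1] at h1
  exact ⟨by rintro rfl; simp at h1, Nat.pos_of_ne_zero (left_ne_zero_of_mul h1)⟩

/-- `r₁ (b₁ ⬝ v₂) = C v₁ ⬝ v₂ = v₁ ⬝ C v₂ = r₂ (b₂ ⬝ v₁)`, and `r₁, r₂ ≠ 0`. -/
theorem pq_symm {m : ℕ} {C : Matrix (Fin m) (Fin m) ℤ} (hs : C.IsSymm) (hC : C.det ≠ 0)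
    {b₁ v₁ b₂ v₂ : Fin m → ℤ} {c₁ c₂ : ℕ} {r₁ r₂ : ℤ} (h₁ : Iso C b₁ c₁ r₁ v₁)
    (h₂ : Iso C b₂ c₂ r₂ v₂) : pq b₁ r₂ v₂ = pq b₂ r₁ v₁ := by
  have e := TTri_symm hs v₁ v₂
  rw [h₁.1, h₂.1, smul_dotProduct, dotProduct_smul, dotProduct_comm v₁, smul_eq_mul,
    smul_eq_mul] at e
  rw [pq, pq, div_eq_div_iff (Int.cast_ne_zero.2 (TTri_ne hC h₂).1)
    (Int.cast_ne_zero.2 (TTri_ne hC h₁).1), mul_comm, mul_comm _ (r₂ : ℚ)]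
  exact_mod_cast e

theorem pq_den_mul {m : ℕ} (b v : Fin m → ℤ) {r : ℤ} (hr : r ≠ 0) :
    (pq b r v).den * Int.gcd (b ⬝ᵥ v) r = r.natAbs := by
  rw [pq, Rat.intCast_div_eq_divInt, Rat.den_divInt, if_neg hr, Int.gcd_comm r]
  exact Nat.div_mul_cancel (Nat.gcd_dvd_right _ _)

/-- For `z = l • b₃ - k • b₂` with integral pairing against `b₁`, `perp_mul` gives
`c₁ z = t b₁ + C y`; pair with `x = l v₃/r₃ - k v₂/r₂` (so `C x = z`): `c₁ (z ⬝ x)` is an integer,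
and `z ⬝ x = l² a33 - 2 l k a23 + k² a22` with `a22, a33` integers. Then `den_arith`. -/
theorem den_dvd {m : ℕ} {C : Matrix (Fin m) (Fin m) ℤ} (hs : C.IsSymm) (hC : C.det ≠ 0)
    {b₁ v₁ b₂ v₂ b₃ v₃ : Fin m → ℤ} {c₁ c₂ c₃ : ℕ} {r₁ r₂ r₃ : ℤ} (h₁ : Iso C b₁ c₁ r₁ v₁)
    (h₂ : Iso C b₂ c₂ r₂ v₂) (h₃ : Iso C b₃ c₃ r₃ v₃) :
    (pq b₂ r₃ v₃).den * Nat.gcd (pq b₁ r₂ v₂).den (pq b₁ r₃ v₃).den ^ 2 ∣
      2 * c₁ * (pq b₁ r₂ v₂).den * (pq b₁ r₃ v₃).den := by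
  refine den_arith fun l k ⟨t, ht⟩ => ?_
  have n₁ : (r₁ : ℚ) ≠ 0 := Int.cast_ne_zero.2 (TTri_ne hC h₁).1
  have n₂ : (r₂ : ℚ) ≠ 0 := Int.cast_ne_zero.2 (TTri_ne hC h₂).1
  have n₃ : (r₃ : ℚ) ≠ 0 := Int.cast_ne_zero.2 (TTri_ne hC h₃).1
  have hz : r₁ ∣ (l • b₃ - k • b₂) ⬝ᵥ v₁ := by
    refine ⟨t, Int.cast_injective (α := ℚ) ?_⟩
    rw [pq_symm hs hC h₁ h₃, pq_symm hs hC h₁ h₂, pq, pq] at ht
    rw [sub_dotProduct, smul_dotProduct, smul_dotProduct, smul_eq_mul, smul_eq_mul, Int.cast_mul r₁,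
      ← ht, Int.cast_sub, Int.cast_mul, Int.cast_mul]
    field_simp
  obtain ⟨κ, y, hy⟩ := perp_mul hs hC h₁ hz
  have key : ∀ {b v : Fin m → ℤ} {c : ℕ} {r : ℤ}, Iso C b c r v →
      (c₁ : ℚ) * (l * pq b₃ r v - k * pq b₂ r v) = κ * pq b₁ r v + (y ⬝ᵥ b : ℤ) := by
    intro b v c r h
    have n : (r : ℚ) ≠ 0 := Int.cast_ne_zero.2 (TTri_ne hC h).1
    have e := congrArg (· ⬝ᵥ v) hy
    simp only [add_dotProduct, smul_dotProduct, sub_dotProduct, TTri_symm hs, h.1,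
      dotProduct_smul, smul_eq_mul] at e
    have e' := congrArg (Int.cast : ℤ → ℚ) e
    simp only [Int.cast_mul, Int.cast_sub, Int.cast_add, Int.cast_natCast] at e'
    simp only [pq]
    field_simp
    linear_combination e'
  have k3 := key h₃
  have k2 := key h₂
  obtain ⟨s₃, e₃⟩ := h₃.2.2.2
  obtain ⟨s₂, e₂⟩ := h₂.2.2.2
  have f₃ : pq b₃ r₃ v₃ = s₃ := by rw [pq, e₃, Int.cast_mul, mul_div_cancel_left₀ _ n₃]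
  have f₂ : pq b₂ r₂ v₂ = s₂ := by rw [pq, e₂, Int.cast_mul, mul_div_cancel_left₀ _ n₂]
  rw [f₃] at k3
  rw [f₂, pq_symm hs hC h₃ h₂] at k2
  refine ⟨c₁ * (l ^ 2 * s₃ + k ^ 2 * s₂) - κ * t - l * (y ⬝ᵥ b₃) + k * (y ⬝ᵥ b₂), ?_⟩
  simp only [Int.cast_mul, Int.cast_sub, Int.cast_add, Int.cast_natCast, Int.cast_pow]
  linear_combination (-l) * k3 + k * k2 - κ * ht

/-- `den_dvd` three times (with `pq_symm`), `pq_den_mul` (each denominator divides some `r`, whose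
square divides the determinant), `tri_arith`. -/
theorem triple {m : ℕ} {C : Matrix (Fin m) (Fin m) ℤ} (hs : C.IsSymm) (hC : C.det ≠ 0)
    {b₁ v₁ b₂ v₂ b₃ v₃ : Fin m → ℤ} {c₁ c₂ c₃ : ℕ} {r₁ r₂ r₃ : ℤ} (h₁ : Iso C b₁ c₁ r₁ v₁)
    (h₂ : Iso C b₂ c₂ r₂ v₂) (h₃ : Iso C b₃ c₃ r₃ v₃) :
    (pq b₁ r₂ v₂).den * (pq b₁ r₃ v₃).den * (pq b₂ r₃ v₃).den ≤
      2 * C.det.natAbs * c₁ * c₂ * c₃ := by
  have hN : 0 < C.det.natAbs := Int.natAbs_pos.2 hC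
  have d : ∀ (b' : Fin m → ℤ) {b v : Fin m → ℤ} {c : ℕ} {r : ℤ}, Iso C b c r v →
      (pq b' r v).den ^ 2 ∣ C.det.natAbs := fun b' b v c r h => by
    rw [h.2.2.1]
    exact (pow_dvd_pow_of_dvd (Dvd.intro _ (pq_den_mul b' v (TTri_ne hC h).1)) 2).mul_left _
  have k₂ := den_dvd hs hC h₂ h₁ h₃
  have k₃ := den_dvd hs hC h₃ h₁ h₂
  rw [pq_symm hs hC h₂ h₁] at k₂
  rw [pq_symm hs hC h₃ h₁, pq_symm hs hC h₃ h₂] at k₃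
  have p₁ := (TTri_ne hC h₁).2
  have p₂ := (TTri_ne hC h₂).2
  have p₃ := (TTri_ne hC h₃).2
  exact Nat.le_of_dvd (by positivity) (tri_arith hN p₁ p₂ p₃ (d _ h₂) (d _ h₃) (d _ h₃)
    (den_dvd hs hC h₁ h₂ h₃) k₂ k₃)

end Vale.Agent.P160
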